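import Vale.Agent.P024.H644.K9

/-!
The quotient of the cyclotomic characters is trivial on the decomposition groups at the alive
primes.
-/

namespace Vale.Agent.P024.TR

open scoped NumberField ENNReal Topology
open IsDedekindDomain NumberField Filter

theorem absNorm_bot {F E : Type*} [Field F] [NumberField F] [Field E] [Algebra F E]
    [NumberField (⊥ : IntermediateField F E)] {O : ValuationSubring E}
    {v : HeightOneSpectrum (𝓞 F)} (hv : IsCenter O v)
    {u : HeightOneSpectrum (𝓞 (⊥ : IntermediateField F E))} (hu : IsCenter O u) :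
    Ideal.absNorm u.asIdeal = Ideal.absNorm v.asIdeal := by
  let e : F ≃+* (⊥ : IntermediateField F E) := ((IntermediateField.botEquiv F E).symm).toRingEquiv
  have he : ∀ x : F, ((e x : (⊥ : IntermediateField F E)) : E) = algebraMap F E x := fun x => by
    exact congrArg Subtype.val ((IntermediateField.botEquiv F E).symm.commutes x)
  let e' := RingOfIntegers.mapRingEquiv e
  have hmap : u.asIdeal = v.asIdeal.map (e' : 𝓞 F →+* 𝓞 (⊥ : IntermediateField F E)) := by
    ext x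
    have h0 : x ∈ v.asIdeal.map (e' : 𝓞 F →+* 𝓞 (⊥ : IntermediateField F E)) ↔
        ∃ y ∈ v.asIdeal, e' y = x := Ideal.mem_map_of_equiv e' x
    rw [h0]
    have key : ∀ y : 𝓞 F, e' y ∈ u.asIdeal ↔ y ∈ v.asIdeal := by
      intro y
      rw [hu, hv]
      have h1 : algebraMap (⊥ : IntermediateField F E) E ((e' y : 𝓞 (⊥ : IntermediateField F E)) :
          (⊥ : IntermediateField F E)) = algebraMap F E (y : F) := he (y : F)
      rw [h1]
    constructor
    · intro hx
      exact ⟨e'.symm x, (key _).1 (by rwa [RingEquiv.apply_symm_apply]), e'.apply_symm_apply x⟩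
    · rintro ⟨y, hy, rfl⟩
      exact (key y).2 hy
  rw [Ideal.absNorm_apply, Ideal.absNorm_apply]
  exact Nat.card_congr (Ideal.quotientEquiv v.asIdeal u.asIdeal e' hmap).symm.toEquiv

section

variable {F₁ E₁ F₂ E₂ : Type*} [Field F₁] [NumberField F₁] [Field E₁] [Algebra F₁ E₁]
    [IsGalois F₁ E₁] [Field F₂] [NumberField F₂] [Field E₂] [Algebra F₂ E₂] [IsGalois F₂ E₂]

theorem eta_stab (hE₁ : SolvablyClosed E₁) (hE₂ : SolvablyClosed E₂)
    (α : (E₁ ≃ₐ[F₁] E₁) →* (E₂ ≃ₐ[F₂] E₂)) (hα : Continuous α) {p : ℕ} [hpf : Fact p.Prime]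
    (hp2 : p ≠ 2) (v : HeightOneSpectrum (𝓞 F₁)) (hv : v ∈ Alive α p) (O : ValuationSubring E₁)
    (hO : O ≠ ⊤) (hOv : IsCenter O v) (s : E₁ ≃ₐ[F₁] E₁) (hs : Stab O s) : eta α p s = 1 := by
  have : CharZero E₁ := charZero_of_injective_algebraMap (algebraMap F₁ E₁).injective
  have : Algebra.IsAlgebraic ℚ E₁ := Algebra.IsAlgebraic.trans ℚ F₁ E₁
  obtain ⟨σ, hσ, hσ'⟩ := exists_frob O hO v hOv
  have hcard : Nat.card (𝓞 F₁ ⧸ v.asIdeal) = Ideal.absNorm v.asIdeal := by
    rw [Ideal.absNorm_apply]; rfl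
  rw [hcard] at hσ'
  have hησ := eta_frob hE₁ hE₂ α hα hp2 v hv O hO hOv σ hσ hσ'
  have hηι : ∀ t : E₁ ≃ₐ[F₁] E₁, Stab O t → ActsPow O t 1 → eta α p t = 1 := by
    intro t ht ht1
    have h1 := eta_frob hE₁ hE₂ α hα hp2 v hv O hO hOv (σ * t) (hσ.mul ht)
      (by simpa using ActsPow.mul hσ ht hσ' ht1)
    rwa [map_mul (eta α p), hησ, one_mul] at h1
  refine redu_ext fun k => ?_
  rw [map_one]
  set W : Subgroup (E₁ ≃ₐ[F₁] E₁) := ((redu k).comp (eta α p)).ker with hW
  have hWo : IsOpen (W : Set (E₁ ≃ₐ[F₁] E₁)) := isOpen_ker_eta hE₁ hE₂ α hα (l := p) k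
  have hWn : W.Normal := MonoidHom.normal_ker _
  obtain ⟨hfd, hfix⟩ := finiteDimensional_fixedField W hWo
  set K := IntermediateField.fixedField W with hK
  have hNF : NumberField K := NumberField.of_module_finite F₁ K
  have hbot : NumberField (⊥ : IntermediateField F₁ E₁) := NumberField.of_module_finite F₁ _
  have hstab : ∀ (g : E₁ ≃ₐ[F₁] E₁), ∀ y ∈ K, g y ∈ K := by
    intro g y hy
    rw [hK, IntermediateField.mem_fixedField_iff] at hy ⊢
    intro h hh
    have h1 := hy _ (hWn.conj_mem h hh g⁻¹)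
    rw [inv_inv] at h1
    have h2 : h (g y) = g ((g⁻¹ * h * g) y) := by
      rw [← AlgEquiv.mul_apply, ← AlgEquiv.mul_apply]
      congr 1
      group
    rw [h2, h1]
  obtain ⟨u, hu⟩ := exists_center (K := (⊥ : IntermediateField F₁ E₁)) O hO
  obtain ⟨a, δ, hδ, hδK, hι⟩ := exists_decomp O hO ⊥ K bot_le u hu σ s hσ
    (by rwa [absNorm_bot hOv hu]) hs (by
      intro y hy
      rw [IntermediateField.mem_bot] at hy
      obtain ⟨r, rfl⟩ := hy
      exact s.commutes r) (hstab s) (hstab σ⁻¹)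
  have hδW : redu k (eta α p δ) = 1 := by
    have h1 : δ ∈ W := by
      rw [← hfix, IntermediateField.mem_fixingSubgroup_iff]
      exact hδK
    exact h1
  have h1 := hηι _ ((hs.mul (hσ.pow a).inv).mul hδ.inv) hι
  have h2 : s = s * (σ ^ a)⁻¹ * δ⁻¹ * (δ * σ ^ a) := by group
  rw [h2, map_mul (eta α p), h1, one_mul, map_mul (eta α p), map_pow (eta α p), hησ, one_pow,
    mul_one, hδW]

end

theorem continuous_of_redu {G : Type*} [Group G] [TopologicalSpace G] [IsTopologicalGroup G]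
    {p : ℕ} [hpf : Fact p.Prime] (ψ : G →* ℤ_[p]ˣ)
    (h : ∀ k, IsOpen ((((redu k).comp ψ).ker : Subgroup G) : Set G)) : Continuous ψ := by
  have key : ∀ f : G →* ℤ_[p]ˣ, (∀ k, IsOpen ((((redu k).comp f).ker : Subgroup G) : Set G)) →
      Continuous (fun g => ((f g : ℤ_[p]ˣ) : ℤ_[p])) := by
    intro f hf
    rw [Metric.continuous_iff']
    intro g ε hε
    obtain ⟨k, hk⟩ := PadicInt.exists_pow_neg_lt p hε
    have hmem : {x : G | g⁻¹ * x ∈ ((redu k).comp f).ker} ∈ 𝓝 g := by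
      refine IsOpen.mem_nhds ((hf k).preimage (continuous_const_mul g⁻¹)) ?_
      show g⁻¹ * g ∈ ((redu k).comp f).ker
      rw [inv_mul_cancel]
      exact one_mem _
    filter_upwards [hmem] with x hx
    have h1 : redu k (f (g⁻¹ * x)) = 1 := hx
    rw [map_mul, map_inv, map_mul, map_inv, inv_mul_eq_one] at h1
    have h2 : PadicInt.toZModPow k ((f x : ℤ_[p]) - (f g : ℤ_[p])) = 0 := by
      rw [map_sub, sub_eq_zero]
      exact (congrArg Units.val h1).symm
    rw [← RingHom.mem_ker, PadicInt.ker_toZModPow, ← PadicInt.norm_le_pow_iff_mem_span_pow] at h2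
    rw [dist_eq_norm]
    exact lt_of_le_of_lt h2 hk
  rw [Units.continuous_iff]
  refine ⟨key ψ h, ?_⟩
  refine key (ψ⁻¹) fun k => ?_
  have : ((redu k).comp ψ⁻¹).ker = ((redu k).comp ψ).ker := by
    ext g
    show redu k ((ψ g)⁻¹) = 1 ↔ redu k (ψ g) = 1
    rw [map_inv, inv_eq_one]
  rw [this]
  exact h k

end Vale.Agent.P024.TR
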