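import Vale.Agent.P024.H644.T10

/-!
Additive `p`-adic characters.
-/

namespace Vale.Agent.P024.T3

open scoped NumberField
open IsDedekindDomain NumberField Filter Topology
open Vale.Agent.P024.TR Vale.Agent.P024.H903

section

variable {p : ℕ} [hp : Fact p.Prime]

/-- A compatible sequence of characters gives an additive `p`-adic character. -/
theorem exists_charA {H Ω : Type*} [Group H] [TopologicalSpace H] [IsTopologicalGroup H] [Field Ω]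
    (hroot : ∃ ζ : Ω, IsPrimitiveRoot ζ p) (hpow : ∀ x : Ω, ∃ y : Ω, y ^ p = x)
    (Φ : ℕ → H →* Ωˣ) (h0 : Φ 0 = 1) (hs : ∀ n, Φ (n + 1) ^ p = Φ n)
    (hopen : ∀ n, ∃ U : Set H, IsOpen U ∧ 1 ∈ U ∧ ∀ h ∈ U, Φ n h = 1) :
    ∃ ψ : H →* Multiplicative ℤ_[p], Continuous ψ ∧ ∀ h, ψ h = 1 ↔ ∀ n, Φ n h = 1 := by
  classical
  have hnz : ∀ n, NeZero (p ^ n) := fun n => ⟨pow_ne_zero _ hp.out.ne_zero⟩
  obtain ⟨ξ, hξ, hξs⟩ := exists_roots hroot hpow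
  have hΦ : ∀ n h, Φ n h ^ p ^ n = 1 := by
    intro n h
    induction n with
    | zero => rw [pow_zero, pow_one, h0, MonoidHom.one_apply]
    | succ n ih =>
      rw [pow_succ', pow_mul]
      have h1 : Φ (n + 1) h ^ p = Φ n h := by
        rw [← hs n, MonoidHom.pow_apply]
      rw [h1, ih]
  have hex : ∀ h n, ∃ k : ℕ, ξ n ^ k = (Φ n h : Ω) := by
    intro h n
    obtain ⟨k, -, hk⟩ := (hξ n).eq_pow_of_pow_eq_one (ξ := (Φ n h : Ω)) (by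
      rw [← Units.val_pow_eq_pow_val, hΦ, Units.val_one])
    exact ⟨k, hk⟩
  choose k hk using hex
  have hmod : ∀ (n a b : ℕ), ξ n ^ a = ξ n ^ b ↔ ((a : ℕ) : ZMod (p ^ n)) = (b : ZMod (p ^ n)) := by
    intro n a b
    rw [ZMod.natCast_eq_natCast_iff]
    have h1 := (hξ n).eq_orderOf
    have h2 : ξ n ≠ 0 := (hξ n).ne_zero (pow_ne_zero _ hp.out.ne_zero)
    have h3 : orderOf (Units.mk0 (ξ n) h2) = p ^ n := by
      rw [h1, ← orderOf_units, Units.val_mk0]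
    rw [← h3, ← pow_eq_pow_iff_modEq, ← Units.val_inj]
    simp only [Units.val_pow_eq_pow_val, Units.val_mk0]
  have hcompat : ∀ h n, ZMod.castHom (pow_dvd_pow p n.le_succ) (ZMod (p ^ n))
      ((k h (n + 1) : ℕ) : ZMod (p ^ (n + 1))) = ((k h n : ℕ) : ZMod (p ^ n)) := by
    intro h n
    rw [map_natCast, ← hmod, hk, ← hξs, ← pow_mul, mul_comm, pow_mul, hk,
      ← Units.val_pow_eq_pow_val, ← MonoidHom.pow_apply, hs]
  choose θ hθ using fun h => exists_padic (fun n => ((k h n : ℕ) : ZMod (p ^ n))) (hcompat h)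
  have hθmul : ∀ a b, θ (a * b) = θ a + θ b := by
    intro a b
    apply PadicInt.ext_of_toZModPow.1
    intro n
    rw [map_add, hθ, hθ, hθ, ← Nat.cast_add, ← hmod, hk, pow_add, hk, hk, map_mul, Units.val_mul]
  have hθ0 : ∀ h, θ h = 0 ↔ ∀ n, Φ n h = 1 := by
    intro h
    rw [← PadicInt.ext_of_toZModPow]
    refine forall_congr' fun n => ?_
    rw [hθ, map_zero, ← Nat.cast_zero, ← hmod, hk, pow_zero, Units.val_eq_one]
  let Θ : H →* Multiplicative ℤ_[p] :=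
    { toFun := fun h => Multiplicative.ofAdd (θ h)
      map_one' := by
        have h1 := hθmul 1 1
        rw [mul_one] at h1
        have h2 : θ 1 = 0 := by simpa using h1
        rw [h2, ofAdd_zero]
      map_mul' := fun a b => by rw [hθmul, ofAdd_add] }
  have hΘc : Continuous Θ := by
    apply continuous_of_continuousAt_one Θ
    have h1 : ContinuousAt θ 1 := by
      rw [Metric.continuousAt_iff']
      intro ε hε
      obtain ⟨n, hn⟩ := PadicInt.exists_pow_neg_lt p hε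
      obtain ⟨U, hU, hU1, hUΦ⟩ := hopen n
      filter_upwards [hU.mem_nhds hU1] with h hh
      refine lt_of_le_of_lt ?_ hn
      rw [dist_eq_norm, PadicInt.norm_le_pow_iff_mem_span_pow, ← PadicInt.ker_toZModPow,
        RingHom.mem_ker, map_sub, hθ, hθ, sub_eq_zero, ← hmod, hk, hk, hUΦ h hh, map_one]
    exact h1
  refine ⟨Θ, hΘc, fun h => ?_⟩
  rw [← hθ0]
  constructor
  · intro h1
    exact Multiplicative.ofAdd.injective h1
  · intro h1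
    show Multiplicative.ofAdd (θ h) = 1
    rw [h1, ofAdd_zero]

end

section

variable {E : Type*} [Field E] [CharZero E]

/-- The limit step. -/
theorem exists_thetaA [IsGalois ℚ E] (hroot : ∀ m : ℕ, 0 < m → ∃ z : E, IsPrimitiveRoot z m)
    (hpow : ∀ m : ℕ, 0 < m → ∀ x : E, ∃ y : E, y ^ m = x) (V : Subgroup (E ≃ₐ[ℚ] E)) [V.Normal]
    (hVo : IsOpen (V : Set (E ≃ₐ[ℚ] E))) (Y : MonoidAlgebra ℤ ((E ≃ₐ[ℚ] E) ⧸ V)) (p : ℕ)
    [hp : Fact p.Prime] [Fintype ((E ≃ₐ[ℚ] E) ⧸ V)]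
    (hunb : ∀ B : ℕ, ∃ θ : V →* Eˣ, Adm p V θ ∧ (∃ k : ℕ, ∀ y, θ y ^ p ^ k = 1) ∧
      ∃ y : V, actH Y θ y ^ p ^ B ≠ 1) :
    ∃ θ : V →* Multiplicative ℤ_[p], Continuous θ ∧ M4.UnrOut p θ ∧
      ¬ ∃ m : ℕ, 0 < m ∧ ∀ y : V, M4.act Y θ y ^ m = 1 := by
  obtain ⟨Φ, h0, hs, hΦ, hinf⟩ := exists_theta_aux (A := Eˣ) V Y p
    ((adm_finite hroot hpow hp.out V hVo).subset (by
      rintro a ⟨ha, ha'⟩
      refine ⟨⟨ha.opn, ha.inert⟩, ?_⟩
      ext y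
      have h1 := DFunLike.congr_fun ha' y
      exact congrArg Units.val h1))
    (fun B => by
      obtain ⟨θ, h1, ⟨k, hk⟩, y, hy⟩ := hunb B
      refine ⟨θ, ⟨⟨h1.opn, h1.inert⟩, k, MonoidHom.ext hk⟩, fun h => hy ?_⟩
      exact DFunLike.congr_fun h y)
  obtain ⟨ψ, hψc, hψ⟩ := exists_charA (p := p) (H := V) (hroot p hp.out.pos) (hpow p hp.out.pos)
    Φ h0 (fun n => MonoidHom.ext fun y => DFunLike.congr_fun (hs n) y)
    (fun n => by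
      obtain ⟨U, hU, hU'⟩ := (hΦ n).opn
      exact ⟨Subtype.val ⁻¹' (U : Set (E ≃ₐ[ℚ] E)), hU.preimage continuous_subtype_val,
        U.one_mem, fun h hh => hU' h hh⟩)
  refine ⟨ψ, hψc, ?_, ?_⟩
  · intro O hO hpO t ht ht1
    rw [hψ]
    intro n
    exact (hΦ n).inert O hO hpO t ht ht1
  · rintro ⟨m, hm, hm'⟩
    refine hinf ⟨m, hm, fun n => MonoidHom.ext fun y => ?_⟩
    obtain ⟨P, hP⟩ := exists_elt Y y
    have h1 := hm' y
    rw [act_eq, elt_spec Y y hP ψ, ← map_pow, hψ] at h1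
    have h2 : actH Y (Φ n) y ^ m = 1 := by
      rw [elt_spec Y y hP (Φ n), ← map_pow, h1 n]
    exact h2

end

section

variable {E : Type*} [Field E] [CharZero E] [IsGalois ℚ E]

/-- The characters exist, for every prime for which the lattice theorem and the cyclotomic
condition hold. -/
theorem t3_coreA (hroot : ∀ m : ℕ, 0 < m → ∃ z : E, IsPrimitiveRoot z m)
    (hpow : ∀ m : ℕ, 0 < m → ∀ x : E, ∃ y : E, y ^ m = x)
    (V : Subgroup (E ≃ₐ[ℚ] E)) [hV : V.Normal] (hVo : IsOpen (V : Set (E ≃ₐ[ℚ] E)))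
    [Fintype ((E ≃ₐ[ℚ] E) ⧸ V)]
    (Y : MonoidAlgebra ℤ ((E ≃ₐ[ℚ] E) ⧸ V)) (c : E ≃ₐ[ℚ] E) (hc : M4.IsCC c)
    (p : ℕ) [hpf : Fact p.Prime] (hp2 : p ≠ 2)
    (hcyc : ∀ (n : ℕ) (ζ : E), IsPrimitiveRoot ζ (p ^ n) → ∀ a : ℕ, a.Coprime p →
      ∃ σ ∈ V, σ ζ = ζ ^ a)
    (hlat : ∀ (B b n : ℕ), b * B < n → ∀ (K : IntermediateField ℚ E) [NumberField K]
      [IsGalois ℚ K] (ι : ((E ≃ₐ[ℚ] E) ⧸ V) →* (K ≃ₐ[ℚ] K)), Function.Injective ι →
      ∀ (g : K ≃ₐ[ℚ] K), (∀ t, g * ι t = ι t * g) → ∀ (h : ℕ), 0 < h → g ^ (2 * h) = 1 →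
      (∀ i, 0 < i → i < 2 * h → g ^ i ∉ ι.range) →
      ∀ (w0 : InfinitePlace K), (ι (QuotientGroup.mk c) * g ^ h) • w0 = w0 →
      ∀ (a : ℤ), (p : ℤ) ^ n ∣ a ^ h + 1 → a ^ h + 1 ≠ 0 →
      (∀ (v : (𝓞 K)ˣ) (k : ℕ), v ^ (p ^ k) = 1 → uact (ι (QuotientGroup.mk c)) v = v) →
      (∀ (T : Finset (𝓞 K)ˣ), (∀ u ∈ T, (∃ z : (𝓞 K)ˣ, uact g u = u ^ a * z ^ p) ∧
        ∃ z : (𝓞 K)ˣ, uact (ι (QuotientGroup.mk c)) u = u⁻¹ * z ^ p) →
        (∀ u ∈ T, ∀ v ∈ T, (∃ z : (𝓞 K)ˣ, u = v * z ^ p) → u = v) → T.card ≤ p ^ b) →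
      ∃ u : (𝓞 K)ˣ, (∃ z : (𝓞 K)ˣ, uact g u = u ^ a * z ^ (p ^ n)) ∧
        uact (ι (QuotientGroup.mk c)) u = u⁻¹ ∧
        ¬ ∃ z : (𝓞 K)ˣ, (∏ t, (uact (ι t) u) ^ Y.coeff t) ^ (p ^ B) = z ^ (p ^ n)) :
    ∃ θ : V →* Multiplicative ℤ_[p], Continuous θ ∧ M4.UnrOut p θ ∧
      ¬ ∃ m : ℕ, 0 < m ∧ ∀ y : V, M4.act Y θ y ^ m = 1 := by
  classical
  have hp := hpf.out
  set b := (adm_finite hroot hpow hp V hVo).toFinset.card with hb
  refine exists_thetaA hroot hpow V hVo Y p fun B => ?_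
  set n := b * B + 1 with hn
  have hn0 : 0 < n := Nat.succ_pos _
  obtain ⟨ζ, hζ⟩ := hroot (p ^ n) (pow_pos hp.pos n)
  obtain ⟨a, h, S, G₀, L, hSc, hNF, hGal, ι, g, hι, hg, hinj, hcomm, hh, hg2, hdisj, ⟨w0, hw0⟩,
    hdvd, htors⟩ := H377.t3_gal V hVo c hc hp hp2 hcyc n hn0 hζ
  have hmk : (QuotientGroup.mk S : (E ≃ₐ[ℚ] E) ⧸ V) = QuotientGroup.mk c := QuotientGroup.eq.2 hSc
  have G : GalD V p n ζ a S G₀ (IntermediateField.fixedField (WW V ζ)) ι g := by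
    refine ⟨L, fun x => IntermediateField.mem_fixedField_iff _ x, hι, hg, fun q => ?_⟩
    obtain ⟨r, rfl⟩ := QuotientGroup.mk_surjective q
    obtain ⟨k, hk⟩ := exists_exp_root r⁻¹ (pow_pos hp.pos n) hζ
    have hkp : k.Coprime p := by
      have h1 : k.Coprime (p ^ n) := by
        rw [← hζ.pow_iff_coprime (pow_pos hp.pos n), ← hk]
        exact hζ.map_of_injective r⁻¹.injective
      exact Nat.Coprime.coprime_dvd_right (dvd_pow_self p hn0.ne') h1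
    obtain ⟨σ, hσ, hσζ⟩ := hcyc n ζ hζ k hkp
    refine ⟨r * σ, ?_, ?_⟩
    · rw [AlgEquiv.mul_apply, hσζ, ← hk, ← AlgEquiv.mul_apply, mul_inv_cancel, AlgEquiv.one_apply]
    · rw [QuotientGroup.eq, mul_inv_rev, mul_assoc, inv_mul_cancel, mul_one]
      exact V.inv_mem hσ
  obtain ⟨u, hu1, hu2, hu3⟩ := hlat B b n (Nat.lt_succ_self _) _ ι hinj g hcomm h hh hg2 hdisj w0
    hw0 (a : ℤ) hdvd (by positivity) htors (fun T hT hT' => by
      refine (bound_units hroot hpow hp2 hVo hp G hn0 T (fun u hu => ?_) hT').trans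
        (Nat.lt_pow_self hp.one_lt).le
      rw [hmk]
      exact hT u hu)
  exact unb_unit hroot hpow hp2 Y G u hu1 (by rw [hmk]; exact hu2) B hu3

end

/-- The theorem on additive `p`-adic characters. -/
theorem propT3A {E : Type*} [Field E] [CharZero E] [IsGalois ℚ E] (hE : SolvablyClosed E)
    (V : Subgroup (E ≃ₐ[ℚ] E)) [V.Normal] (hVo : IsOpen (V : Set (E ≃ₐ[ℚ] E)))
    (Y : MonoidAlgebra ℤ ((E ≃ₐ[ℚ] E) ⧸ V)) (c : E ≃ₐ[ℚ] E) (hc : M4.IsCC c)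
    (hY : Y * (1 - MonoidAlgebra.of ℤ _ (QuotientGroup.mk c)) ≠ 0) :
    ∃ B : Set ℕ, B.Finite ∧ ∀ (p : ℕ) [Fact p.Prime], p ∉ B →
      ∃ θ : V →* Multiplicative ℤ_[p], Continuous θ ∧ M4.UnrOut p θ ∧
        ¬ ∃ m : ℕ, 0 < m ∧ ∀ y : V, M4.act Y θ y ^ m = 1 := by
  classical
  have halg : Algebra.IsAlgebraic ℚ E := Normal.toIsAlgebraic
  have hroot : ∀ m : ℕ, 0 < m → ∃ z : E, IsPrimitiveRoot z m :=
    fun m hm => hE.exists_primitiveRoot m hm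
  have hpow : ∀ m : ℕ, 0 < m → ∀ x : E, ∃ y : E, y ^ m = x := fun m hm => hE.exists_root m hm
  have hfinQ : Finite ((E ≃ₐ[ℚ] E) ⧸ V) := Subgroup.quotient_finite_of_isOpen V hVo
  have hfi : V.FiniteIndex := Subgroup.finiteIndex_of_finite_quotient
  have hft : Fintype ((E ≃ₐ[ℚ] E) ⧸ V) := Fintype.ofFinite _
  have hc2 : (QuotientGroup.mk c : (E ≃ₐ[ℚ] E) ⧸ V) * QuotientGroup.mk c = 1 := by
    rw [← QuotientGroup.mk_mul, isCC_sq hc, QuotientGroup.mk_one]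
  obtain ⟨m, hm, hlat⟩ := H377.lat (QuotientGroup.mk c : (E ≃ₐ[ℚ] E) ⧸ V) hc2 Y.coeff
    (exists_coeff_ne Y _ hc2 hY)
  refine ⟨{2} ∪ (m.natAbs.divisors : Set ℕ) ∪ {p : ℕ | p.Prime ∧ ∃ (n : ℕ) (ζ : E),
    IsPrimitiveRoot ζ (p ^ n) ∧ ∃ a : ℕ, a.Coprime p ∧ ∀ σ ∈ V, σ ζ ≠ ζ ^ a}, ?_, ?_⟩
  · exact ((Set.finite_singleton 2).union (Finset.finite_toSet _)).union
      (bad_finite hroot V hfi)
  intro p hpf hpB
  have hp := hpf.out
  simp only [Set.mem_union, Set.mem_singleton_iff, not_or] at hpB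
  obtain ⟨⟨hp2, hpm⟩, hbad⟩ := hpB
  have hpm' : ¬ (p : ℤ) ∣ m := by
    intro h
    apply hpm
    rw [Finset.mem_coe, Nat.mem_divisors]
    exact ⟨Int.natCast_dvd.1 h, Int.natAbs_ne_zero.2 hm⟩
  refine t3_coreA hroot hpow V hVo Y c hc p hp2 ?_ ?_
  · intro n ζ hζ a ha
    by_contra hcon
    push Not at hcon
    exact hbad ⟨hp, n, ζ, hζ, a, ha, hcon⟩
  · intro B b n hBn K _ _ ι hinj g hcomm h hh hg2 hdisj w0 hw0 a hdvd ha0 htors hb
    exact hlat p hp hpm' B b n hBn K ι hinj g hcomm h hh hg2 hdisj w0 hw0 a hdvd ha0 htors hb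

end Vale.Agent.P024.T3
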