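import Vale.Agent.P024.H644.D2
import Vale.Agent.P024.H114.ALL.Val

/-!
Block (D), literal form.
-/

namespace Vale.Agent.P024.H644D

open scoped NumberField
open IsDedekindDomain NumberField Vale.Agent.P024 Vale.Agent.P024.M4 Vale.Agent.P024.TR
  Vale.Agent.P024.ALL

universe u v

theorem propD (hD1 : PropD1.{u}) : PropD.{u, v} := by
  intro E₁ E₂ _ _ _ _ _ _ _ hE₂ F _ a ha hopen l hlf hl2 hfin T hT hcard
  have hE₁ : SolvablyClosed E₁ := fun M _ _ =>
    IntermediateField.eq_bot_of_isAlgClosed_of_isAlgebraic M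
  have hclos : IsAlgClosure ℚ E₁ := ⟨inferInstance, inferInstance⟩
  have hGal0 : IsGalois ℚ E₁ := inferInstance
  refine propD_of hE₂ F a ha hopen l hl2 hfin T hT hcard hD1 ?_
  intro n H L _ hLH ζ hζ hζL ζ₁ ζ₂ r hr X hX b hb y hy V hV
  exact H114.ALL.dvd_of_notHit hE₁ hE₂ a ha hlf.out hl2 n H L hLH hζ hζL r hr X hX b hb y hy V hV

end Vale.Agent.P024.H644D
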