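import Vale.Agent.P024.H644.T9
import Vale.Agent.P024.H377.LatC
import Vale.Agent.P024.H377.GalC

/-!
The theorem on `p`-adic characters.
-/

namespace Vale.Agent.P024.T3

open scoped NumberField
open IsDedekindDomain NumberField
open Vale.Agent.P024.TR Vale.Agent.P024.H903

theorem exists_coeff_ne {G : Type*} [Group G] (Y : MonoidAlgebra ℤ G) (c : G) (hc : c * c = 1)
    (hY : Y * (1 - MonoidAlgebra.of ℤ G c) ≠ 0) : ∃ t, Y.coeff t ≠ Y.coeff (t * c) := by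
  by_contra hcon
  push Not at hcon
  apply hY
  apply MonoidAlgebra.ext
  ext t
  have hci : c⁻¹ = c := inv_eq_of_mul_eq_one_left hc
  have h1 : (Y * MonoidAlgebra.of ℤ G c).coeff t = Y.coeff (t * c⁻¹) := by
    rw [MonoidAlgebra.of_apply, MonoidAlgebra.coeff_mul_single_apply, mul_one]
  rw [mul_sub, mul_one, MonoidAlgebra.coeff_sub, Finsupp.sub_apply, h1, hci, ← hcon t, sub_self]
  rfl

theorem isCC_sq {E : Type*} [Field E] [CharZero E] {c : E ≃ₐ[ℚ] E} (hc : M4.IsCC c) :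
    c * c = 1 := by
  obtain ⟨φ, hφ⟩ := hc
  ext x
  apply φ.injective
  rw [AlgEquiv.mul_apply, hφ, hφ, Complex.conj_conj]
  rfl

section

variable {E : Type*} [Field E] [CharZero E] [IsGalois ℚ E]

/-- The characters exist, for every prime for which the lattice theorem and the cyclotomic
condition hold. -/
theorem t3_core (hroot : ∀ m : ℕ, 0 < m → ∃ z : E, IsPrimitiveRoot z m)
    (hpow : ∀ m : ℕ, 0 < m → ∀ x : E, ∃ y : E, y ^ m = x)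
    (V : Subgroup (E ≃ₐ[ℚ] E)) [hV : V.Normal] (hVo : IsOpen (V : Set (E ≃ₐ[ℚ] E)))
    [Fintype ((E ≃ₐ[ℚ] E) ⧸ V)]
    (Y : MonoidAlgebra ℤ ((E ≃ₐ[ℚ] E) ⧸ V)) (c : E ≃ₐ[ℚ] E) (hc : M4.IsCC c)
    (p : ℕ) [hpf : Fact p.Prime] (hp2 : p ≠ 2)
    (hcyc : ∀ (n : ℕ) (ζ : E), IsPrimitiveRoot ζ (p ^ n) → ∀ a : ℕ, a.Coprime p →
      ∃ σ ∈ V, σ ζ = ζ ^ a)
    (hlat : ∀ (B b n : ℕ), b * B < n → ∀ (K : IntermediateField ℚ E) [NumberField K]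
      [IsGalois ℚ K] (ι : ((E ≃ₐ[ℚ] E) ⧸ V) →* (K ≃ₐ[ℚ] K)), Function.Injective ι →
      ∀ (g : K ≃ₐ[ℚ] K), (∀ t, g * ι t = ι t * g) → ∀ (h : ℕ), 0 < h → g ^ (2 * h) = 1 →
      (∀ i, 0 < i → i < 2 * h → g ^ i ∉ ι.range) →
      ∀ (w0 : InfinitePlace K), (ι (QuotientGroup.mk c) * g ^ h) • w0 = w0 →
      ∀ (a : ℤ), (p : ℤ) ^ n ∣ a ^ h + 1 → a ^ h + 1 ≠ 0 →
      (∀ (v : (𝓞 K)ˣ) (k : ℕ), v ^ (p ^ k) = 1 → uact (ι (QuotientGroup.mk c)) v = v) →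
      (∀ (T : Finset (𝓞 K)ˣ), (∀ u ∈ T, (∃ z : (𝓞 K)ˣ, uact g u = u ^ a * z ^ p) ∧
        ∃ z : (𝓞 K)ˣ, uact (ι (QuotientGroup.mk c)) u = u⁻¹ * z ^ p) →
        (∀ u ∈ T, ∀ v ∈ T, (∃ z : (𝓞 K)ˣ, u = v * z ^ p) → u = v) → T.card ≤ p ^ b) →
      ∃ u : (𝓞 K)ˣ, (∃ z : (𝓞 K)ˣ, uact g u = u ^ a * z ^ (p ^ n)) ∧
        uact (ι (QuotientGroup.mk c)) u = u⁻¹ ∧
        ¬ ∃ z : (𝓞 K)ˣ, (∏ t, (uact (ι t) u) ^ Y.coeff t) ^ (p ^ B) = z ^ (p ^ n)) :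
    ∃ θ : V →* ℤ_[p]ˣ, Continuous θ ∧ M4.UnrOut p θ ∧
      ¬ ∃ m : ℕ, 0 < m ∧ ∀ y : V, M4.act Y θ y ^ m = 1 := by
  classical
  have hp := hpf.out
  set b := (adm_finite hroot hpow hp V hVo).toFinset.card with hb
  refine exists_theta hroot hpow V hVo Y p fun B => ?_
  set n := b * B + 1 with hn
  have hn0 : 0 < n := Nat.succ_pos _
  obtain ⟨ζ, hζ⟩ := hroot (p ^ n) (pow_pos hp.pos n)
  obtain ⟨a, h, S, G₀, L, hSc, hNF, hGal, ι, g, hι, hg, hinj, hcomm, hh, hg2, hdisj, ⟨w0, hw0⟩,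
    hdvd, htors⟩ := H377.t3_gal V hVo c hc hp hp2 hcyc n hn0 hζ
  have hmk : (QuotientGroup.mk S : (E ≃ₐ[ℚ] E) ⧸ V) = QuotientGroup.mk c := QuotientGroup.eq.2 hSc
  have G : GalD V p n ζ a S G₀ (IntermediateField.fixedField (WW V ζ)) ι g := by
    refine ⟨L, fun x => IntermediateField.mem_fixedField_iff _ x, hι, hg, fun q => ?_⟩
    obtain ⟨r, rfl⟩ := QuotientGroup.mk_surjective q
    obtain ⟨k, hk⟩ := exists_exp_root r⁻¹ (pow_pos hp.pos n) hζ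
    have hkp : k.Coprime p := by
      have h1 : k.Coprime (p ^ n) := by
        rw [← hζ.pow_iff_coprime (pow_pos hp.pos n), ← hk]
        exact hζ.map_of_injective r⁻¹.injective
      exact Nat.Coprime.coprime_dvd_right (dvd_pow_self p hn0.ne') h1
    obtain ⟨σ, hσ, hσζ⟩ := hcyc n ζ hζ k hkp
    refine ⟨r * σ, ?_, ?_⟩
    · rw [AlgEquiv.mul_apply, hσζ, ← hk, ← AlgEquiv.mul_apply, mul_inv_cancel, AlgEquiv.one_apply]
    · rw [QuotientGroup.eq, mul_inv_rev, mul_assoc, inv_mul_cancel, mul_one]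
      exact V.inv_mem hσ
  obtain ⟨u, hu1, hu2, hu3⟩ := hlat B b n (Nat.lt_succ_self _) _ ι hinj g hcomm h hh hg2 hdisj w0
    hw0 (a : ℤ) hdvd (by positivity) htors (fun T hT hT' => by
      refine (bound_units hroot hpow hp2 hVo hp G hn0 T (fun u hu => ?_) hT').trans
        (Nat.lt_pow_self hp.one_lt).le
      rw [hmk]
      exact hT u hu)
  exact unb_unit hroot hpow hp2 Y G u hu1 (by rw [hmk]; exact hu2) B hu3

end

theorem propT3.{u} : M4.PropT3.{u} := by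
  classical
  intro E _ _ _ hE V _ hVo Y c hc hY
  have halg : Algebra.IsAlgebraic ℚ E := Normal.toIsAlgebraic
  have hroot : ∀ m : ℕ, 0 < m → ∃ z : E, IsPrimitiveRoot z m :=
    fun m hm => hE.exists_primitiveRoot m hm
  have hpow : ∀ m : ℕ, 0 < m → ∀ x : E, ∃ y : E, y ^ m = x := fun m hm => hE.exists_root m hm
  have hfinQ : Finite ((E ≃ₐ[ℚ] E) ⧸ V) := Subgroup.quotient_finite_of_isOpen V hVo
  have hfi : V.FiniteIndex := Subgroup.finiteIndex_of_finite_quotient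
  have hft : Fintype ((E ≃ₐ[ℚ] E) ⧸ V) := Fintype.ofFinite _
  have hc2 : (QuotientGroup.mk c : (E ≃ₐ[ℚ] E) ⧸ V) * QuotientGroup.mk c = 1 := by
    rw [← QuotientGroup.mk_mul, isCC_sq hc, QuotientGroup.mk_one]
  obtain ⟨m, hm, hlat⟩ := H377.lat (QuotientGroup.mk c : (E ≃ₐ[ℚ] E) ⧸ V) hc2 Y.coeff
    (exists_coeff_ne Y _ hc2 hY)
  refine ⟨{2} ∪ (m.natAbs.divisors : Set ℕ) ∪ {p : ℕ | p.Prime ∧ ∃ (n : ℕ) (ζ : E),
    IsPrimitiveRoot ζ (p ^ n) ∧ ∃ a : ℕ, a.Coprime p ∧ ∀ σ ∈ V, σ ζ ≠ ζ ^ a}, ?_, ?_⟩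
  · exact ((Set.finite_singleton 2).union (Finset.finite_toSet _)).union
      (bad_finite hroot V hfi)
  intro p hpf hpB
  have hp := hpf.out
  simp only [Set.mem_union, Set.mem_singleton_iff, not_or] at hpB
  obtain ⟨⟨hp2, hpm⟩, hbad⟩ := hpB
  have hpm' : ¬ (p : ℤ) ∣ m := by
    intro h
    apply hpm
    rw [Finset.mem_coe, Nat.mem_divisors]
    exact ⟨Int.natCast_dvd.1 h, Int.natAbs_ne_zero.2 hm⟩
  refine t3_core hroot hpow V hVo Y c hc p hp2 ?_ ?_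
  · intro n ζ hζ a ha
    by_contra hcon
    push Not at hcon
    exact hbad ⟨hp, n, ζ, hζ, a, ha, hcon⟩
  · intro B b n hBn K _ _ ι hinj g hcomm h hh hg2 hdisj w0 hw0 a hdvd ha0 htors hb
    exact hlat p hp hpm' B b n hBn K ι hinj g hcomm h hh hg2 hdisj w0 hw0 a hdvd ha0 htors hb

end Vale.Agent.P024.T3
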