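import Vale.Agent.P024.Bdl.B2
import Vale.Agent.P024.Bdl.B1

/-!
Notions for totally real fields.
-/

namespace Vale.Agent.P024.TR

open scoped NumberField
open IsDedekindDomain NumberField

/-- The homomorphism `ψ` of the Galois group of `E/F` is trivial on all decomposition groups above
the prime `v` of `F`. -/
def Kills {F E A : Type*} [Field F] [NumberField F] [Field E] [Algebra F E] [Group A]
    (ψ : (E ≃ₐ[F] E) →* A) (v : HeightOneSpectrum (𝓞 F)) : Prop :=
  ∀ O : ValuationSubring E, IsCenter O v → ∀ s : E ≃ₐ[F] E, Stab O s → ψ s = 1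

/-- `F` has no `ℤ_p`-extension in which infinitely many primes split completely. -/
def NoSplit (F : Type*) [Field F] [NumberField F] (p : ℕ) [Fact p.Prime] : Prop :=
  ∀ ψ : (AlgebraicClosure F ≃ₐ[F] AlgebraicClosure F) →* ℤ_[p]ˣ, Continuous ψ →
    {v : HeightOneSpectrum (𝓞 F) | Kills ψ v}.Infinite → ∃ m : ℕ, 0 < m ∧ ∀ g, ψ g ^ m = 1

end Vale.Agent.P024.TR
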