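import Vale.Agent.P024.H644.K11

/-!
The main theorem, with a sparse set of primes.
-/

namespace Vale.Agent.P024.TR

open scoped NumberField ENNReal Topology
open IsDedekindDomain NumberField Filter

/-- The primes of `Z` of prime norm in `A`, of norm `1` modulo `l`, outside `S`. -/
def ASet (Z : Type*) [Field Z] [NumberField Z] (A : Set ℕ) (l : ℕ)
    (S : Set (HeightOneSpectrum (𝓞 Z))) : Set (HeightOneSpectrum (𝓞 Z)) :=
  {w | (Ideal.absNorm w.asIdeal).Prime ∧ Ideal.absNorm w.asIdeal ∈ A ∧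
    Ideal.absNorm w.asIdeal ≡ 1 [MOD l] ∧ w ∉ S}

/-- For all primes `l` outside `T`, the primes of `Z` of prime norm in `A` which is `1` modulo `l`
have lower density at least `δ / (l - 1)`. -/
def DensA (Z : Type*) [Field Z] [NumberField Z] (A T : Set ℕ) (δ : ℝ) : Prop :=
  ∀ l : ℕ, l.Prime → l ∉ T → ∀ S : Set (HeightOneSpectrum (𝓞 Z)), S.Finite →
    ∀ᶠ s : ℝ in 𝓝[>] 1, ENNReal.ofReal (δ / (l - 1) * Real.log (1 / (s - 1))) ≤
      ∑' w : ASet Z A l S, ENNReal.ofReal (nm Z w.1 s)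

section

variable {F₁ E₁ F₂ E₂ : Type*} [Field F₁] [NumberField F₁] [Field E₁] [Algebra F₁ E₁]
    [IsGalois F₁ E₁] [Field F₂] [NumberField F₂] [Field E₂] [Algebra F₂ E₂] [IsGalois F₂ E₂]

omit [IsGalois F₁ E₁] [IsGalois F₂ E₂] [NumberField F₂] in
theorem aliveOne_dens_of_above' (α : (E₁ ≃ₐ[F₁] E₁) →* (E₂ ≃ₐ[F₂] E₂)) (A : Set ℕ) (R : Set ℕ)
    (hR : R.Finite) {p : ℕ} (hp : p.Prime)
    (h : ∀ r : ℕ, r.Prime → r ∉ R → r ∈ A → p ∣ r - 1 → ∃ v ∈ Alive α p, (r : 𝓞 F₁) ∈ v.asIdeal)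
    (Z : Type*) [Field Z] [NumberField Z] [IsGalois ℚ Z] (f : F₁ →+* Z) {δ : ℝ} (hδ : 0 < δ)
    (hd : ∀ S : Set (HeightOneSpectrum (𝓞 Z)), S.Finite →
      ∀ᶠ s : ℝ in 𝓝[>] 1, ENNReal.ofReal (δ / (p - 1) * Real.log (1 / (s - 1))) ≤
        ∑' w : ASet Z A p S, ENNReal.ofReal (nm Z w.1 s)) :
    ∃ᶠ s : ℝ in 𝓝[>] 1,
      δ / Module.finrank ℚ Z / (p - 1) * Real.log (1 / (s - 1)) ≤
        ∑' v : AliveOne α p, (Ideal.absNorm v.1.asIdeal : ℝ) ^ (-s) := by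
  classical
  refine Eventually.frequently (eventually_toReal F₁ _ ?_)
  have hd := hd _ (finite_above_set Z hR)
  have hp1 : (0 : ℝ) < (p : ℝ) - 1 := by
    have : (1 : ℝ) < p := by exact_mod_cast hp.one_lt
    linarith
  have hZ0 : (0 : ℝ) < Module.finrank ℚ Z := by
    rw [Nat.cast_pos]
    exact Module.finrank_pos
  set A' : Set (HeightOneSpectrum (𝓞 Z)) := ASet Z A p
    {v : HeightOneSpectrum (𝓞 Z) | ∃ p ∈ R, p.Prime ∧ (p : 𝓞 Z) ∈ v.asIdeal} with hA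
  have hmap : ∀ w : A', ∃ v : AliveOne α p,
      Ideal.absNorm v.1.asIdeal = Ideal.absNorm w.1.asIdeal := by
    rintro ⟨w, hw, hwA, hw1, hwR⟩
    have hwmem : ((Ideal.absNorm w.asIdeal : ℕ) : 𝓞 Z) ∈ w.asIdeal := Ideal.absNorm_mem _
    obtain ⟨v, hv, hvr⟩ := h _ hw (fun h => hwR ⟨_, h, hw, hwmem⟩) hwA
      ((Nat.modEq_iff_dvd' hw.one_le).1 hw1.symm)
    obtain ⟨P, hP⟩ := exists_pull_eq f v
    have hPr : ((Ideal.absNorm w.asIdeal : ℕ) : 𝓞 Z) ∈ P.asIdeal := by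
      rw [← hP, mem_pullPrime, map_natCast] at hvr
      exact hvr
    obtain ⟨σ, hσ⟩ := exists_gal_pull w P hw hwmem hPr
    have h1 : Ideal.absNorm P.asIdeal = Ideal.absNorm w.asIdeal := by
      rw [← hσ, absNorm_pull _ w hw]
    have h2 : Ideal.absNorm v.asIdeal = Ideal.absNorm w.asIdeal := by
      rw [← hP, absNorm_pull f P (by rw [h1]; exact hw), h1]
    exact ⟨⟨v, hv, by rw [h2]; exact hw1⟩, h2⟩
  choose φ hφ using hmap
  refine hd.mono fun s hs => ?_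
  have h3 := tsum_fiber_le Z A' (fun w hw => hw.1) φ
    (fun v => ENNReal.ofReal (nm F₁ v.1 s)) s (fun w => by rw [nm, nm, hφ])
    (fun w w' hww => by rw [← hφ, ← hφ, hww])
  rw [RingOfIntegers.rank] at h3
  have h4 := hs.trans h3
  have h5 : ENNReal.ofReal (δ / (p - 1) * Real.log (1 / (s - 1))) =
      (Module.finrank ℚ Z : ℝ≥0∞) * ENNReal.ofReal
        (δ / Module.finrank ℚ Z / (p - 1) * Real.log (1 / (s - 1))) := by
    rw [← ENNReal.ofReal_natCast, ← ENNReal.ofReal_mul hZ0.le]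
    congr 1
    field_simp
  rw [h5] at h4
  exact (ENNReal.mul_le_mul_iff_right (Nat.cast_ne_zero.2 (by
    intro h0; rw [h0] at hZ0; simp at hZ0)) (ENNReal.natCast_ne_top _)).1 h4

/-- If `F₁` is totally real and the quotient of the cyclotomic characters has finite order for
the primes in `A`, then `α` is induced. -/
theorem induced_of_eta_dens [IsTotallyReal F₁] (hE₁ : SolvablyClosed E₁) (hE₂ : SolvablyClosed E₂)
    (α : (E₁ ≃ₐ[F₁] E₁) →* (E₂ ≃ₐ[F₂] E₂)) (hα : Continuous α) (hopen : IsOpen (Set.range α))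
    (Z : Type*) [Field Z] [NumberField Z] [IsGalois ℚ Z] (f : F₁ →+* Z) (A T : Set ℕ)
    (hT : Tendsto (fun s : ℝ => (∑' p : {p : ℕ | p.Prime ∧ p ∈ T}, ((p : ℕ) : ℝ) ^ (-s)) /
      Real.log (1 / (s - 1))) (𝓝[>] 1) (𝓝 0)) {δ : ℝ} (hδ : 0 < δ) (hd : DensA Z A T δ)
    (hfin : ∀ (p : ℕ) [Fact p.Prime], p ≠ 2 → p ∈ A →
      ∃ m : ℕ, 0 < m ∧ ∀ g, eta α p g ^ m = 1) :
    ∃ j : E₂ →+* E₁, ∀ (g : E₁ ≃ₐ[F₁] E₁) (x : E₂), g (j x) = j ((α g) x) := by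
  classical
  have : CharZero E₁ := charZero_of_injective_algebraMap (algebraMap F₁ E₁).injective
  have : Algebra.IsAlgebraic ℚ E₁ := Algebra.IsAlgebraic.trans ℚ F₁ E₁
  have hZ0 : (0 : ℝ) < Module.finrank ℚ Z := by
    rw [Nat.cast_pos]
    exact Module.finrank_pos
  have hT' := tendsto_insert T 2 hT
  refine induced_of_aliveOne hE₁ hE₂ α hα hopen _ (meetsSplit_compl hT')
    (δ := δ / Module.finrank ℚ Z) (by positivity) ?_
  intro l hl hlQ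
  have hl2 : l ≠ 2 := fun h => hlQ (Or.inl h)
  have hlT : l ∉ T := fun h => hlQ (Or.inr h)
  obtain ⟨S, hS, hS'⟩ := alive_of_local hE₁ α hl hl2
  have hR : {r : ℕ | ∃ v ∈ S, r.Prime ∧ (r : 𝓞 F₁) ∈ v.asIdeal}.Finite := by
    refine (hS.image resChar).subset ?_
    rintro r ⟨v, hv, hr, hrv⟩
    exact ⟨v, hv, prime_mem_unique v (resChar_spec v).1 hr (resChar_spec v).2.1 hrv⟩
  refine aliveOne_dens_of_above' α A _ hR hl ?_ Z f hδ (hd l hl hlT)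
  intro r hr hrR hrA hlr
  have hr2 : r ≠ 2 := by
    rintro rfl
    have := Nat.le_of_dvd (by norm_num) hlr
    have := hl.two_le
    omega
  have hrf : Fact r.Prime := ⟨hr⟩
  obtain ⟨m, hm, hm'⟩ := hfin r hr2 hrA
  obtain ⟨O, hO, hrO, hloc⟩ := exists_local hE₁ hE₂ α hα hopen hr2 m hm hm'
  obtain ⟨v, hv⟩ := exists_center (K := F₁) O hO
  have hrv : (r : 𝓞 F₁) ∈ v.asIdeal := by
    rw [hv]
    simpa using hrO
  exact ⟨v, hS' v (fun hvS => hrR ⟨v, hvS, hr, hrv⟩) r hr hrv hlr O hO hv hloc, hrv⟩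

theorem induced_of_noSplit_dens [IsTotallyReal F₁] (hE₁ : SolvablyClosed E₁)
    (hE₂ : SolvablyClosed E₂)
    (α : (E₁ ≃ₐ[F₁] E₁) →* (E₂ ≃ₐ[F₂] E₂)) (hα : Continuous α) (hopen : IsOpen (Set.range α))
    (Z : Type*) [Field Z] [NumberField Z] [IsGalois ℚ Z] (f : F₁ →+* Z) (A T : Set ℕ)
    (hT : Tendsto (fun s : ℝ => (∑' p : {p : ℕ | p.Prime ∧ p ∈ T}, ((p : ℕ) : ℝ) ^ (-s)) /
      Real.log (1 / (s - 1))) (𝓝[>] 1) (𝓝 0)) {δ : ℝ} (hδ : 0 < δ) (hd : DensA Z A T δ)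
    (h : ∀ (p : ℕ) [Fact p.Prime], p ≠ 2 → p ∈ A → NoSplit F₁ p) :
    ∃! j : E₂ →+* E₁, ∀ (g : E₁ ≃ₐ[F₁] E₁) (x : E₂), g (j x) = j ((α g) x) :=
  existsUnique_of_exists hE₁ hE₂ α (induced_of_eta_dens hE₁ hE₂ α hα hopen Z f A T hT hδ hd
    fun p _ hp2 hpA => eta_finite hE₁ hE₂ α hα hopen hp2 (h p hp2 hpA))

end

end Vale.Agent.P024.TR
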