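import Vale.Agent.P024.H644.K10

/-!
Uchida's conjecture for totally real fields without `ℤ_p`-extensions in which infinitely many primes
split completely.
-/

namespace Vale.Agent.P024.TR

open scoped NumberField ENNReal Topology
open IsDedekindDomain NumberField Filter

section

variable {F₁ E₁ F₂ E₂ : Type*} [Field F₁] [NumberField F₁] [Field E₁] [Algebra F₁ E₁]
    [IsGalois F₁ E₁] [Field F₂] [NumberField F₂] [Field E₂] [Algebra F₂ E₂] [IsGalois F₂ E₂]

theorem eta_finite (hE₁ : SolvablyClosed E₁) (hE₂ : SolvablyClosed E₂)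
    (α : (E₁ ≃ₐ[F₁] E₁) →* (E₂ ≃ₐ[F₂] E₂)) (hα : Continuous α) (hopen : IsOpen (Set.range α))
    {p : ℕ} [hpf : Fact p.Prime] (hp2 : p ≠ 2) (h : NoSplit F₁ p) :
    ∃ m : ℕ, 0 < m ∧ ∀ g, eta α p g ^ m = 1 := by
  have : CharZero E₁ := charZero_of_injective_algebraMap (algebraMap F₁ E₁).injective
  have : Algebra.IsAlgebraic ℚ E₁ := Algebra.IsAlgebraic.trans ℚ F₁ E₁
  let Ω := AlgebraicClosure F₁
  let ι : E₁ →ₐ[F₁] Ω := IsAlgClosed.lift
  let _ : Algebra E₁ Ω := ι.toRingHom.toAlgebra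
  have htow : IsScalarTower F₁ E₁ Ω := IsScalarTower.of_algebraMap_eq fun x => (ι.commutes x).symm
  have hsep : Algebra.IsSeparable F₁ Ω := inferInstance
  have hnorm : Normal F₁ Ω := inferInstance
  let res : (Ω ≃ₐ[F₁] Ω) →* (E₁ ≃ₐ[F₁] E₁) := AlgEquiv.restrictNormalHom E₁
  have hres : ∀ (g : Ω ≃ₐ[F₁] Ω) (x : E₁), algebraMap E₁ Ω (res g x) = g (algebraMap E₁ Ω x) :=
    fun g x => AlgEquiv.restrictNormal_commutes g E₁ x
  let ψ : (Ω ≃ₐ[F₁] Ω) →* ℤ_[p]ˣ := (eta α p).comp res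
  have hψ : Continuous ψ := by
    refine continuous_of_redu ψ fun k => ?_
    have hWo := isOpen_ker_eta hE₁ hE₂ α hα (l := p) k
    obtain ⟨hfd, hfix⟩ := finiteDimensional_fixedField ((redu k).comp (eta α p)).ker hWo
    set K := IntermediateField.fixedField ((redu k).comp (eta α p)).ker with hK
    obtain ⟨y₀, hy₀⟩ := Field.exists_primitive_element F₁ K
    have hKy₀ : K = IntermediateField.adjoin F₁ {(y₀ : E₁)} := by
      have h4 := congrArg (IntermediateField.map K.val) hy₀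
      rw [IntermediateField.adjoin_map, Set.image_singleton, ← AlgHom.fieldRange_eq_map,
        IntermediateField.fieldRange_val] at h4
      exact h4.symm
    have h1 : IsOpen ((MulAction.stabilizer (Ω ≃ₐ[F₁] Ω) (algebraMap E₁ Ω (y₀ : E₁)) :
      Subgroup (Ω ≃ₐ[F₁] Ω)) : Set (Ω ≃ₐ[F₁] Ω)) :=
      stabilizer_isOpen_of_isIntegral (K := F₁) (L := Ω) _
    refine Subgroup.isOpen_mono ?_ h1
    intro g hg
    have hg' : g (algebraMap E₁ Ω (y₀ : E₁)) = algebraMap E₁ Ω (y₀ : E₁) := hg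
    have h2 : res g (y₀ : E₁) = y₀ := by
      apply (algebraMap E₁ Ω).injective
      rw [hres, hg']
    have h3 : res g ∈ ((redu k).comp (eta α p)).ker := by
      rw [← hfix, IntermediateField.mem_fixingSubgroup_iff]
      intro y hy
      rw [hKy₀] at hy
      refine fix_adjoin (res g) {(y₀ : E₁)} ?_ y hy
      rintro _ rfl
      exact h2
    exact h3
  have hkill : ∀ v ∈ Alive α p, Kills ψ v := by
    intro v hv O hOv s hs
    set O' : ValuationSubring E₁ := O.comap (algebraMap E₁ Ω) with hO'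
    have hmem : ∀ x : E₁, x ∈ O' ↔ algebraMap E₁ Ω x ∈ O := fun x => Iff.rfl
    have hOv' : IsCenter O' v := by
      intro x
      rw [hOv, nonunits_iff, nonunits_iff, hmem, map_inv₀,
        IsScalarTower.algebraMap_apply F₁ E₁ Ω]
      have h1 : algebraMap E₁ Ω (algebraMap F₁ E₁ (x : F₁)) = 0 ↔
          algebraMap F₁ E₁ (x : F₁) = 0 := map_eq_zero _
      rw [h1]
    have hst : Stab O' (res s) := by
      intro x
      rw [hmem, hmem, hres]
      exact hs _
    exact eta_stab hE₁ hE₂ α hα hp2 v hv O' (ne_top_of_center hOv') hOv' (res s) hst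
  obtain ⟨m, hm, hm'⟩ := h ψ hψ ((alive_infinite hE₁ hE₂ α hα hopen hpf.out).mono hkill)
  refine ⟨m, hm, fun g => ?_⟩
  obtain ⟨g', rfl⟩ := AlgEquiv.restrictNormalHom_surjective (F := F₁) (K₁ := E₁) (E := Ω) g
  exact hm' g'

/-- Uchida's conjecture for the totally real fields `F₁` which, for all primes `p` outside a set
of density zero, have no `ℤ_p`-extension in which infinitely many primes split completely. -/
theorem induced_of_noSplit [IsTotallyReal F₁] (hE₁ : SolvablyClosed E₁) (hE₂ : SolvablyClosed E₂)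
    (α : (E₁ ≃ₐ[F₁] E₁) →* (E₂ ≃ₐ[F₂] E₂)) (hα : Continuous α) (hopen : IsOpen (Set.range α))
    (B : Set ℕ)
    (hB : Tendsto (fun s : ℝ => (∑' p : {p : ℕ | p.Prime ∧ p ∈ B}, ((p : ℕ) : ℝ) ^ (-s)) /
      Real.log (1 / (s - 1))) (𝓝[>] 1) (𝓝 0))
    (h : ∀ (p : ℕ) [Fact p.Prime], p ∉ B → NoSplit F₁ p) :
    ∃! j : E₂ →+* E₁, ∀ (g : E₁ ≃ₐ[F₁] E₁) (x : E₂), g (j x) = j ((α g) x) :=
  existsUnique_of_exists hE₁ hE₂ α (induced_of_eta hE₁ hE₂ α hα hopen B hB
    fun p _ hp2 hpB => eta_finite hE₁ hE₂ α hα hopen hp2 (h p hpB))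

end

end Vale.Agent.P024.TR
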