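import Vale.Agent.P024.H644.K8
import Vale.Agent.P024.ALL.Spec

/-!
Kummer descents of several elements at once: the ratio of the cyclotomic characters.
-/

namespace Vale.Agent.P024.H644D

open scoped NumberField
open IsDedekindDomain NumberField Vale.Agent.P024 Vale.Agent.P024.TR

theorem zpow_sum' {E ι : Type*} [Field E] {x : E} (hx : x ≠ 0) (s : Finset ι) (f : ι → ℤ) :
    x ^ (∑ i ∈ s, f i) = ∏ i ∈ s, x ^ f i := by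
  classical
  induction s using Finset.induction_on with
  | empty => rw [Finset.sum_empty, Finset.prod_empty, zpow_zero]
  | insert a s ha ih => rw [Finset.sum_insert ha, Finset.prod_insert ha, zpow_add₀ hx, ih]

section

variable {F₁ E₁ F₂ E₂ : Type*} [Field F₁] [Field E₁] [Algebra F₁ E₁]
    [Field F₂] [Field E₂] [Algebra F₂ E₂]

variable {α : (E₁ ≃ₐ[F₁] E₁) →* (E₂ ≃ₐ[F₂] E₂)} {p : ℕ} [hpf : Fact p.Prime] {ζ : E₁}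

theorem comm_H1 (hζ : IsPrimitiveRoot ζ p) (a b : E₁ ≃ₐ[F₁] E₁) :
    a * b * (b * a)⁻¹ ∈ HH α p 1 ζ := by
  rw [mem_HH]
  refine ⟨?_, map_one _, ?_⟩
  · have h0 : eta α p (a * b * (b * a)⁻¹) = 1 := by
      rw [map_mul (eta α p), map_inv (eta α p), map_mul (eta α p) a, map_mul (eta α p) b,
        mul_comm (eta α p b), mul_inv_cancel]
    rw [h0, map_one]
  · have hpos := hpf.out.pos
    obtain ⟨k, hk⟩ := exists_exp_root a hpos hζ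
    obtain ⟨j, hj⟩ := exists_exp_root b hpos hζ
    have h2 : (a * b) ζ = (b * a) ζ := by
      rw [AlgEquiv.mul_apply, AlgEquiv.mul_apply, hj, map_pow, hk, map_pow, hj, ← pow_mul,
        ← pow_mul, mul_comm]
    obtain ⟨i, hi⟩ := exists_exp_root (b * a)⁻¹ hpos hζ
    have h3 : (b * a) (((b * a)⁻¹ : E₁ ≃ₐ[F₁] E₁) ζ) = ζ := by
      rw [← AlgEquiv.mul_apply, mul_inv_cancel, AlgEquiv.one_apply]
    rw [AlgEquiv.mul_apply, hi, map_pow, h2, ← map_pow, ← hi, h3]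

theorem normal_H1 (hζ : IsPrimitiveRoot ζ p) : (HH α p 1 ζ).Normal := by
  constructor
  intro h hh g
  have h1 := comm_H1 (α := α) hζ g h
  have h2 : g * h * g⁻¹ = g * h * (h * g)⁻¹ * h := by group
  rw [h2]
  exact (HH α p 1 ζ).mul_mem h1 hh

/-- `t` is the ratio of the cyclotomic characters at `g` modulo `N` -/
def TD (α : (E₁ ≃ₐ[F₁] E₁) →* (E₂ ≃ₐ[F₂] E₂)) (N : ℕ) (ζ₁ : E₁) (ζ₂ : E₂) (g : E₁ ≃ₐ[F₁] E₁)
    (t : ℤ) : Prop :=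
  ∃ m₁ m₂ : ℤ, g ζ₁ = ζ₁ ^ m₁ ∧ α g ζ₂ = ζ₂ ^ m₂ ∧ (N : ℤ) ∣ t * m₂ - m₁

variable {N : ℕ} {ζ₁ : E₁} {ζ₂ : E₂}

theorem TD.exists (hN : 0 < N) (hζ₁ : IsPrimitiveRoot ζ₁ N) (hζ₂ : IsPrimitiveRoot ζ₂ N)
    (g : E₁ ≃ₐ[F₁] E₁) : ∃ t, TD α N ζ₁ ζ₂ g t := by
  obtain ⟨m₁, hm₁⟩ := exists_exp_root g hN hζ₁
  obtain ⟨m₂, hm₂⟩ := exists_exp_root (α g) hN hζ₂
  have hm₂c : IsCoprime (m₂ : ℤ) (N : ℤ) := by
    have h1 : IsPrimitiveRoot (ζ₂ ^ m₂) N := by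
      rw [← hm₂]
      exact hζ₂.map_of_injective (α g).injective
    exact Nat.isCoprime_iff_coprime.2 ((hζ₂.pow_iff_coprime hN m₂).1 h1)
  obtain ⟨u, v, huv⟩ := hm₂c
  refine ⟨m₁ * u, m₁, m₂, by rw [hm₁, zpow_natCast], by rw [hm₂, zpow_natCast], -(m₁ * v), ?_⟩
  linear_combination (m₁ : ℤ) * huv

theorem TD.one : TD α N ζ₁ ζ₂ 1 1 :=
  ⟨1, 1, by rw [AlgEquiv.one_apply, zpow_one], by rw [map_one, AlgEquiv.one_apply, zpow_one],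
    by simp⟩

theorem TD.mul {g g' : E₁ ≃ₐ[F₁] E₁} {t t' : ℤ} (h : TD α N ζ₁ ζ₂ g t)
    (h' : TD α N ζ₁ ζ₂ g' t') : TD α N ζ₁ ζ₂ (g * g') (t * t') := by
  obtain ⟨m₁, m₂, h1, h2, u, hu⟩ := h
  obtain ⟨m₁', m₂', h1', h2', v, hv⟩ := h'
  refine ⟨m₁ * m₁', m₂ * m₂', ?_, ?_, u * (t' * m₂') + m₁ * v, ?_⟩
  · rw [AlgEquiv.mul_apply, h1', map_zpow₀, h1, ← zpow_mul]
  · rw [map_mul, AlgEquiv.mul_apply, h2', map_zpow₀, h2, ← zpow_mul]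
  · linear_combination (t' * m₂') * hu + m₁ * hv

theorem TD.congr (hN : 0 < N) (hζ₁ : IsPrimitiveRoot ζ₁ N) (hζ₂ : IsPrimitiveRoot ζ₂ N)
    {g h : E₁ ≃ₐ[F₁] E₁} (hh : ∀ k : ℤ, h ζ₁ = ζ₁ ^ k → α h ζ₂ = ζ₂ ^ k) {t t' : ℤ}
    (ht : TD α N ζ₁ ζ₂ g t) (ht' : TD α N ζ₁ ζ₂ (g * h) t') : (N : ℤ) ∣ t' - t := by
  obtain ⟨m₁, m₂, h1, h2, u, hu⟩ := ht
  obtain ⟨m₁', m₂', h1', h2', v, hv⟩ := ht'
  obtain ⟨k, hk⟩ := exists_zexp hζ₁ hN one_ne_zero (x := h ζ₁)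
    (by rw [← map_pow, hζ₁.pow_eq_one, map_one, one_pow])
  rw [mul_one] at hk
  have hk2 := hh k hk
  have h3 : (N : ℤ) ∣ m₁' - m₁ * k := by
    rw [← zexp hζ₁ hN, ← h1', AlgEquiv.mul_apply, hk, map_zpow₀, h1, ← zpow_mul]
  have h4 : (N : ℤ) ∣ m₂' - m₂ * k := by
    rw [← zexp hζ₂ hN, ← h2', map_mul, AlgEquiv.mul_apply, hk2, map_zpow₀, h2, ← zpow_mul]
  obtain ⟨x, hx⟩ := h3
  obtain ⟨y, hy⟩ := h4
  have h5 : (N : ℤ) ∣ (t' - t) * m₂' := by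
    refine ⟨v + x - t * y - u * k, ?_⟩
    linear_combination hv + hx - t * hy - k * hu
  have h6 : IsPrimitiveRoot (α (g * h) ζ₂) N := hζ₂.map_of_injective (α (g * h)).injective
  rw [← h6.zpow_eq_one_iff_dvd, h2', ← zpow_mul, mul_comm, hζ₂.zpow_eq_one_iff_dvd]
  exact h5

theorem desc_prod {ι : Type*} (s : Finset ι) {H : Subgroup (E₁ ≃ₐ[F₁] E₁)} (hN : 0 < N)
    (hζ₁ : IsPrimitiveRoot ζ₁ N) (hζ₂ : IsPrimitiveRoot ζ₂ N) (X : ι → E₂) (b : ι → E₁)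
    (hX : ∀ i, X i ≠ 0) (hHX : ∀ i, ∀ g ∈ H, α g (X i ^ N) = X i ^ N)
    (hb : ∀ i, Desc α H ζ₁ ζ₂ (X i) (b i)) (c : ι → ℤ) :
    Desc α H ζ₁ ζ₂ (∏ i ∈ s, X i ^ c i) (∏ i ∈ s, b i ^ c i) := by
  have hζ₁0 := hζ₁.ne_zero hN.ne'
  have hζ₂0 := hζ₂.ne_zero hN.ne'
  refine ⟨Finset.prod_ne_zero_iff.2 fun i _ => zpow_ne_zero _ (hb i).1, ?_⟩
  intro g hg e he
  have hex : ∀ i, ∃ e : ℤ, α g (X i) = ζ₂ ^ e * X i := fun i =>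
    exists_zexp hζ₂ hN (hX i) (by rw [← map_pow, hHX i g hg])
  choose f hf using hex
  have h1 : α g (∏ i ∈ s, X i ^ c i) = ζ₂ ^ (∑ i ∈ s, f i * c i) * ∏ i ∈ s, X i ^ c i := by
    rw [map_prod, zpow_sum' hζ₂0, ← Finset.prod_mul_distrib]
    refine Finset.prod_congr rfl fun i _ => ?_
    rw [map_zpow₀, hf i, mul_zpow, zpow_mul]
  have h2 : g (∏ i ∈ s, b i ^ c i) = ζ₁ ^ (∑ i ∈ s, f i * c i) * ∏ i ∈ s, b i ^ c i := by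
    rw [map_prod, zpow_sum' hζ₁0, ← Finset.prod_mul_distrib]
    refine Finset.prod_congr rfl fun i _ => ?_
    rw [map_zpow₀, (hb i).2 g hg _ (hf i), mul_zpow, zpow_mul]
  rw [h2]
  congr 1
  rw [zexp_tr hζ₁ hζ₂ hN]
  rw [he] at h1
  exact (mul_right_cancel₀ (Finset.prod_ne_zero_iff.2 fun i _ => zpow_ne_zero _ (hX i)) h1).symm

end

end Vale.Agent.P024.H644D
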