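import Vale.Agent.P024.H644.D1

/-!
Block (D).
-/

namespace Vale.Agent.P024.H644D

open scoped NumberField
open IsDedekindDomain NumberField Vale.Agent.P024 Vale.Agent.P024.M4 Vale.Agent.P024.TR
  Vale.Agent.P024.ALL

universe u v

/-- the valuation of a natural number -/
theorem exists_val {K : Type*} [Field K] [NumberField K] (P : HeightOneSpectrum (𝓞 K)) (x : K)
    (hx : x ≠ 0) : ∃ e : ℤ, P.valuation K x = WithZero.exp e :=
  ⟨WithZero.log (P.valuation K x), (WithZero.exp_log ((P.valuation K).ne_zero_iff.2 hx)).symm⟩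

theorem val_natCast_eq_one {K : Type*} [Field K] [NumberField K] (P : HeightOneSpectrum (𝓞 K))
    {r r' : ℕ} (hr : r.Prime) (hr' : r'.Prime) (hne : r ≠ r') (h : (r : 𝓞 K) ∈ P.asIdeal) :
    P.valuation K (r' : K) = 1 := by
  have h1 : (r' : K) = algebraMap (𝓞 K) K (r' : 𝓞 K) := by simp
  rw [h1]
  have h2 : (r' : 𝓞 K) ∉ P.asIdeal := by
    intro h'
    have h3 : IsCoprime (r : ℤ) (r' : ℤ) := Nat.isCoprime_iff_coprime.2
      ((Nat.coprime_primes hr hr').2 hne)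
    obtain ⟨a, b, hab⟩ := h3
    have h4 : ((a * r + b * r' : ℤ) : 𝓞 K) ∈ P.asIdeal := by
      push_cast
      exact P.asIdeal.add_mem (P.asIdeal.mul_mem_left _ h) (P.asIdeal.mul_mem_left _ h')
    rw [hab, Int.cast_one] at h4
    exact P.isPrime.ne_top ((Ideal.eq_top_iff_one _).2 h4)
  by_contra hne1
  have h5 : P.valuation K (algebraMap (𝓞 K) K (r' : 𝓞 K)) < 1 :=
    lt_of_le_of_ne (P.valuation_le_one _) hne1
  rw [P.valuation_lt_one_iff_mem] at h5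
  exact h2 h5

theorem propD_of {E₁ : Type u} {E₂ : Type v} [Field E₁] [CharZero E₁]
    [IsAlgClosed E₁] [Algebra.IsAlgebraic ℚ E₁] [Field E₂] [CharZero E₂] [IsGalois ℚ E₂]
    (hE₂ : SolvablyClosed E₂) (F : IntermediateField ℚ E₁) [NumberField F]
    (a : (E₁ ≃ₐ[F] E₁) →* (E₂ ≃ₐ[ℚ] E₂)) (ha : Continuous a) (hopen : IsOpen (Set.range a))
    (l : ℕ) [hlf : Fact l.Prime] (hl2 : l ≠ 2) (hfin : ∃ m : ℕ, 0 < m ∧ ∀ g, eta a l g ^ m = 1)
    (T : Finset ℕ) (hT : ∀ r ∈ T, r.Prime ∧ r ≠ l) (hcard : 2 * Module.finrank ℚ F < T.card)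
    (hD1 : PropD1.{u})
    (hval : ∀ (n : ℕ) (H : Subgroup (E₁ ≃ₐ[F] E₁)) (L : IntermediateField F E₁)
      [NumberField L] (_ : ∀ g : E₁ ≃ₐ[F] E₁, (∀ x ∈ L, g x = x) → g ∈ H)
      (ζ : E₁) (_ : IsPrimitiveRoot ζ l) (_ : ζ ∈ L) (ζ₁ : E₁) (ζ₂ : E₂) (r : ℕ)
      (_ : ∀ v ∈ Alive a l, ¬ ALL.Hit a v r) (X : E₂) (_ : X ^ (l ^ n) = r)
      (b : E₁) (_ : TR.Desc a H ζ₁ ζ₂ X b)
      (y : L) (_ : b ^ (l ^ n) = (y : E₁)) (V : HeightOneSpectrum (𝓞 L))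
      (_ : (l : 𝓞 L) ∉ V.asIdeal), ∃ k : ℤ, V.valuation L y = WithZero.exp (((l ^ n : ℕ) : ℤ) * k)) :
    ∃ r₂ ∈ T, ∃ v ∈ Alive a l, Hit a v r₂ := by
  classical
  have hE₁ : SolvablyClosed E₁ := fun M _ _ => IntermediateField.eq_bot_of_isAlgClosed_of_isAlgebraic M
  have hl : l.Prime := hlf.out
  have hclos : IsAlgClosure ℚ E₁ := ⟨inferInstance, inferInstance⟩
  have hGal0 : IsGalois ℚ E₁ := inferInstance
  have hGal : IsGalois F E₁ := inferInstance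
  by_contra hcon
  push Not at hcon
  obtain ⟨m, hm, hfin⟩ := hfin
  obtain ⟨ζ, hζ⟩ := hE₁.exists_primitiveRoot l hl.pos
  set H : Subgroup (E₁ ≃ₐ[F] E₁) := HH a l 1 ζ with hH
  have hHo : IsOpen (H : Set (E₁ ≃ₐ[F] E₁)) := isOpen_HH hE₁ hE₂ a ha l 1 ζ
  have hHn : H.Normal := normal_H1 hζ
  obtain ⟨hfd, hfix⟩ := finiteDimensional_fixedField H hHo
  set L := IntermediateField.fixedField H with hL
  have hNF : NumberField L := NumberField.of_module_finite F L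
  have hLH : ∀ g : E₁ ≃ₐ[F] E₁, (∀ x ∈ L, g x = x) → g ∈ H := by
    intro g hg
    rw [← hfix, IntermediateField.mem_fixingSubgroup_iff]
    exact hg
  have hHL : ∀ g ∈ H, ∀ x ∈ L, g x = x := fun g hg x hx =>
    (IntermediateField.mem_fixedField_iff H x).1 hx g hg
  have hmemL : ∀ x : E₁, (∀ g ∈ H, g x = x) → x ∈ L := fun x hx =>
    (IntermediateField.mem_fixedField_iff H x).2 hx
  have hgal : IsGalois F L := (InfiniteGalois.normal_iff_isGalois L).1 (by rw [hfix]; exact hHn)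
  have hnorm : Normal F L := inferInstance
  have hζL : ζ ∈ L := hmemL ζ fun g hg => (mem_HH.1 hg).2.2
  obtain ⟨M, hM, hD⟩ := hD1 F L l hl
  -- the target side
  have hH2 : IsOpen ((H.map a : Subgroup (E₂ ≃ₐ[ℚ] E₂)) : Set (E₂ ≃ₐ[ℚ] E₂)) :=
    isOpen_map_of_isOpen_range a ha hopen H hHo
  obtain ⟨hfd2, -⟩ := finiteDimensional_fixedField (H.map a) hH2
  set M₂ := IntermediateField.fixedField (H.map a) with hM₂
  have hNF2 : NumberField M₂ := NumberField.of_module_finite ℚ M₂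
  have hmemM : ∀ x : E₂, (∀ g ∈ H, a g x = x) → x ∈ M₂ := by
    intro x hx
    rw [hM₂, IntermediateField.mem_fixedField_iff]
    rintro _ ⟨g, hg, rfl⟩
    exact hx g hg
  -- the primes
  let r : Fin T.card → ℕ := fun i => (T.equivFin.symm i : ℕ)
  have hrT : ∀ i, r i ∈ T := fun i => (T.equivFin.symm i).2
  have hrinj : Function.Injective r := Subtype.val_injective.comp T.equivFin.symm.injective
  have hrp : ∀ i, (r i).Prime := fun i => (hT _ (hrT i)).1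
  choose P hP using fun i => exists_prime_above M₂ (hrp i)
  have hr0 : ∀ i, ((r i : ℕ) : M₂) ≠ 0 := fun i => Nat.cast_ne_zero.2 (hrp i).ne_zero
  choose e he using fun i => exists_val (P i) ((r i : ℕ) : M₂) (hr0 i)
  have he0 : ∀ i, e i ≠ 0 := by
    intro i h0
    have h1 : (P i).valuation M₂ (algebraMap (𝓞 M₂) M₂ (r i : 𝓞 M₂)) < 1 :=
      (P i).valuation_lt_one_iff_mem _ |>.2 (hP i)
    have h2 : algebraMap (𝓞 M₂) M₂ (r i : 𝓞 M₂) = ((r i : ℕ) : M₂) := by simp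
    rw [h2, he i, h0, WithZero.exp_zero] at h1
    exact lt_irrefl _ h1
  -- the level
  set k : ℕ := (∑ i, M * (e i).natAbs) + 1 with hk
  have hN : 0 < l ^ k := pow_pos hl.pos k
  obtain ⟨ζ₁, hζ₁⟩ := hE₁.exists_primitiveRoot (l ^ k) hN
  obtain ⟨ζ₂, hζ₂⟩ := hE₂.exists_primitiveRoot (l ^ k) hN
  have hcyc : ∀ g ∈ H, ∀ k' : ℤ, g ζ₁ = ζ₁ ^ k' → a g ζ₂ = ζ₂ ^ k' := fun g hg k' hk' =>
    cyc_of_HH hE₁ hE₂ hl2 m hm hfin k hζ₁ hζ₂ g hg k' hk'
  choose X hX using fun i => hE₂.exists_root (l ^ k) hN ((r i : ℕ) : E₂)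
  have hX0 : ∀ i, X i ≠ 0 := by
    intro i h0
    have h1 := hX i
    rw [h0, zero_pow hN.ne'] at h1
    exact (Nat.cast_ne_zero.2 (hrp i).ne_zero : ((r i : ℕ) : E₂) ≠ 0) h1.symm
  have hHX : ∀ i, ∀ g ∈ H, a g (X i ^ (l ^ k)) = X i ^ (l ^ k) := by
    intro i g hg
    rw [hX, map_natCast]
  choose b hb using fun i => exists_desc a ha H hHo hN hζ₁ hζ₂ hcyc (X i) (hX0 i) (hHX i)
  have hbL : ∀ i, b i ^ (l ^ k) ∈ L := by
    intro i
    apply hmemL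
    intro g hg
    obtain ⟨c, hc⟩ := exists_zexp hζ₂ hN (hX0 i) (x := a g (X i)) (by rw [← map_pow, hHX i g hg])
    rw [map_pow, (hb i).2 g hg c hc, mul_pow, ← zpow_natCast (ζ₁ ^ c), ← zpow_mul, mul_comm c,
      zpow_mul, zpow_natCast, hζ₁.pow_eq_one, one_zpow, one_mul]
  let y : Fin T.card → L := fun i => ⟨b i ^ (l ^ k), hbL i⟩
  have hyE : ∀ i, b i ^ (l ^ k) = (y i : E₁) := fun i => rfl
  have hy0 : ∀ i, y i ≠ 0 := fun i h => pow_ne_zero _ (hb i).1 (congrArg Subtype.val h)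
  -- the exponents
  have hlift : ∀ σ : L ≃ₐ[F] L, ∃ g : E₁ ≃ₐ[F] E₁, g.restrictNormal L = σ := fun σ =>
    AlgEquiv.restrictNormalHom_surjective (F := F) (K₁ := L) (E := E₁) σ
  choose g hg using hlift
  choose t ht using fun σ => TD.exists (α := a) hN hζ₁ hζ₂ (g σ)
  have hresH : ∀ h h' : E₁ ≃ₐ[F] E₁, h.restrictNormal L = h'.restrictNormal L → h⁻¹ * h' ∈ H := by
    intro h h' hh
    apply hLH
    intro x hx
    have h1 := congrArg (fun σ : L ≃ₐ[F] L => ((σ ⟨x, hx⟩ : L) : E₁)) hh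
    have h2 : ((h.restrictNormal L ⟨x, hx⟩ : L) : E₁) = h x :=
      AlgEquiv.restrictNormal_commutes h L ⟨x, hx⟩
    have h3 : ((h'.restrictNormal L ⟨x, hx⟩ : L) : E₁) = h' x :=
      AlgEquiv.restrictNormal_commutes h' L ⟨x, hx⟩
    simp only [h2, h3] at h1
    rw [AlgEquiv.mul_apply, ← h1, ← AlgEquiv.mul_apply, inv_mul_cancel, AlgEquiv.one_apply]
  have hcongr : ∀ (h h' : E₁ ≃ₐ[F] E₁) (s s' : ℤ), h.restrictNormal L = h'.restrictNormal L →
      TD a (l ^ k) ζ₁ ζ₂ h s → TD a (l ^ k) ζ₁ ζ₂ h' s' → ((l ^ k : ℕ) : ℤ) ∣ s' - s := by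
    intro h h' s s' hh hs hs'
    refine TD.congr hN hζ₁ hζ₂ (h := h⁻¹ * h') (hcyc _ (hresH h h' hh)) hs ?_
    rwa [mul_inv_cancel_left]
  have htmul : ∀ σ τ, ((l ^ k : ℕ) : ℤ) ∣ t (σ * τ) - t σ * t τ := by
    intro σ τ
    refine hcongr (g σ * g τ) (g (σ * τ)) _ _ ?_ (TD.mul (ht σ) (ht τ)) (ht (σ * τ))
    rw [hg]
    have h1 : (g σ * g τ).restrictNormal L = (g σ).restrictNormal L * (g τ).restrictNormal L :=
      map_mul (AlgEquiv.restrictNormalHom (F := F) (K₁ := E₁) L) (g σ) (g τ)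
    rw [h1, hg, hg]
  have ht1 : ((l ^ k : ℕ) : ℤ) ∣ t 1 - 1 := by
    refine hcongr 1 (g 1) _ _ ?_ TD.one (ht 1)
    rw [hg]
    exact map_one (AlgEquiv.restrictNormalHom (F := F) (K₁ := E₁) L)
  -- the relation
  have hrel : ∀ i σ, ∃ z : L, z ≠ 0 ∧ σ (y i) = y i ^ t σ * z ^ (l ^ k) := by
    intro i σ
    obtain ⟨m₁, m₂, hm₁, hm₂, hdvd⟩ := ht σ
    obtain ⟨z, hz0, hzH, hz⟩ := (hb i).eigen hN hζ₁ hζ₂ hcyc (hX0 i) (hHX i) (g σ) (by
      intro h hh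
      have := hHn.conj_mem h hh (g σ)⁻¹
      rwa [inv_inv] at this) 1 (by norm_num) (by rw [hX, map_natCast, zpow_one]) m₁ m₂ (t σ)
      hm₁ hm₂ (by rwa [mul_one])
    refine ⟨⟨z, hmemL z hzH⟩, fun h => hz0 (congrArg Subtype.val h), ?_⟩
    apply Subtype.ext
    have h1 : ((σ (y i) : L) : E₁) = g σ (y i : E₁) := by
      conv_lhs => rw [← hg σ]
      exact AlgEquiv.restrictNormal_commutes (g σ) L (y i)
    rw [h1]
    push_cast
    exact hz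
  -- the valuations
  have hvals : ∀ i, ∀ V : HeightOneSpectrum (𝓞 L), (l : 𝓞 L) ∉ V.asIdeal →
      ∃ j : ℤ, V.valuation L (y i) = WithZero.exp (((l ^ k : ℕ) : ℤ) * j) := by
    intro i V hV
    exact hval k H L hLH ζ hζ hζL ζ₁ ζ₂ (r i) (hcon (r i) (hrT i)) (X i) (hX i) (b i) (hb i) (y i)
      (hyE i) V hV
  obtain ⟨c, ⟨i₀, hi₀⟩, z, hz0, hz⟩ := hD k T.card hcard y t hy0 htmul ht1 hrel hvals
  -- back to `M₂`
  have hdesc := desc_prod (α := a) Finset.univ hN hζ₁ hζ₂ X b hX0 hHX hb c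
  have hprodX : (∏ i, X i ^ c i) ^ (l ^ k) = ∏ i, ((r i : ℕ) : E₂) ^ c i := by
    rw [← Finset.prod_pow]
    refine Finset.prod_congr rfl fun i _ => ?_
    rw [← hX i, ← zpow_natCast, ← zpow_natCast, ← zpow_mul, ← zpow_mul, mul_comm]
  have hprodb : (∏ i, b i ^ c i) ^ (l ^ k) = ((∏ i, y i ^ c i : L) : E₁) := by
    rw [← Finset.prod_pow]
    push_cast
    refine Finset.prod_congr rfl fun i _ => ?_
    have h1 : ((y i ^ c i : L) : E₁) = (y i : E₁) ^ c i := rfl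
    rw [h1, ← hyE i, ← zpow_natCast, ← zpow_natCast, ← zpow_mul, ← zpow_mul, mul_comm]
  obtain ⟨X', hX', hX'N⟩ := hdesc.back hN hζ₁ hζ₂ hcyc
    (Finset.prod_ne_zero_iff.2 fun i _ => zpow_ne_zero _ (hX0 i)) (by
      intro g hg
      rw [hprodX, map_prod]
      refine Finset.prod_congr rfl fun i _ => ?_
      rw [map_zpow₀, map_natCast]) M (z := (z : E₁))
    (fun h => hz0 (Subtype.ext h)) (fun h hh => hHL h hh _ z.2) (by
      rw [hprodb]
      have := congrArg Subtype.val hz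
      push_cast at this ⊢
      exact this)
  rw [hprodX] at hX'N
  have hX'M := hmemM X' hX'
  have h1 : (⟨X', hX'M⟩ : M₂) ^ (l ^ k) = (∏ i, ((r i : ℕ) : M₂) ^ c i) ^ M := Subtype.ext (by
    push_cast
    exact hX'N)
  have hX'0 : (⟨X', hX'M⟩ : M₂) ≠ 0 := by
    intro h
    rw [h, zero_pow hN.ne'] at h1
    exact (pow_ne_zero M (Finset.prod_ne_zero_iff.2 fun i _ => zpow_ne_zero _ (hr0 i))) h1.symm
  obtain ⟨d, hd⟩ := exists_val (P i₀) _ hX'0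
  have h2 := congrArg ((P i₀).valuation M₂) h1
  have h3 : (P i₀).valuation M₂ (∏ i, ((r i : ℕ) : M₂) ^ c i) = WithZero.exp (c i₀ * e i₀) := by
    rw [map_prod, Finset.prod_eq_single i₀]
    · rw [map_zpow₀, he i₀, ← WithZero.exp_zsmul, smul_eq_mul]
    · intro i _ hi
      rw [map_zpow₀, val_natCast_eq_one (P i₀) (hrp i₀) (hrp i) (fun h => hi (hrinj h.symm))
        (hP i₀), one_zpow]
    · intro h
      exact absurd (Finset.mem_univ _) h
  rw [map_pow, map_pow, hd, h3, ← WithZero.exp_nsmul, ← WithZero.exp_nsmul,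
    WithZero.exp_inj, nsmul_eq_mul, nsmul_eq_mul] at h2
  have h4 : ((l ^ k : ℕ) : ℤ) ∣ (M * e i₀) * c i₀ := ⟨d, by rw [h2]; ring⟩
  have h5 : IsCoprime (((l ^ k : ℕ) : ℤ)) (c i₀) := by
    rw [Nat.cast_pow]
    exact IsCoprime.pow_left ((Prime.coprime_iff_not_dvd (Nat.prime_iff_prime_int.1 hl)).2 hi₀)
  have h6 : ((l ^ k : ℕ) : ℤ) ∣ M * e i₀ := h5.dvd_of_dvd_mul_right h4
  have h7 : l ^ k ∣ M * (e i₀).natAbs := by
    have := Int.natAbs_dvd_natAbs.2 h6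
    rwa [Int.natAbs_natCast, Int.natAbs_mul, Int.natAbs_natCast] at this
  have h8 : 0 < M * (e i₀).natAbs := Nat.mul_pos hM (Int.natAbs_pos.2 (he0 i₀))
  have h9 := Nat.le_of_dvd h8 h7
  have h10 : k < l ^ k := Nat.lt_pow_self hl.one_lt
  have h11 : M * (e i₀).natAbs ≤ ∑ i, M * (e i).natAbs :=
    Finset.single_le_sum (f := fun i => M * (e i).natAbs) (fun _ _ => Nat.zero_le _)
      (Finset.mem_univ i₀)
  omega

end Vale.Agent.P024.H644D
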