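import Vale.Agent.P024.H644.Defs

/-!
Hilbert's theorem 90 for an open subgroup of an infinite Galois group.
-/

namespace Vale.Agent.P024.TR

open scoped NumberField
open IsDedekindDomain NumberField

theorem hilbert90 {F E : Type*} [Field F] [Field E] [Algebra F E] [IsGalois F E]
    (H W : Subgroup (E ≃ₐ[F] E)) (hWo : IsOpen (W : Set (E ≃ₐ[F] E))) (hWH : W ≤ H)
    (f : (E ≃ₐ[F] E) → E) (hf0 : ∀ g ∈ H, f g ≠ 0)
    (hf : ∀ g ∈ H, ∀ h ∈ H, f (g * h) = g (f h) * f g) (hfW : ∀ w ∈ W, f w = 1) :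
    ∃ b : E, b ≠ 0 ∧ ∀ g ∈ H, g b = f g * b := by
  classical
  have hWc : IsClosed (W : Set (E ≃ₐ[F] E)) := Subgroup.isClosed_of_isOpen W hWo
  let M : IntermediateField F E := IntermediateField.fixedField W
  have hMfix : M.fixingSubgroup = W := InfiniteGalois.fixingSubgroup_fixedField ⟨W, hWc⟩
  have hM : ∀ c ∈ M, ∀ h ∈ W, h c = c := by
    intro c hc h hh
    exact (IntermediateField.mem_fixedField_iff W c).mp hc h hh
  have hfinG : Finite ((E ≃ₐ[F] E) ⧸ W) := Subgroup.quotient_finite_of_isOpen W hWo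
  have hfi : W.FiniteIndex := Subgroup.finiteIndex_of_finite_quotient
  let W' : Subgroup H := W.subgroupOf H
  have hfinQ : Finite (H ⧸ W') := Subgroup.finite_quotient_of_finiteIndex
  have hft : Fintype (H ⧸ W') := Fintype.ofFinite _
  let T : E → H ⧸ W' → E := fun a q => (f (q.out : H))⁻¹ * ((q.out : H) : E ≃ₐ[F] E) a
  -- the value at another representative
  have hT : ∀ a ∈ M, ∀ g : H, T a (QuotientGroup.mk g) = (f (g : E ≃ₐ[F] E))⁻¹ *
      ((g : E ≃ₐ[F] E)) a := by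
    intro a ha g
    obtain ⟨w, hw⟩ := QuotientGroup.mk_out_eq_mul W' g
    have hwW : ((w : H) : E ≃ₐ[F] E) ∈ W := Subgroup.mem_subgroupOf.1 w.2
    show (f ((QuotientGroup.mk g : H ⧸ W').out : H))⁻¹ *
      (((QuotientGroup.mk g : H ⧸ W').out : H) : E ≃ₐ[F] E) a = _
    rw [hw]
    push_cast
    rw [hf g g.2 _ (hWH hwW), hfW _ hwW, map_one, one_mul, AlgEquiv.mul_apply, hM a ha _ hwW]
  -- nonvanishing
  have hres : ∃ a ∈ M, (∑ q, T a q) ≠ 0 := by
    by_contra hcon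
    push Not at hcon
    let φ : (H ⧸ W') → (M →* E) := fun q =>
      (((q.out : H) : E ≃ₐ[F] E) : E →* E).comp (algebraMap M E : M →* E)
    have hφ : Function.Injective φ := by
      intro i j hij
      have h1 : ((i.out : H) : E ≃ₐ[F] E)⁻¹ * ((j.out : H) : E ≃ₐ[F] E) ∈ M.fixingSubgroup := by
        rw [IntermediateField.mem_fixingSubgroup_iff]
        intro x hx
        have h2 : ((i.out : H) : E ≃ₐ[F] E) x = ((j.out : H) : E ≃ₐ[F] E) x :=
          DFunLike.congr_fun hij (⟨x, hx⟩ : M)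
        rw [AlgEquiv.mul_apply, ← h2, ← AlgEquiv.mul_apply, inv_mul_cancel, AlgEquiv.one_apply]
      rw [hMfix] at h1
      rw [← QuotientGroup.out_eq' i, ← QuotientGroup.out_eq' j, QuotientGroup.eq]
      exact Subgroup.mem_subgroupOf.2 (by simpa using h1)
    have hli : LinearIndependent E (fun i : H ⧸ W' => (φ i : M → E)) :=
      (linearIndependent_monoidHom M E).comp φ hφ
    rw [Fintype.linearIndependent_iff] at hli
    have h1 := hli (fun i => (f (i.out : H))⁻¹) (by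
      funext c
      rw [Finset.sum_apply]
      simp only [Pi.smul_apply, smul_eq_mul, Pi.zero_apply]
      exact hcon (c : E) c.2) (QuotientGroup.mk 1)
    exact inv_ne_zero (hf0 _ (QuotientGroup.mk 1 : H ⧸ W').out.2) h1
  obtain ⟨a, haM, ha⟩ := hres
  refine ⟨_, ha, ?_⟩
  intro g hg
  rw [map_sum, Finset.mul_sum]
  have h1 := Equiv.sum_comp (MulAction.toPerm (⟨g, hg⟩ : H) : Equiv.Perm (H ⧸ W'))
    (fun q => f g * T a q)
  rw [← h1]
  refine Finset.sum_congr rfl fun q _ => ?_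
  have h2 : (MulAction.toPerm (⟨g, hg⟩ : H) : Equiv.Perm (H ⧸ W')) q =
      QuotientGroup.mk ((⟨g, hg⟩ : H) * q.out) := by
    conv_lhs => rw [← q.out_eq]
    rfl
  rw [h2, hT a haM]
  have h3 : f (g * ((q.out : H) : E ≃ₐ[F] E)) = g (f (q.out : H)) * f g := hf g hg _ q.out.2
  show g ((f (q.out : H))⁻¹ * ((q.out : H) : E ≃ₐ[F] E) a) = f g *
    ((f (g * ((q.out : H) : E ≃ₐ[F] E)))⁻¹ * (g * ((q.out : H) : E ≃ₐ[F] E)) a)
  rw [h3, map_mul, map_inv₀, AlgEquiv.mul_apply]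
  have h4 : f g ≠ 0 := hf0 g hg
  have h5 : g (f (q.out : H)) ≠ 0 := by
    rw [map_ne_zero]
    exact hf0 _ q.out.2
  field_simp

end Vale.Agent.P024.TR
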