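import Vale.Agent.P024.H644.K1

/-!
Kummer descent along a homomorphism of Galois groups.
-/

namespace Vale.Agent.P024.TR

open scoped NumberField
open IsDedekindDomain NumberField

theorem zexp {E : Type*} [Field E] {N : ℕ} {ζ : E} (hζ : IsPrimitiveRoot ζ N) (hN : 0 < N)
    (i j : ℤ) : ζ ^ i = ζ ^ j ↔ (N : ℤ) ∣ i - j := by
  have h0 := hζ.ne_zero hN.ne'
  rw [← hζ.zpow_eq_one_iff_dvd, zpow_sub₀ h0, div_eq_one_iff_eq (zpow_ne_zero _ h0)]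

theorem zexp_tr {E E' : Type*} [Field E] [Field E'] {N : ℕ} {ζ : E} (hζ : IsPrimitiveRoot ζ N)
    {ζ' : E'} (hζ' : IsPrimitiveRoot ζ' N) (hN : 0 < N)
    (i j : ℤ) : ζ ^ i = ζ ^ j ↔ ζ' ^ i = ζ' ^ j := by
  rw [zexp hζ hN, zexp hζ' hN]

theorem exists_zexp {E : Type*} [Field E] {N : ℕ} {ζ : E} (hζ : IsPrimitiveRoot ζ N)
    (hN : 0 < N) {x y : E} (hy : y ≠ 0) (h : x ^ N = y ^ N) : ∃ e : ℤ, x = ζ ^ e * y := by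
  obtain ⟨e, he⟩ := exists_exp hN hζ hy h
  exact ⟨e, by rw [he, zpow_natCast]⟩

section

variable {F₁ E₁ F₂ E₂ : Type*} [Field F₁] [Field E₁] [Algebra F₁ E₁] [IsGalois F₁ E₁]
    [Field F₂] [Field E₂] [Algebra F₂ E₂] [IsGalois F₂ E₂]

/-- `b` is a Kummer descent of `X` along `α` on `H`. -/
def Desc (α : (E₁ ≃ₐ[F₁] E₁) →* (E₂ ≃ₐ[F₂] E₂)) (H : Subgroup (E₁ ≃ₐ[F₁] E₁)) (ζ₁ : E₁)
    (ζ₂ : E₂) (X : E₂) (b : E₁) : Prop :=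
  b ≠ 0 ∧ ∀ g ∈ H, ∀ e : ℤ, α g X = ζ₂ ^ e * X → g b = ζ₁ ^ e * b

theorem exists_desc (α : (E₁ ≃ₐ[F₁] E₁) →* (E₂ ≃ₐ[F₂] E₂)) (hα : Continuous α)
    (H : Subgroup (E₁ ≃ₐ[F₁] E₁)) (hH : IsOpen (H : Set (E₁ ≃ₐ[F₁] E₁))) {N : ℕ} (hN : 0 < N)
    {ζ₁ : E₁} (hζ₁ : IsPrimitiveRoot ζ₁ N) {ζ₂ : E₂} (hζ₂ : IsPrimitiveRoot ζ₂ N)
    (hcyc : ∀ g ∈ H, ∀ k : ℤ, g ζ₁ = ζ₁ ^ k → α g ζ₂ = ζ₂ ^ k)
    (X : E₂) (hX : X ≠ 0) (hHX : ∀ g ∈ H, α g (X ^ N) = X ^ N) :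
    ∃ b : E₁, Desc α H ζ₁ ζ₂ X b := by
  classical
  have hζ₁0 := hζ₁.ne_zero hN.ne'
  have hζ₂0 := hζ₂.ne_zero hN.ne'
  have hex : ∀ g ∈ H, ∃ e : ℤ, α g X = ζ₂ ^ e * X := fun g hg =>
    exists_zexp hζ₂ hN hX (by rw [← map_pow, hHX g hg])
  have hcan : ∀ i j : ℤ, ζ₂ ^ i * X = ζ₂ ^ j * X → ζ₁ ^ i = ζ₁ ^ j := fun i j h =>
    (zexp_tr hζ₁ hζ₂ hN i j).2 (mul_right_cancel₀ hX h)
  let c : (E₁ ≃ₐ[F₁] E₁) → ℤ := fun g => if h : ∃ e : ℤ, α g X = ζ₂ ^ e * X then h.choose else 0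
  have hc : ∀ g ∈ H, α g X = ζ₂ ^ (c g) * X := by
    intro g hg
    have h := hex g hg
    show _ = ζ₂ ^ (if h : ∃ e : ℤ, α g X = ζ₂ ^ e * X then h.choose else 0) * X
    rw [dif_pos h]
    exact h.choose_spec
  let W : Subgroup (E₁ ≃ₐ[F₁] E₁) := H ⊓ (MulAction.stabilizer (E₂ ≃ₐ[F₂] E₂) X).comap α
  have hWo : IsOpen (W : Set (E₁ ≃ₐ[F₁] E₁)) := by
    have h2 : IsOpen ((MulAction.stabilizer (E₂ ≃ₐ[F₂] E₂) X).comap α : Set (E₁ ≃ₐ[F₁] E₁)) :=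
      (stabilizer_isOpen_of_isIntegral (K := F₂) (L := E₂) X).preimage hα
    exact hH.inter h2
  obtain ⟨b, hb0, hb⟩ := hilbert90 H W hWo inf_le_left (fun g => ζ₁ ^ c g)
    (fun g _ => zpow_ne_zero _ hζ₁0) (by
      intro g hg h hh
      obtain ⟨k, hk⟩ := exists_zexp hζ₁ hN one_ne_zero (x := g ζ₁)
        (by rw [← map_pow, hζ₁.pow_eq_one, map_one, one_pow])
      rw [mul_one] at hk
      have hk2 := hcyc g hg k hk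
      show ζ₁ ^ c (g * h) = g (ζ₁ ^ c h) * ζ₁ ^ c g
      rw [map_zpow₀, hk, ← zpow_mul, ← zpow_add₀ hζ₁0]
      apply hcan
      rw [← hc _ (H.mul_mem hg hh), map_mul, AlgEquiv.mul_apply, hc h hh, map_mul, map_zpow₀,
        hk2, hc g hg, ← zpow_mul, zpow_add₀ hζ₂0]
      ring) (by
      intro w hw
      have h1 : α w X = X := hw.2
      have h2 := hc w hw.1
      rw [h1] at h2
      have h3 := hcan (c w) 0 (by rw [← h2, zpow_zero, one_mul])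
      rw [zpow_zero] at h3
      exact h3)
  refine ⟨b, hb0, ?_⟩
  intro g hg e he
  rw [hb g hg]
  congr 1
  exact hcan _ _ (by rw [← hc g hg, he])

/-- the eigenvector property of a Kummer descent -/
theorem Desc.eigen {α : (E₁ ≃ₐ[F₁] E₁) →* (E₂ ≃ₐ[F₂] E₂)}
    {H : Subgroup (E₁ ≃ₐ[F₁] E₁)} {N : ℕ} (hN : 0 < N)
    {ζ₁ : E₁} (hζ₁ : IsPrimitiveRoot ζ₁ N) {ζ₂ : E₂} (hζ₂ : IsPrimitiveRoot ζ₂ N)
    (hcyc : ∀ g ∈ H, ∀ k : ℤ, g ζ₁ = ζ₁ ^ k → α g ζ₂ = ζ₂ ^ k)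
    {X : E₂} (hX : X ≠ 0) (hHX : ∀ g ∈ H, α g (X ^ N) = X ^ N) {b : E₁}
    (hb : Desc α H ζ₁ ζ₂ X b) (g : E₁ ≃ₐ[F₁] E₁) (hgH : ∀ h ∈ H, g⁻¹ * h * g ∈ H)
    (δ : ℤ) (hδ : δ * δ = 1) (hgX : (α g (X ^ N)) = (X ^ N) ^ δ) (m₁ m₂ t : ℤ)
    (hm₁ : g ζ₁ = ζ₁ ^ m₁) (hm₂ : α g ζ₂ = ζ₂ ^ m₂) (ht : (N : ℤ) ∣ t * m₂ - m₁ * δ) :
    ∃ z : E₁, z ≠ 0 ∧ (∀ h ∈ H, h z = z) ∧ g (b ^ N) = (b ^ N) ^ t * z ^ N := by
  have hζ₁0 := hζ₁.ne_zero hN.ne'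
  have hζ₂0 := hζ₂.ne_zero hN.ne'
  have hb0 := hb.1
  have hXδ : X ^ δ ≠ 0 := zpow_ne_zero _ hX
  obtain ⟨a, ha⟩ := exists_zexp hζ₂ hN hXδ (x := α g X) (by
    rw [← map_pow, hgX, ← zpow_natCast, ← zpow_natCast, ← zpow_mul, ← zpow_mul, mul_comm])
  set s : ℤ := t * δ * a with hs
  have hgb0 : g b ≠ 0 := by rwa [map_ne_zero]
  have hbt0 : b ^ t * ζ₁ ^ s ≠ 0 := mul_ne_zero (zpow_ne_zero _ hb0) (zpow_ne_zero _ hζ₁0)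
  refine ⟨g b / (b ^ t * ζ₁ ^ s), div_ne_zero hgb0 hbt0, ?_, ?_⟩
  · intro h hh
    obtain ⟨k, hk⟩ := exists_zexp hζ₁ hN one_ne_zero (x := h ζ₁)
      (by rw [← map_pow, hζ₁.pow_eq_one, map_one, one_pow])
    rw [mul_one] at hk
    have hk2 := hcyc h hh k hk
    obtain ⟨c, hc⟩ := exists_zexp hζ₂ hN hX (x := α h X) (by rw [← map_pow, hHX h hh])
    obtain ⟨c', hc'⟩ := exists_zexp hζ₂ hN hX (x := α (g⁻¹ * h * g) X)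
      (by rw [← map_pow, hHX _ (hgH h hh)])
    have h1 := hb.2 h hh c hc
    have h2 := hb.2 _ (hgH h hh) c' hc'
    have h3 : h (g b) = ζ₁ ^ (m₁ * c') * g b := by
      have h4 : h (g b) = g ((g⁻¹ * h * g) b) := by
        rw [← AlgEquiv.mul_apply, ← AlgEquiv.mul_apply]
        congr 1
        group
      rw [h4, h2, map_mul, map_zpow₀, hm₁, ← zpow_mul]
    have h5 : (N : ℤ) ∣ (m₂ * c' + a) - (a * k + c * δ) := by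
      rw [← zexp hζ₂ hN]
      have h6 : α h (α g X) = α g (α (g⁻¹ * h * g) X) := by
        rw [← AlgEquiv.mul_apply, ← AlgEquiv.mul_apply, ← map_mul, ← map_mul]
        congr 2
        group
      rw [hc', map_mul, map_zpow₀, hm₂, ha, map_mul, map_zpow₀, map_zpow₀, hk2, hc, mul_zpow] at h6
      apply mul_right_cancel₀ hXδ
      rw [zpow_add₀ hζ₂0, zpow_add₀ hζ₂0, zpow_mul, zpow_mul ζ₂ c δ, mul_comm a k, zpow_mul ζ₂ k a]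
      rw [mul_assoc, ← h6, mul_assoc]
    have h7 : ζ₁ ^ (m₁ * c') = ζ₁ ^ (c * t + s * (k - 1)) := by
      rw [zexp hζ₁ hN]
      obtain ⟨u, hu⟩ := h5
      obtain ⟨v, hv⟩ := ht
      refine ⟨t * δ * u - v * δ * c', ?_⟩
      rw [hs]
      linear_combination (-δ * c') * hv + (t * δ) * hu - (m₁ * c' - t * c) * hδ
    rw [map_div₀, h3, map_mul, map_zpow₀, map_zpow₀, h1, hk, h7, mul_zpow, ← zpow_mul, ← zpow_mul]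
    have h8 : ζ₁ ^ (c * t + s * (k - 1)) = ζ₁ ^ (c * t) * ζ₁ ^ (k * s) / ζ₁ ^ s := by
      rw [← zpow_add₀ hζ₁0, ← zpow_sub₀ hζ₁0]
      congr 1
      ring
    rw [h8]
    have h9 : ζ₁ ^ (c * t) ≠ 0 := zpow_ne_zero _ hζ₁0
    have h10 : ζ₁ ^ (k * s) ≠ 0 := zpow_ne_zero _ hζ₁0
    have h11 : ζ₁ ^ s ≠ 0 := zpow_ne_zero _ hζ₁0
    have h12 : b ^ t ≠ 0 := zpow_ne_zero _ hb0
    field_simp
  · have h1 : (ζ₁ ^ s) ^ N = 1 := by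
      rw [← zpow_natCast, ← zpow_mul, mul_comm, zpow_mul, zpow_natCast, hζ₁.pow_eq_one, one_zpow]
    have h2 : (b ^ t) ^ N = (b ^ N) ^ t := by
      rw [← zpow_natCast, ← zpow_natCast, ← zpow_mul, ← zpow_mul, mul_comm]
    rw [div_pow, mul_pow, h1, h2, mul_one, map_pow]
    have h3 : (b ^ N) ^ t ≠ 0 := zpow_ne_zero _ (pow_ne_zero _ hb0)
    field_simp

end

end Vale.Agent.P024.TR
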