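import Vale.Agent.P024.H644.K2

/-!
Inertia groups at alive primes fix the roots of the elements which are units outside `p`.
-/

namespace Vale.Agent.P024.TR

open scoped NumberField
open IsDedekindDomain NumberField

theorem exists_root_near {E : Type*} [Field E] (V : ValuationSubring E) {N : ℕ} (hN : 0 < N)
    {ζ : E} (hζ : IsPrimitiveRoot ζ N) {Y : E} (hY : Y ^ N - 1 ∈ V.nonunits) :
    ∃ z : E, z ^ N = 1 ∧ Y - z ∈ V.nonunits := by
  classical
  have h1 := congrArg (Polynomial.eval Y) (Polynomial.X_pow_sub_one_eq_prod hN hζ)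
  rw [Polynomial.eval_sub, Polynomial.eval_pow, Polynomial.eval_X, Polynomial.eval_one,
    Polynomial.eval_prod] at h1
  by_contra hcon
  push Not at hcon
  have h2 : ∀ z ∈ Polynomial.nthRootsFinset N (1 : E), 1 ≤ V.valuation
      (Polynomial.eval Y (Polynomial.X - Polynomial.C z)) := by
    intro z hz
    rw [Polynomial.mem_nthRootsFinset hN] at hz
    have h3 := hcon z hz
    rw [ValuationSubring.mem_nonunits_iff, not_lt] at h3
    simpa using h3
  rw [h1, ValuationSubring.mem_nonunits_iff, map_prod] at hY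
  exact absurd hY (not_lt.2 (Finset.one_le_prod' h2))

/-- an element of a decomposition group which fixes the `p`-power roots of unity fixes the
`p`-power roots of the units -/
theorem fix_root_of_unit {F E : Type*} [Field F] [Field E] [Algebra F E] [IsGalois F E]
    [CharZero E]
    [Algebra.IsAlgebraic ℚ E] (V : ValuationSubring E) (hV : V ≠ ⊤) {p : ℕ} (hp : p.Prime)
    (hpV : (p : E) ∉ V.nonunits) (hroot : ∀ k, ∃ ζ : E, IsPrimitiveRoot ζ (p ^ k))
    (τ : E ≃ₐ[F] E) (hτ : Stab V τ) (hτζ : ∀ (k : ℕ) (z : E), z ^ (p ^ k) = 1 → τ z = z)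
    (n : ℕ) (X : E) (hX : V.valuation X = 1) (hτX : τ (X ^ (p ^ n)) = X ^ (p ^ n)) : τ X = X := by
  have hX0 : X ≠ 0 := by
    rintro rfl
    rw [map_zero] at hX
    exact zero_ne_one hX
  have hpk : ∀ k : ℕ, ((p ^ k : ℕ) : E) ∉ V.nonunits := by
    intro k h
    rw [ValuationSubring.mem_nonunits_iff, Nat.cast_pow, map_pow] at h
    rw [ValuationSubring.mem_nonunits_iff, not_lt] at hpV
    exact absurd h (not_lt.2 (one_le_pow₀ hpV))
  obtain ⟨M', hM', hXM⟩ := unit_pow_sub_one V hV hX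
  obtain ⟨k, M, hM, rfl⟩ := Nat.exists_eq_pow_mul_and_not_dvd hM'.ne' p hp.ne_one
  obtain ⟨ξ, hξ⟩ := hroot k
  obtain ⟨z, hz, hYz⟩ := exists_root_near V (pow_pos hp.pos k) hξ (Y := X ^ M)
    (by rwa [← pow_mul, mul_comm M])
  have h1 : τ (X ^ M) - z ∈ V.nonunits := by
    have h2 := nonunits_map V τ hτ hYz
    rwa [map_sub, hτζ k z hz] at h2
  have h2 : τ (X ^ M) - X ^ M ∈ V.nonunits := by
    have h3 := sub_mem_nonunits V h1 hYz
    have h4 : τ (X ^ M) - z - (X ^ M - z) = τ (X ^ M) - X ^ M := by ring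
    rwa [h4] at h3
  obtain ⟨ζ, hζ⟩ := hroot n
  obtain ⟨a, ha⟩ := exists_exp (pow_pos hp.pos n) hζ hX0 (b := τ X) (by rw [← map_pow, hτX])
  have h3 : ζ ^ (a * M) - 1 ∈ V.nonunits := by
    rw [map_pow, ha, mul_pow, ← pow_mul] at h2
    have h4 : ζ ^ (a * M) * X ^ M - X ^ M = (ζ ^ (a * M) - 1) * X ^ M := by ring
    rw [h4, ValuationSubring.mem_nonunits_iff, map_mul, map_pow, hX, one_pow, mul_one] at h2
    exact h2
  have h4 := root_eq_one V (p ^ n) (hpk n) (ζ ^ (a * M))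
    (by rw [← pow_mul, mul_comm, pow_mul, hζ.pow_eq_one, one_pow]) h3
  rw [hζ.pow_eq_one_iff_dvd] at h4
  have h5 : (p ^ n).Coprime M := Nat.Coprime.pow_left n ((Nat.Prime.coprime_iff_not_dvd hp).2 hM)
  have h6 : p ^ n ∣ a := h5.dvd_of_dvd_mul_right h4
  rw [ha, (hζ.pow_eq_one_iff_dvd a).2 h6, one_mul]

section

variable {F₁ E₁ F₂ E₂ : Type*} [Field F₁] [NumberField F₁] [Field E₁] [Algebra F₁ E₁]
    [IsGalois F₁ E₁] [Field F₂] [NumberField F₂] [Field E₂] [Algebra F₂ E₂] [IsGalois F₂ E₂]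

/-- inertia at an alive prime acts trivially on the `p`-power roots of unity of the target -/
theorem inertia_fix_root_pow (hE₁ : SolvablyClosed E₁) (hE₂ : SolvablyClosed E₂)
    (α : (E₁ ≃ₐ[F₁] E₁) →* (E₂ ≃ₐ[F₂] E₂)) (hα : Continuous α) {p : ℕ} (hp : p.Prime)
    (hp2 : p ≠ 2) (v : HeightOneSpectrum (𝓞 F₁)) (hv : v ∈ Alive α p) (O : ValuationSubring E₁)
    (hO : O ≠ ⊤) (hOv : IsCenter O v) (t : E₁ ≃ₐ[F₁] E₁) (ht : Stab O t) (ht1 : ActsPow O t 1)
    (k : ℕ) (z : E₂) (hz : z ^ (p ^ k) = 1) : α t z = z := by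
  have : CharZero E₁ := charZero_of_injective_algebraMap (algebraMap F₁ E₁).injective
  have : Algebra.IsAlgebraic ℚ E₁ := Algebra.IsAlgebraic.trans ℚ F₁ E₁
  obtain ⟨s, hs, hs'⟩ := exists_frob O hO v hOv
  have hcard : Nat.card (𝓞 F₁ ⧸ v.asIdeal) = Ideal.absNorm v.asIdeal := by
    rw [Ideal.absNorm_apply]; rfl
  rw [hcard] at hs'
  have h1 := frob_pow_of_alive hE₁ hE₂ α hα hp hp2 O hO v hOv hv s hs hs' k z hz
  have h2 := frob_pow_of_alive hE₁ hE₂ α hα hp hp2 O hO v hOv hv (s * t) (hs.mul ht)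
    (by simpa using ActsPow.mul hs ht hs' ht1) k z hz
  rw [map_mul, AlgEquiv.mul_apply, ← h1] at h2
  exact (α s).injective h2

/-- inertia at an alive prime acts trivially on the roots of the units outside `p` -/
theorem inertia_fix_unit_root (hE₁ : SolvablyClosed E₁) (hE₂ : SolvablyClosed E₂)
    (α : (E₁ ≃ₐ[F₁] E₁) →* (E₂ ≃ₐ[F₂] E₂)) (hα : Continuous α) {p : ℕ} (hp : p.Prime)
    (hp2 : p ≠ 2) (v : HeightOneSpectrum (𝓞 F₁)) (hv : v ∈ Alive α p) (O : ValuationSubring E₁)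
    (hO : O ≠ ⊤) (hOv : IsCenter O v) (t : E₁ ≃ₐ[F₁] E₁) (ht : Stab O t) (ht1 : ActsPow O t 1)
    (n : ℕ) (X : E₂) (hX : ∀ V : ValuationSubring E₂, (p : E₂) ∉ V.nonunits → V.valuation X = 1)
    (htX : α t (X ^ (p ^ n)) = X ^ (p ^ n)) : α t X = X := by
  have : CharZero E₂ := charZero_of_injective_algebraMap (algebraMap F₂ E₂).injective
  have : Algebra.IsAlgebraic ℚ E₂ := Algebra.IsAlgebraic.trans ℚ F₂ E₂
  obtain ⟨V, ⟨hV, hst⟩, -⟩ := existsUnique_ring hE₁ hE₂ α hα hp hp2 O hO v hOv hv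
  have hpV := prime_notMem_of_stab hE₁ hE₂ α hα hp hp2 O hO v hOv hv V hV hst
  exact fix_root_of_unit V hV hp hpV (fun k => hE₂.exists_primitiveRoot _ (pow_pos hp.pos k))
    (α t) (hst t ht) (fun k z hz => inertia_fix_root_pow hE₁ hE₂ α hα hp hp2 v hv O hO hOv t ht ht1
      k z hz) n X (hX V hpV) htX

end

end Vale.Agent.P024.TR
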