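import Vale.Agent.P024.H644.K3

/-!
The valuations outside `p` of the Kummer descent of a unit outside `p`.
-/

namespace Vale.Agent.P024.TR

open scoped NumberField
open IsDedekindDomain NumberField

/-- if the pro-`p` inertia elements fix an `N`-th root of `y`, `N = p ^ n`, then the valuation of
`y` is divisible by `N` -/
theorem dvd_of_inertia_fix {F E : Type*} [Field F] [Field E] [Algebra F E] [IsGalois F E]
    [CharZero E] [Algebra.IsAlgebraic ℚ E] (hroot : ∀ m : ℕ, 0 < m → ∃ z : E, IsPrimitiveRoot z m)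
    (hpow : ∀ m : ℕ, 0 < m → ∀ x : E, ∃ y : E, y ^ m = x) (L : IntermediateField F E) [NumberField L]
    {p : ℕ} (hp : p.Prime) {ζ : E} (hζ : IsPrimitiveRoot ζ p) (hζL : ζ ∈ L)
    (V : HeightOneSpectrum (𝓞 L)) (hV : (p : 𝓞 L) ∉ V.asIdeal) (n : ℕ) (y : L) (hy : y ≠ 0) (b : E)
    (hb : b ^ (p ^ n) = (y : E))
    (h : ∀ O : ValuationSubring E, O ≠ ⊤ → IsCenter O V → ∀ t : E ≃ₐ[F] E, (∀ x ∈ L, t x = x) →
      Stab O t → ActsPow O t 1 → ProP p t → t b = b) :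
    ∃ k : ℤ, V.valuation L y = WithZero.exp (((p ^ n : ℕ) : ℤ) * k) := by
  classical
  have hN : 0 < p ^ n := pow_pos hp.pos n
  obtain ⟨a, ha⟩ : ∃ a : ℤ, V.valuation L y = WithZero.exp a :=
    ⟨WithZero.log (V.valuation L y), (WithZero.exp_log ((V.valuation L).ne_zero_iff.2 hy)).symm⟩
  rcases Nat.eq_zero_or_pos n with rfl | hn
  · exact ⟨a, by rw [ha]; simp⟩
  obtain ⟨O, hO, hOV⟩ := exists_valuationSubring_over (E := E) V
  obtain ⟨π, hπ⟩ := V.valuation_exists_uniformizer L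
  have hπ0 : π ≠ 0 := ne_zero_of_uniformizer hπ
  have hπE0 : (π : E) ≠ 0 := by simpa using hπ0
  obtain ⟨P, hP⟩ := hpow (p ^ n) hN (π : E)
  have hP0 : P ≠ 0 := by
    rintro rfl
    rw [zero_pow hN.ne'] at hP
    exact hπE0 hP.symm
  have hpOk : ∀ k : ℕ, ((p ^ k : ℕ) : E) ∉ O.nonunits := fun k =>
    natCast_pow_notMem_nonunits (F₁ := L) hOV hV k
  -- the inertia element
  have hPp : (P ^ (p ^ (n - 1))) ^ p = (π : E) := by
    rw [← pow_mul, ← pow_succ, Nat.sub_add_cancel hn, hP]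
  obtain ⟨t, htL, ht, ht1, htp, htb⟩ := exists_tame_proP L hp hζ hζL V hV π hπ0
    (not_dvdVal_of_uniformizer hp hπ) (P ^ (p ^ (n - 1))) hPp O hO hOV
  have htb' := h O hO hOV t htL ht ht1 htp
  obtain ⟨ξ, hξ⟩ := hroot (p ^ n) hN
  have htξ : t ξ = ξ := by
    have := acts_on_root O t 1 ht1 (p ^ n) (hpOk n) ξ hξ.pow_eq_one
    rwa [pow_one] at this
  obtain ⟨u, hu⟩ := exists_zexp hξ hN hP0 (x := t P) (by rw [← map_pow, hP, htL _ π.2])
  have hξ0 := hξ.ne_zero hN.ne'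
  have hup : ¬ (p : ℤ) ∣ u := by
    rintro ⟨u', rfl⟩
    apply htb
    have h1 : (ξ ^ ((p : ℤ) * u')) ^ p ^ (n - 1) = 1 := by
      rw [← zpow_natCast, ← zpow_mul]
      have h2 : (p : ℤ) * u' * ((p ^ (n - 1) : ℕ) : ℤ) = ((p ^ n : ℕ) : ℤ) * u' := by
        have h3 : (p : ℤ) ^ n = p ^ (n - 1) * p := by rw [← pow_succ, Nat.sub_add_cancel hn]
        push_cast
        rw [h3]
        ring
      rw [h2, zpow_mul, zpow_natCast, hξ.pow_eq_one, one_zpow]
    rw [map_pow, hu, mul_pow, h1, one_mul]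
  -- the unit part
  have hy1 : V.valuation L (y * π ^ a) = 1 := by
    rw [map_mul, map_zpow₀, ha, hπ, ← WithZero.exp_zsmul, ← WithZero.exp_add]
    simp
  have hmem := mem_iff_of_center O hO V hOV (y * π ^ a)
  have hval : O.valuation (algebraMap L E (y * π ^ a)) = 1 :=
    val_eq_one_of_notMem O (hmem.1.2 hy1.le) (fun hcon => by
      have := hmem.2.1 hcon
      rw [hy1] at this
      exact lt_irrefl _ this)
  set γ : E := b * P ^ a with hγ
  have hγN : γ ^ (p ^ n) = algebraMap L E (y * π ^ a) := by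
    rw [hγ, mul_pow, hb, map_mul, map_zpow₀]
    congr 1
    rw [← zpow_natCast, ← zpow_mul, mul_comm a, zpow_mul, zpow_natCast, hP]
    rfl
  have hγ1 : O.valuation γ = 1 := by
    have h1 : O.valuation γ ^ (p ^ n) = 1 := by rw [← map_pow, hγN, hval]
    exact (pow_eq_one_iff_of_nonneg zero_le hN.ne').1 h1
  have hγ0 : γ ≠ 0 := by
    rintro h0
    rw [h0, map_zero] at hγ1
    exact zero_ne_one hγ1
  have htγ : t γ = γ := by
    obtain ⟨e, he⟩ := exists_zexp hξ hN hγ0 (x := t γ) (by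
      rw [← map_pow, hγN]
      exact htL _ (y * π ^ a).2)
    have h1 : (ξ ^ e) - 1 ∈ O.nonunits := by
      have h2 := ht1 γ (mem_of_val_eq_one O hγ1)
      rw [pow_one, he] at h2
      have h3 : ξ ^ e * γ - γ = (ξ ^ e - 1) * γ := by ring
      rw [h3, ValuationSubring.mem_nonunits_iff, map_mul, hγ1, mul_one] at h2
      exact h2
    have h4 := root_eq_one O (p ^ n) (hpOk n) (ξ ^ e) (by
      rw [← zpow_natCast, ← zpow_mul, mul_comm, zpow_mul, zpow_natCast, hξ.pow_eq_one,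
        one_zpow]) h1
    rw [he, h4, one_mul]
  have h5 : ξ ^ (u * a) = 1 := by
    rw [hγ, map_mul, htb', map_zpow₀, hu, mul_zpow, ← zpow_mul] at htγ
    have hb0 : b ≠ 0 := by
      rintro rfl
      apply hγ0
      rw [hγ, zero_mul]
    have hPa : P ^ a ≠ 0 := zpow_ne_zero _ hP0
    have h6 : b * (ξ ^ (u * a) * P ^ a) = b * P ^ a := htγ
    have h7 := mul_left_cancel₀ hb0 h6
    exact mul_right_cancel₀ hPa (by rw [h7, one_mul])
  rw [hξ.zpow_eq_one_iff_dvd] at h5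
  have h6 : IsCoprime (((p ^ n : ℕ) : ℤ)) u := by
    rw [Nat.cast_pow]
    exact IsCoprime.pow_left ((Prime.coprime_iff_not_dvd (Nat.prime_iff_prime_int.1 hp)).2 hup)
  obtain ⟨k, hk⟩ := h6.dvd_of_dvd_mul_left h5
  exact ⟨k, by rw [ha, hk]⟩

section

variable {F₁ E₁ F₂ E₂ : Type*} [Field F₁] [NumberField F₁] [Field E₁] [Algebra F₁ E₁]
    [IsGalois F₁ E₁] [Field F₂] [NumberField F₂] [Field E₂] [Algebra F₂ E₂] [IsGalois F₂ E₂]

theorem dvd_outside (hE₁ : SolvablyClosed E₁) (hE₂ : SolvablyClosed E₂)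
    (α : (E₁ ≃ₐ[F₁] E₁) →* (E₂ ≃ₐ[F₂] E₂)) (hα : Continuous α) {p : ℕ} (hp : p.Prime)
    (hp2 : p ≠ 2) (n : ℕ) (H : Subgroup (E₁ ≃ₐ[F₁] E₁)) (L : IntermediateField F₁ E₁)
    [NumberField L] (hLH : ∀ g : E₁ ≃ₐ[F₁] E₁, (∀ x ∈ L, g x = x) → g ∈ H)
    {ζ : E₁} (hζ : IsPrimitiveRoot ζ p) (hζL : ζ ∈ L) {ζ₁ : E₁} {ζ₂ : E₂} (X : E₂)
    (hX : ∀ V : ValuationSubring E₂, (p : E₂) ∉ V.nonunits → V.valuation X = 1)
    (hHX : ∀ g ∈ H, α g (X ^ (p ^ n)) = X ^ (p ^ n)) (b : E₁) (hb : Desc α H ζ₁ ζ₂ X b)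
    (y : L) (hy : b ^ (p ^ n) = (y : E₁)) (V : HeightOneSpectrum (𝓞 L))
    (hV : (p : 𝓞 L) ∉ V.asIdeal) :
    ∃ k : ℤ, V.valuation L y = WithZero.exp (((p ^ n : ℕ) : ℤ) * k) := by
  have : CharZero E₁ := charZero_of_injective_algebraMap (algebraMap F₁ E₁).injective
  have : Algebra.IsAlgebraic ℚ E₁ := Algebra.IsAlgebraic.trans ℚ F₁ E₁
  have hy0 : y ≠ 0 := by
    rintro rfl
    have h1 : b ^ (p ^ n) = 0 := by rw [hy]; rfl
    exact hb.1 (pow_eq_zero_iff (pow_pos hp.pos n).ne' |>.1 h1)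
  refine dvd_of_inertia_fix (fun m hm => hE₁.exists_primitiveRoot m hm)
    (fun m hm => hE₁.exists_root m hm) L hp hζ hζL V hV n y hy0 b hy ?_
  intro O hO hOV t htL ht ht1 htp
  have htH := hLH t htL
  have key : α t X = X := by
    by_cases hαt : α t = 1
    · rw [hαt, AlgEquiv.one_apply]
    obtain ⟨v, hv⟩ := exists_center (K := F₁) O hO
    have hpv : (p : 𝓞 F₁) ∉ v.asIdeal := by
      intro h
      apply hV
      have h1 := (hv _).1 h
      rw [hOV]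
      simpa using h1
    have hvA : v ∈ Alive α p := ⟨hpv, O, hO, hv, t, ht, ht1, htp, hαt⟩
    exact inertia_fix_unit_root hE₁ hE₂ α hα hp hp2 v hvA O hO hv t ht ht1 n X hX
      (hHX t htH)
  have := hb.2 t htH 0 (by rw [key, zpow_zero, one_mul])
  rwa [zpow_zero, one_mul] at this

end

end Vale.Agent.P024.TR
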