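import Vale.Agent.P024.H644.K4
import Vale.Agent.P024.H903.Unit
import Vale.Agent.P024.H903.Inv
import Vale.Agent.P024.H539.Cls

/-!
Odd eigenvectors with divisible valuations are powers, up to a bounded exponent.
-/

namespace Vale.Agent.P024.TR

open scoped NumberField
open IsDedekindDomain NumberField
open Vale.Agent.P024.H903 (om om_cons om_nil om_ne_zero om_div om_unit)

section

variable {F L : Type*} [Field F] [Field L] [Algebra F L]

theorem om_mul (cs : List (L ≃ₐ[F] L)) (x y : L) : om cs (x * y) = om cs x * om cs y := by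
  induction cs with
  | nil => rfl
  | cons c cs ih =>
    rw [om_cons, om_cons, om_cons, ih, map_mul]
    exact mul_div_mul_comm _ _ _ _

theorem om_one (cs : List (L ≃ₐ[F] L)) : om cs (1 : L) = 1 := by
  induction cs with
  | nil => rfl
  | cons c cs ih => rw [om_cons, ih, map_one, div_one]

theorem om_pow (cs : List (L ≃ₐ[F] L)) (x : L) (n : ℕ) : om cs (x ^ n) = om cs x ^ n := by
  induction n with
  | zero => rw [pow_zero, pow_zero, om_one]
  | succ n ih => rw [pow_succ, pow_succ, om_mul, ih]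

theorem om_odd (cs : List (L ≃ₐ[F] L)) {N : ℕ} {y : L} (hy : y ≠ 0)
    (h : ∀ c ∈ cs, ∃ z : L, z ≠ 0 ∧ c y = y⁻¹ * z ^ N) :
    ∃ Z : L, Z ≠ 0 ∧ om cs y = y ^ (2 ^ cs.length) * Z ^ N := by
  induction cs with
  | nil => exact ⟨1, one_ne_zero, by simp [om_nil]⟩
  | cons c cs ih =>
    obtain ⟨Z, hZ, hZ'⟩ := ih fun c hc => h c (List.mem_cons_of_mem _ hc)
    obtain ⟨z, hz, hz'⟩ := h c List.mem_cons_self
    have hcZ : c Z ≠ 0 := (map_ne_zero c).2 hZ
    refine ⟨Z / (z ^ (2 ^ cs.length) * c Z), div_ne_zero hZ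
      (mul_ne_zero (pow_ne_zero _ hz) hcZ), ?_⟩
    rw [om_cons, hZ', map_mul, map_pow, map_pow, hz', List.length_cons, pow_succ, div_pow, mul_pow,
      mul_pow]
    have h1 : (y⁻¹ : L) ^ (2 ^ cs.length) ≠ 0 := pow_ne_zero _ (inv_ne_zero hy)
    have h2 : (z ^ N) ^ (2 ^ cs.length) = (z ^ (2 ^ cs.length)) ^ N := by
      rw [← pow_mul, ← pow_mul, mul_comm]
    rw [h2]
    have h3 : (z ^ (2 ^ cs.length)) ^ N ≠ 0 := pow_ne_zero _ (pow_ne_zero _ hz)
    have h4 : c Z ^ N ≠ 0 := pow_ne_zero _ hcZ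
    have h5 : y ^ (2 ^ cs.length) ≠ 0 := pow_ne_zero _ hy
    rw [inv_pow, mul_two, pow_add]
    field_simp

end

theorem exists_pow_eq {F L : Type*} [Field F] [Field L] [NumberField L] [Algebra F L]
    (hab : ∀ a b : L ≃ₐ[F] L, a * b = b * a) (cs : List (L ≃ₐ[F] L))
    (hcs : ∀ φ : L →+* ℂ, ∃ c ∈ cs, ∀ x, φ (c x) = (starRingEnd ℂ) (φ x)) :
    ∃ M : ℕ, 0 < M ∧ ∀ (N : ℕ) (y : L), y ≠ 0 →
      (∀ c ∈ cs, ∃ z : L, z ≠ 0 ∧ c y = y⁻¹ * z ^ N) →
      (∀ v : HeightOneSpectrum (𝓞 L), ∃ k : ℤ, v.valuation L y = WithZero.exp ((N : ℤ) * k)) →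
      ∃ z : L, z ≠ 0 ∧ y ^ M = z ^ N := by
  obtain ⟨W, hW, hu⟩ := om_unit hab cs hcs
  obtain ⟨h, hh, hcls⟩ := H539.cls (L := L)
  refine ⟨2 ^ cs.length * (h * W), by positivity, ?_⟩
  intro N y hy hodd hval
  obtain ⟨u, z, hz, huz⟩ := hcls N y hy hval
  obtain ⟨Z, hZ, hom⟩ := om_odd cs hy hodd
  have h1 : om cs y ^ (h * W) = (om cs z ^ W) ^ N := by
    have h2 := congrArg (fun t => om cs t ^ W) huz
    simp only [om_mul, om_pow] at h2
    rw [mul_pow, hu u, one_mul] at h2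
    rw [pow_mul, h2, ← pow_mul, ← pow_mul, mul_comm]
  have hz' : om cs z ≠ 0 := om_ne_zero cs hz
  refine ⟨om cs z ^ W / Z ^ (h * W), div_ne_zero (pow_ne_zero _ hz') (pow_ne_zero _ hZ), ?_⟩
  rw [div_pow, ← h1, hom, mul_pow, pow_mul, ← pow_mul Z, ← pow_mul Z, mul_comm N]
  have h3 : Z ^ (h * W * N) ≠ 0 := pow_ne_zero _ hZ
  field_simp

end Vale.Agent.P024.TR
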