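import Vale.Agent.P024.H644.K5

/-!
Complex conjugations.
-/

namespace Vale.Agent.P024.TR

open scoped NumberField
open IsDedekindDomain NumberField

/-- an involution which inverts the roots of unity -/
def CC {F E : Type*} [Field F] [Field E] [Algebra F E] (g : E ≃ₐ[F] E) : Prop :=
  (∀ x, g (g x) = x) ∧ ∀ m : ℕ, 0 < m → ∀ z : E, z ^ m = 1 → g z = z⁻¹

theorem exists_cc {F E : Type*} [Field F] [NumberField F] [IsTotallyReal F] [Field E]
    [Algebra F E] [IsGalois F E] (L : IntermediateField F E) [Normal F L] (φ : L →+* ℂ) :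
    ∃ g : E ≃ₐ[F] E, CC g ∧ ∀ x : L, φ (g.restrictNormal L x) = (starRingEnd ℂ) (φ x) := by
  let _ : Algebra L ℂ := φ.toAlgebra
  have halg : Algebra.IsAlgebraic L E := Algebra.IsAlgebraic.tower_top (K := F) L
  let Φ : E →ₐ[L] ℂ := IsAlgClosed.lift
  have hΦ : ∀ x : L, Φ (x : E) = φ x := fun x => Φ.commutes x
  let _ : Algebra E ℂ := Φ.toRingHom.toAlgebra
  let _ : Algebra F ℂ := (Φ.toRingHom.comp (algebraMap F E)).toAlgebra
  have : IsScalarTower F E ℂ := IsScalarTower.of_algebraMap_eq' rfl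
  have hreal : ∀ r : F, (starRingEnd ℂ) (Φ (algebraMap F E r)) = Φ (algebraMap F E r) := by
    intro r
    have h1 := InfinitePlace.isReal_mk_iff.1
      (IsTotallyReal.isReal (InfinitePlace.mk (Φ.toRingHom.comp (algebraMap F E))))
    exact RingHom.congr_fun (ComplexEmbedding.isReal_iff.1 h1) r
  let ψ : E →ₐ[F] ℂ :=
    { toRingHom := (starRingEnd ℂ).comp Φ.toRingHom
      commutes' := fun r => hreal r }
  obtain ⟨g, hg⟩ := (Normal.algHomEquivAut F ℂ E).symm.surjective ψ
  have hg' : ∀ x : E, Φ (g x) = (starRingEnd ℂ) (Φ x) := fun x => DFunLike.congr_fun hg x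
  refine ⟨g, ⟨?_, ?_⟩, ?_⟩
  · intro x
    apply Φ.toRingHom.injective
    show Φ (g (g x)) = Φ x
    rw [hg', hg', Complex.conj_conj]
  · intro m hm z hz
    apply Φ.toRingHom.injective
    show Φ (g z) = Φ z⁻¹
    have h1 : (Φ z) ^ m = 1 := by rw [← map_pow, hz, map_one]
    rw [hg', map_inv₀]
    have h2 : ‖Φ z‖ = 1 := Complex.norm_eq_one_of_pow_eq_one h1 hm.ne'
    exact (Complex.inv_eq_conj h2).symm
  · intro x
    rw [← hΦ, ← hΦ]
    have h1 : ((g.restrictNormal L x : L) : E) = g (x : E) := AlgEquiv.restrictNormal_commutes g L x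
    rw [h1, hg']

/-- The element `w / (1 - w)`, where `w (1 - w) = p`. -/
structure PX {E : Type*} [Field E] (p : ℕ) (w x : E) : Prop where
  mul : w * (1 - w) = p
  div : x = w / (1 - w)

theorem exists_px {E : Type*} [Field E] [CharZero E] (hsq : ∀ x : E, ∃ y : E, y ^ 2 = x) (p : ℕ) :
    ∃ w x : E, PX p w x := by
  obtain ⟨u, hu⟩ := hsq (1 - 4 * p)
  refine ⟨(1 + u) / 2, _, ?_, rfl⟩
  have h2 : (2 : E) ≠ 0 := two_ne_zero
  field_simp
  linear_combination -hu

namespace PX

variable {E : Type*} [Field E] [CharZero E] {p : ℕ} {w x : E}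

theorem ne (h : PX p w x) (hp : p ≠ 0) : w ≠ 0 ∧ 1 - w ≠ 0 := by
  have h0 : w * (1 - w) ≠ 0 := by rw [h.mul]; exact Nat.cast_ne_zero.2 hp
  exact ⟨left_ne_zero_of_mul h0, right_ne_zero_of_mul h0⟩

theorem x_ne (h : PX p w x) (hp : p ≠ 0) : x ≠ 0 := by
  rw [h.div]
  exact div_ne_zero (h.ne hp).1 (h.ne hp).2

theorem cases (h : PX p w x) (g : E ≃+* E) : g w = w ∨ g w = 1 - w := by
  have h1 : g w * (1 - g w) = p := by
    rw [← map_one g, ← map_sub, ← map_mul, h.mul, map_natCast]
  have h2 : (g w - w) * (g w - (1 - w)) = 0 := by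
    linear_combination h.mul - h1
  rcases mul_eq_zero.1 h2 with h3 | h3
  · exact Or.inl (sub_eq_zero.1 h3)
  · exact Or.inr (sub_eq_zero.1 h3)

theorem map_of_fix (h : PX p w x) {g : E ≃+* E} (hg : g w = w) : g x = x := by
  rw [h.div, map_div₀, map_sub, map_one, hg]

theorem map_of_swap (h : PX p w x) {g : E ≃+* E} (hg : g w = 1 - w) : g x = x⁻¹ := by
  rw [h.div, map_div₀, map_sub, map_one, hg, inv_div]
  congr 1
  ring

/-- an involution moves `w` -/
theorem swap_of_inv (h : PX p w x) (hp : p ≠ 0) (hsq : ∀ x : E, ∃ y : E, y ^ 2 = x) (g : E ≃+* E)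
    (hg : ∀ x, g (g x) = x) (hg1 : ∃ x, g x ≠ x) : g w = 1 - w := by
  have h1 := (H903.inv_roots hsq g hg hg1).2 (4 * p - 1) (2 * w - 1) (by omega) (by
    have h4 : 1 ≤ 4 * p := by omega
    push_cast [Nat.cast_sub h4]
    linear_combination -4 * h.mul)
  rw [map_sub, map_mul, map_one, map_ofNat] at h1
  have h2 : (2 : E) ≠ 0 := two_ne_zero
  have h3 : 2 * g w = 2 * (1 - w) := by linear_combination h1
  exact mul_left_cancel₀ h2 h3

/-- the element is a unit outside `p` -/
theorem unit (h : PX p w x) (V : ValuationSubring E) (hV : (p : E) ∉ V.nonunits) :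
    V.valuation x = 1 := by
  have hwV : w ∈ V := by
    rcases V.mem_or_inv_mem w with h1 | h1
    · exact h1
    by_contra hcon
    -- `w⁻¹` is a nonunit
    have hw0 : w ≠ 0 := fun h0 => hcon (h0 ▸ V.zero_mem)
    have h2 : V.valuation w⁻¹ < 1 := by
      rw [map_inv₀]
      apply inv_lt_one_of_one_lt₀
      rw [← not_le, V.valuation_le_one_iff]
      exact hcon
    have h3 : w⁻¹ * (1 - p * w⁻¹) = 1 - (1 : E) + w⁻¹ * (1 - p * w⁻¹) := by ring
    have h4 : (1 : E) = w⁻¹ * (1 - p * w⁻¹) := by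
      field_simp
      linear_combination -h.mul
    have h5 : V.valuation (1 - p * w⁻¹) ≤ 1 := by
      rw [V.valuation_le_one_iff]
      exact sub_mem V.one_mem (mul_mem (natCast_mem V p) h1)
    have h6 : V.valuation (1 : E) < 1 := by
      rw [h4, map_mul]
      exact mul_lt_one_of_lt_of_le h2 h5
    rw [map_one] at h6
    exact lt_irrefl _ h6
  have hwV' : 1 - w ∈ V := sub_mem V.one_mem hwV
  have h1 : V.valuation w ≤ 1 := (V.valuation_le_one_iff _).2 hwV
  have h2 : V.valuation (1 - w) ≤ 1 := (V.valuation_le_one_iff _).2 hwV'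
  have h3 : V.valuation w * V.valuation (1 - w) = 1 := by
    rw [← map_mul, h.mul]
    exact val_eq_one_of_notMem V (natCast_mem V p) hV
  have h4 : V.valuation w = 1 := by
    refine le_antisymm h1 (not_lt.1 fun hcon => ?_)
    have := mul_lt_one_of_lt_of_le hcon h2
    rw [h3] at this
    exact lt_irrefl _ this
  have h5 : V.valuation (1 - w) = 1 := by rwa [h4, one_mul] at h3
  rw [h.div, map_div₀, h4, h5, div_one]

/-- the element is not a unit above `p` -/
theorem not_unit (h : PX p w x) (V : ValuationSubring E) (hV : (p : E) ∈ V.nonunits) :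
    V.valuation x ≠ 1 := by
  intro hx
  have hp0 : w ≠ 0 ∨ w = 0 := (em (w = 0)).symm
  have h1 : V.valuation w * V.valuation (1 - w) < 1 := by
    rw [← map_mul, h.mul]
    exact hV
  have h2 : V.valuation w = V.valuation (1 - w) := by
    rw [h.div, map_div₀] at hx
    have h3 : V.valuation (1 - w) ≠ 0 := by
      intro h0
      rw [h0, div_zero] at hx
      exact zero_ne_one hx
    exact (div_eq_one_iff_eq h3).1 hx
  rw [← h2] at h1
  have h3 : V.valuation w < 1 := by
    by_contra hcon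
    rw [not_lt] at hcon
    exact absurd h1 (not_lt.2 (one_le_mul_of_one_le_of_one_le hcon hcon))
  have h4 : V.valuation (w + (1 - w)) < 1 := V.valuation.map_add_lt h3 (h2 ▸ h3)
  rw [add_sub_cancel, map_one] at h4
  exact lt_irrefl _ h4

end PX

end Vale.Agent.P024.TR
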