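import Vale.Agent.P024.H644.K6

/-!
The subgroup on which everything is fixed.
-/

namespace Vale.Agent.P024.TR

open scoped NumberField
open IsDedekindDomain NumberField

section

variable {F₁ E₁ F₂ E₂ : Type*} [Field F₁] [Field E₁] [Algebra F₁ E₁]
    [Field F₂] [Field E₂] [Algebra F₂ E₂]

/-- the subgroup of the `g` with `η(g) = 1` modulo `p` such that `g` fixes `ζ` and `α g` fixes
`w` -/
noncomputable def HH (α : (E₁ ≃ₐ[F₁] E₁) →* (E₂ ≃ₐ[F₂] E₂)) (p : ℕ) [Fact p.Prime] (w : E₂)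
    (ζ : E₁) : Subgroup (E₁ ≃ₐ[F₁] E₁) :=
  ((redu 1).comp (eta α p)).ker ⊓ ((MulAction.stabilizer (E₂ ≃ₐ[F₂] E₂) w).comap α ⊓
    MulAction.stabilizer (E₁ ≃ₐ[F₁] E₁) ζ)

variable {α : (E₁ ≃ₐ[F₁] E₁) →* (E₂ ≃ₐ[F₂] E₂)} {p : ℕ} [hpf : Fact p.Prime] {w x : E₂} {ζ : E₁}

theorem mem_HH {g : E₁ ≃ₐ[F₁] E₁} :
    g ∈ HH α p w ζ ↔ redu 1 (eta α p g) = 1 ∧ α g w = w ∧ g ζ = ζ := Iff.rfl

theorem comm_HH [CharZero E₂] (hPX : PX p w x) (hζ : IsPrimitiveRoot ζ p) (a b : E₁ ≃ₐ[F₁] E₁) :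
    a * b * (b * a)⁻¹ ∈ HH α p w ζ := by
  rw [mem_HH]
  refine ⟨?_, ?_, ?_⟩
  · have h0 : eta α p (a * b * (b * a)⁻¹) = 1 := by
      rw [map_mul (eta α p), map_inv (eta α p), map_mul (eta α p) a, map_mul (eta α p) b,
        mul_comm (eta α p b), mul_inv_cancel]
    rw [h0, map_one]
  · have key : ∀ g h : E₂ ≃ₐ[F₂] E₂, g (h w) = h (g w) := by
      intro g h
      have e1 : ∀ g : E₂ ≃ₐ[F₂] E₂, g w = w ∨ g w = 1 - w := fun g => hPX.cases (g : E₂ ≃+* E₂)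
      rcases e1 g with hg | hg <;> rcases e1 h with hh | hh <;>
        simp only [hg, hh, map_sub, map_one]
    have h1 : α (a * b) = α (a * b * (b * a)⁻¹) * α (b * a) := by
      rw [← map_mul, inv_mul_cancel_right]
    have h2 : α (a * b) w = α (b * a) w := by
      rw [map_mul, map_mul, AlgEquiv.mul_apply, AlgEquiv.mul_apply, key]
    have h3 : ∀ g : E₂ ≃ₐ[F₂] E₂, g w = w ∨ g w = 1 - w := fun g => hPX.cases (g : E₂ ≃+* E₂)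
    rw [h1, AlgEquiv.mul_apply] at h2
    rcases h3 (α (b * a)) with h4 | h4
    · rwa [h4] at h2
    · rw [h4, map_sub, map_one] at h2
      exact sub_right_injective h2
  · have hpos := hpf.out.pos
    obtain ⟨k, hk⟩ := exists_exp_root a hpos hζ
    obtain ⟨j, hj⟩ := exists_exp_root b hpos hζ
    have h2 : (a * b) ζ = (b * a) ζ := by
      rw [AlgEquiv.mul_apply, AlgEquiv.mul_apply, hj, map_pow, hk, map_pow, hj, ← pow_mul,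
        ← pow_mul, mul_comm]
    obtain ⟨i, hi⟩ := exists_exp_root (b * a)⁻¹ hpos hζ
    have h3 : (b * a) (((b * a)⁻¹ : E₁ ≃ₐ[F₁] E₁) ζ) = ζ := by
      rw [← AlgEquiv.mul_apply, mul_inv_cancel, AlgEquiv.one_apply]
    rw [AlgEquiv.mul_apply, hi, map_pow, h2, ← map_pow, ← hi, h3]

theorem normal_HH [CharZero E₂] (hPX : PX p w x) (hζ : IsPrimitiveRoot ζ p) :
    (HH α p w ζ).Normal := by
  constructor
  intro h hh g
  have h1 := comm_HH (α := α) hPX hζ g h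
  have h2 : g * h * g⁻¹ = g * h * (h * g)⁻¹ * h := by group
  rw [h2]
  exact (HH α p w ζ).mul_mem h1 hh

end

section

variable {F₁ E₁ F₂ E₂ : Type*} [Field F₁] [NumberField F₁] [Field E₁] [Algebra F₁ E₁]
    [IsGalois F₁ E₁] [Field F₂] [NumberField F₂] [Field E₂] [Algebra F₂ E₂] [IsGalois F₂ E₂]

theorem isOpen_HH (hE₁ : SolvablyClosed E₁) (hE₂ : SolvablyClosed E₂)
    (α : (E₁ ≃ₐ[F₁] E₁) →* (E₂ ≃ₐ[F₂] E₂)) (hα : Continuous α) (p : ℕ) [hpf : Fact p.Prime] (w : E₂)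
    (ζ : E₁) : IsOpen ((HH α p w ζ : Subgroup (E₁ ≃ₐ[F₁] E₁)) : Set (E₁ ≃ₐ[F₁] E₁)) := by
  have h1 : IsOpen ((MulAction.stabilizer (E₂ ≃ₐ[F₂] E₂) w : Subgroup (E₂ ≃ₐ[F₂] E₂)) :
    Set (E₂ ≃ₐ[F₂] E₂)) := stabilizer_isOpen_of_isIntegral (K := F₂) (L := E₂) w
  have h2 : IsOpen ((MulAction.stabilizer (E₁ ≃ₐ[F₁] E₁) ζ : Subgroup (E₁ ≃ₐ[F₁] E₁)) :
    Set (E₁ ≃ₐ[F₁] E₁)) := stabilizer_isOpen_of_isIntegral (K := F₁) (L := E₁) ζ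
  exact (isOpen_ker_eta hE₁ hE₂ α hα (l := p) 1).inter ((h1.preimage hα).inter h2)

/-- on `HH` the two cyclotomic characters agree -/
theorem cyc_of_HH (hE₁ : SolvablyClosed E₁) (hE₂ : SolvablyClosed E₂)
    {α : (E₁ ≃ₐ[F₁] E₁) →* (E₂ ≃ₐ[F₂] E₂)} {p : ℕ} [hpf : Fact p.Prime] (hp2 : p ≠ 2)
    {w : E₂} {ζ : E₁} (m : ℕ) (hm : 0 < m) (hfin : ∀ g, eta α p g ^ m = 1) (n : ℕ) {ζ₁ : E₁}
    (hζ₁ : IsPrimitiveRoot ζ₁ (p ^ n)) {ζ₂ : E₂} (hζ₂ : IsPrimitiveRoot ζ₂ (p ^ n))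
    (g : E₁ ≃ₐ[F₁] E₁) (hg : g ∈ HH α p w ζ) (k : ℤ) (hk : g ζ₁ = ζ₁ ^ k) :
    α g ζ₂ = ζ₂ ^ k := by
  have : CharZero E₁ := charZero_of_injective_algebraMap (algebraMap F₁ E₁).injective
  have : CharZero E₂ := charZero_of_injective_algebraMap (algebraMap F₂ E₂).injective
  have hpos : ∀ i : ℕ, 0 < p ^ i := fun i => pow_pos hpf.out.pos i
  have hroot₁ : ∀ i, ∃ ζ : E₁, IsPrimitiveRoot ζ (p ^ i) :=
    fun i => hE₁.exists_primitiveRoot _ (hpos i)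
  have hroot₂ : ∀ i, ∃ ζ : E₂, IsPrimitiveRoot ζ (p ^ i) :=
    fun i => hE₂.exists_primitiveRoot _ (hpos i)
  have h1 : eta α p g = 1 := eq_one_of_pow_eq_one hp2 (mem_HH.1 hg).1 hm (hfin g)
  have h2 := (compatAt_iff α hroot₁ hroot₂ g).2 h1
  have hN : (0 : ℤ) < ((p ^ n : ℕ) : ℤ) := by exact_mod_cast hpos n
  set k' : ℕ := (k % ((p ^ n : ℕ) : ℤ)).toNat with hk'
  have hk'' : (k' : ℤ) = k % ((p ^ n : ℕ) : ℤ) := Int.toNat_of_nonneg (Int.emod_nonneg _ hN.ne')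
  have h3 : ((p ^ n : ℕ) : ℤ) ∣ k - k' := by
    rw [hk'']
    exact Int.dvd_self_sub_emod
  have h4 : ∀ z : E₁, z ^ (p ^ n) = 1 → g z = z ^ k' := by
    intro z hz
    have : NeZero (p ^ n) := ⟨(hpos n).ne'⟩
    obtain ⟨i, -, rfl⟩ := hζ₁.eq_pow_of_pow_eq_one hz
    have h5 : ζ₁ ^ k = ζ₁ ^ (k' : ℤ) := (zexp hζ₁ (hpos n) _ _).2 h3
    rw [map_pow, hk, h5, zpow_natCast, pow_right_comm]
  rw [h2 n k' h4 ζ₂ hζ₂.pow_eq_one, ← zpow_natCast]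
  exact ((zexp hζ₂ (hpos n) _ _).2 h3).symm

end

end Vale.Agent.P024.TR
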