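import Vale.Agent.P024.H644.K7

/-!
The local consequence: over `p` there is a prime at which the two cyclotomic characters agree up to
sign.
-/

namespace Vale.Agent.P024.TR

open scoped NumberField
open IsDedekindDomain NumberField

section

variable {F₁ E₁ F₂ E₂ : Type*} [Field F₁] [Field E₁] [Algebra F₁ E₁]
    [Field F₂] [Field E₂] [Algebra F₂ E₂]

theorem Desc.back {α : (E₁ ≃ₐ[F₁] E₁) →* (E₂ ≃ₐ[F₂] E₂)}
    {H : Subgroup (E₁ ≃ₐ[F₁] E₁)} {N : ℕ} (hN : 0 < N)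
    {ζ₁ : E₁} (hζ₁ : IsPrimitiveRoot ζ₁ N) {ζ₂ : E₂} (hζ₂ : IsPrimitiveRoot ζ₂ N)
    (hcyc : ∀ g ∈ H, ∀ k : ℤ, g ζ₁ = ζ₁ ^ k → α g ζ₂ = ζ₂ ^ k)
    {X : E₂} (hX : X ≠ 0) (hHX : ∀ g ∈ H, α g (X ^ N) = X ^ N) {b : E₁}
    (hb : Desc α H ζ₁ ζ₂ X b) (M : ℕ) {z : E₁} (hz0 : z ≠ 0) (hz : ∀ h ∈ H, h z = z)
    (h : (b ^ N) ^ M = z ^ N) :
    ∃ X' : E₂, (∀ g ∈ H, α g X' = X') ∧ X' ^ N = (X ^ N) ^ M := by
  have hζ₁0 := hζ₁.ne_zero hN.ne'
  have hζ₂0 := hζ₂.ne_zero hN.ne'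
  obtain ⟨e, he⟩ := exists_zexp hζ₁ hN hz0 (x := b ^ M) (by
    rw [← h, ← pow_mul, ← pow_mul, mul_comm])
  refine ⟨X ^ M * ζ₂ ^ (-e), ?_, ?_⟩
  · intro g hg
    obtain ⟨k, hk⟩ := exists_zexp hζ₁ hN one_ne_zero (x := g ζ₁)
      (by rw [← map_pow, hζ₁.pow_eq_one, map_one, one_pow])
    rw [mul_one] at hk
    have hk2 := hcyc g hg k hk
    obtain ⟨c, hc⟩ := exists_zexp hζ₂ hN hX (x := α g X) (by rw [← map_pow, hHX g hg])
    have h1 := hb.2 g hg c hc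
    have h2 : ζ₁ ^ (c * M + e) = ζ₁ ^ (k * e) := by
      have h3 : g (b ^ M) = ζ₁ ^ (c * M) * (ζ₁ ^ e * z) := by
        rw [← he, map_pow, h1, mul_pow, zpow_mul, zpow_natCast]
      rw [he, map_mul, map_zpow₀, hk, hz g hg, ← mul_assoc] at h3
      have h4 := mul_right_cancel₀ hz0 h3
      rw [zpow_add₀ hζ₁0, zpow_mul ζ₁ k e, h4]
    have h5 : ζ₂ ^ (c * M + e) = ζ₂ ^ (k * e) := (zexp_tr hζ₁ hζ₂ hN _ _).1 h2
    have h6 : (ζ₂ ^ c) ^ M * (ζ₂ ^ k) ^ (-e) = ζ₂ ^ (-e) := by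
      rw [← zpow_natCast, ← zpow_mul, ← zpow_mul, mul_neg, zpow_neg, zpow_neg, ← h5,
        zpow_add₀ hζ₂0, mul_inv, ← mul_assoc, mul_inv_cancel₀ (zpow_ne_zero _ hζ₂0), one_mul]
    rw [map_mul, map_pow, map_zpow₀, hc, hk2, mul_pow]
    calc (ζ₂ ^ c) ^ M * X ^ M * (ζ₂ ^ k) ^ (-e) = X ^ M * ((ζ₂ ^ c) ^ M * (ζ₂ ^ k) ^ (-e)) := by ring
      _ = X ^ M * ζ₂ ^ (-e) := by rw [h6]
  · have h1 : (ζ₂ ^ (-e)) ^ N = 1 := by
      rw [← zpow_natCast, ← zpow_mul, mul_comm, zpow_mul, zpow_natCast, hζ₂.pow_eq_one, one_zpow]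
    rw [mul_pow, h1, mul_one, ← pow_mul, ← pow_mul, mul_comm]

end

section

variable {F₁ E₁ F₂ E₂ : Type*} [Field F₁] [NumberField F₁] [Field E₁] [Algebra F₁ E₁]
    [IsGalois F₁ E₁] [Field F₂] [NumberField F₂] [Field E₂] [Algebra F₂ E₂] [IsGalois F₂ E₂]

theorem exists_local [IsTotallyReal F₁] (hE₁ : SolvablyClosed E₁) (hE₂ : SolvablyClosed E₂)
    (α : (E₁ ≃ₐ[F₁] E₁) →* (E₂ ≃ₐ[F₂] E₂)) (hα : Continuous α) (hopen : IsOpen (Set.range α))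
    {p : ℕ} [hpf : Fact p.Prime] (hp2 : p ≠ 2) (m : ℕ) (hm : 0 < m)
    (hfin : ∀ g, eta α p g ^ m = 1) :
    ∃ O : ValuationSubring E₁, O ≠ ⊤ ∧ (p : E₁) ∈ O.nonunits ∧ ∀ g : E₁ ≃ₐ[F₁] E₁, Stab O g →
      ∀ a b : ℕ, (∀ z : E₁, z ^ p = 1 → g z = z ^ a) → (∀ z : E₂, z ^ p = 1 → α g z = z ^ b) →
        b ^ 2 ≡ a ^ 2 [MOD p] := by
  classical
  have hp : p.Prime := hpf.out
  have : CharZero E₁ := charZero_of_injective_algebraMap (algebraMap F₁ E₁).injective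
  have : CharZero E₂ := charZero_of_injective_algebraMap (algebraMap F₂ E₂).injective
  have : Algebra.IsAlgebraic ℚ E₁ := Algebra.IsAlgebraic.trans ℚ F₁ E₁
  have : Algebra.IsAlgebraic ℚ E₂ := Algebra.IsAlgebraic.trans ℚ F₂ E₂
  obtain ⟨w, x, hPX⟩ := exists_px (E := E₂) (hE₂.exists_root 2 (by norm_num)) p
  have hx0 : x ≠ 0 := hPX.x_ne hp.ne_zero
  obtain ⟨ζ, hζ⟩ := hE₁.exists_primitiveRoot p hp.pos
  set H : Subgroup (E₁ ≃ₐ[F₁] E₁) := HH α p w ζ with hH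
  have hHo : IsOpen (H : Set (E₁ ≃ₐ[F₁] E₁)) := isOpen_HH hE₁ hE₂ α hα p w ζ
  have hHn : H.Normal := normal_HH hPX hζ
  obtain ⟨hfd, hfix⟩ := finiteDimensional_fixedField H hHo
  set L := IntermediateField.fixedField H with hL
  have hNF : NumberField L := NumberField.of_module_finite F₁ L
  have hLH : ∀ g : E₁ ≃ₐ[F₁] E₁, (∀ x ∈ L, g x = x) → g ∈ H := by
    intro g hg
    rw [← hfix, IntermediateField.mem_fixingSubgroup_iff]
    exact hg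
  have hHL : ∀ g ∈ H, ∀ x ∈ L, g x = x := fun g hg x hx =>
    (IntermediateField.mem_fixedField_iff H x).1 hx g hg
  have hmemL : ∀ x : E₁, (∀ g ∈ H, g x = x) → x ∈ L := fun x hx =>
    (IntermediateField.mem_fixedField_iff H x).2 hx
  have hgal : IsGalois F₁ L := (InfiniteGalois.normal_iff_isGalois L).1 (by rw [hfix]; exact hHn)
  have hnorm : Normal F₁ L := inferInstance
  have hζL : ζ ∈ L := hmemL ζ fun g hg => (mem_HH.1 hg).2.2
  -- the Galois group of `L` is commutative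
  have hab : ∀ a b : L ≃ₐ[F₁] L, a * b = b * a := by
    intro a b
    obtain ⟨a', rfl⟩ := AlgEquiv.restrictNormalHom_surjective (F := F₁) (K₁ := L) (E := E₁) a
    obtain ⟨b', rfl⟩ := AlgEquiv.restrictNormalHom_surjective (F := F₁) (K₁ := L) (E := E₁) b
    rw [← map_mul, ← map_mul]
    have h1 : a' * b' = a' * b' * (b' * a')⁻¹ * (b' * a') := by group
    rw [h1, map_mul]
    have h2 : AlgEquiv.restrictNormalHom L (a' * b' * (b' * a')⁻¹) = 1 := by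
      show AlgEquiv.restrictNormal (a' * b' * (b' * a')⁻¹) L = 1
      rw [AlgEquiv.restrictNormal_eq_one_iff]
      exact hHL _ (comm_HH hPX hζ a' b')
    rw [h2, one_mul]
  -- the complex conjugations
  let cs : List (L ≃ₐ[F₁] L) := (Finset.univ.filter
    (fun c : L ≃ₐ[F₁] L => ∃ g : E₁ ≃ₐ[F₁] E₁, CC g ∧ c = g.restrictNormal L)).toList
  have hcs' : ∀ c : L ≃ₐ[F₁] L, c ∈ cs ↔ ∃ g : E₁ ≃ₐ[F₁] E₁, CC g ∧ c = g.restrictNormal L := by
    intro c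
    rw [Finset.mem_toList, Finset.mem_filter]
    simp
  have hcs : ∀ φ : L →+* ℂ, ∃ c ∈ cs, ∀ x, φ (c x) = (starRingEnd ℂ) (φ x) := by
    intro φ
    obtain ⟨g, hg, hgφ⟩ := exists_cc (F := F₁) (E := E₁) L φ
    exact ⟨g.restrictNormal L, (hcs' _).2 ⟨g, hg, rfl⟩, hgφ⟩
  obtain ⟨M, hM, hpowM⟩ := exists_pow_eq hab cs hcs
  -- the target side
  have hH2 : IsOpen ((H.map α : Subgroup (E₂ ≃ₐ[F₂] E₂)) : Set (E₂ ≃ₐ[F₂] E₂)) :=
    isOpen_map_of_isOpen_range α hα hopen H hHo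
  obtain ⟨hfd2, -⟩ := finiteDimensional_fixedField (H.map α) hH2
  set M₂ := IntermediateField.fixedField (H.map α) with hM₂
  have hNF2 : NumberField M₂ := NumberField.of_module_finite F₂ M₂
  have hmemM : ∀ x : E₂, (∀ g ∈ H, α g x = x) → x ∈ M₂ := by
    intro x hx
    rw [hM₂, IntermediateField.mem_fixedField_iff]
    rintro _ ⟨g, hg, rfl⟩
    exact hx g hg
  have hαx : ∀ g ∈ H, α g x = x := fun g hg =>
    hPX.map_of_fix (g := ((α g : E₂ ≃ₐ[F₂] E₂) : E₂ ≃+* E₂)) (mem_HH.1 hg).2.1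
  have hxM : x ∈ M₂ := hmemM x hαx
  obtain ⟨P₂, hP₂⟩ := exists_prime_above M₂ hp
  obtain ⟨O₂, hO₂, hO₂P⟩ := exists_valuationSubring_over (E := E₂) P₂
  have hpO₂ : (p : E₂) ∈ O₂.nonunits := by
    have := (hO₂P _).1 hP₂
    simpa using this
  have hxO₂ := hPX.not_unit O₂ hpO₂
  have hxP : P₂.valuation M₂ ⟨x, hxM⟩ ≠ 1 := by
    intro h
    apply hxO₂
    have h1 := mem_iff_of_center O₂ hO₂ P₂ hO₂P ⟨x, hxM⟩
    exact val_eq_one_of_notMem O₂ (h1.1.2 h.le) (fun hcon => by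
      have := h1.2.1 hcon
      rw [h] at this
      exact lt_irrefl _ this)
  obtain ⟨a₂, ha₂⟩ : ∃ a : ℤ, P₂.valuation M₂ ⟨x, hxM⟩ = WithZero.exp a :=
    ⟨WithZero.log (P₂.valuation M₂ ⟨x, hxM⟩), (WithZero.exp_log
      ((P₂.valuation M₂).ne_zero_iff.2 (fun h => hx0 (congrArg Subtype.val h)))).symm⟩
  have ha₂0 : a₂ ≠ 0 := by
    rintro rfl
    exact hxP (by rw [ha₂]; rfl)
  -- the level
  set n : ℕ := M * a₂.natAbs + 1 with hn
  have hNpos : 0 < p ^ n := pow_pos hp.pos n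
  obtain ⟨X, hX⟩ := hE₂.exists_root (p ^ n) hNpos x
  have hX0 : X ≠ 0 := by
    rintro rfl
    rw [zero_pow hNpos.ne'] at hX
    exact hx0 hX.symm
  obtain ⟨ζ₁, hζ₁⟩ := hE₁.exists_primitiveRoot (p ^ n) hNpos
  obtain ⟨ζ₂, hζ₂⟩ := hE₂.exists_primitiveRoot (p ^ n) hNpos
  have hcyc : ∀ g ∈ H, ∀ k : ℤ, g ζ₁ = ζ₁ ^ k → α g ζ₂ = ζ₂ ^ k := fun g hg k hk =>
    cyc_of_HH hE₁ hE₂ hp2 m hm hfin n hζ₁ hζ₂ g hg k hk
  have hHX : ∀ g ∈ H, α g (X ^ (p ^ n)) = X ^ (p ^ n) := by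
    intro g hg
    rw [hX]
    exact hαx g hg
  have hXu : ∀ V : ValuationSubring E₂, (p : E₂) ∉ V.nonunits → V.valuation X = 1 := by
    intro V hV
    have h1 : V.valuation X ^ (p ^ n) = 1 := by rw [← map_pow, hX, hPX.unit V hV]
    exact (pow_eq_one_iff_of_nonneg zero_le hNpos.ne').1 h1
  obtain ⟨b, hb⟩ := exists_desc α hα H hHo hNpos hζ₁ hζ₂ hcyc X hX0 hHX
  have hbL : b ^ (p ^ n) ∈ L := by
    apply hmemL
    intro g hg
    obtain ⟨c, hc⟩ := exists_zexp hζ₂ hNpos hX0 (x := α g X) (by rw [← map_pow, hHX g hg])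
    rw [map_pow, hb.2 g hg c hc, mul_pow, ← zpow_natCast (ζ₁ ^ c), ← zpow_mul, mul_comm c,
      zpow_mul, zpow_natCast, hζ₁.pow_eq_one, one_zpow, one_mul]
  set y : L := ⟨b ^ (p ^ n), hbL⟩ with hy
  have hyE : b ^ (p ^ n) = (y : E₁) := rfl
  have hy0 : y ≠ 0 := fun h => pow_ne_zero _ hb.1 (congrArg Subtype.val h)
  -- the relation
  have hrel : ∀ (g : E₁ ≃ₐ[F₁] E₁) (δ : ℤ), δ * δ = 1 → α g x = x ^ δ → ∀ m₁ m₂ t : ℤ,
      g ζ₁ = ζ₁ ^ m₁ → α g ζ₂ = ζ₂ ^ m₂ → ((p ^ n : ℕ) : ℤ) ∣ t * m₂ - m₁ * δ →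
      ∃ z : L, z ≠ 0 ∧ g.restrictNormal L y = y ^ t * z ^ (p ^ n) := by
    intro g δ hδ hgx m₁ m₂ t hm₁ hm₂ ht
    obtain ⟨z, hz0, hzH, hz⟩ := hb.eigen hNpos hζ₁ hζ₂ hcyc hX0 hHX g (by
      intro h hh
      have := hHn.conj_mem h hh g⁻¹
      rwa [inv_inv] at this) δ hδ (by rw [hX, hgx]) m₁ m₂ t hm₁ hm₂ ht
    refine ⟨⟨z, hmemL z hzH⟩, fun h => hz0 (congrArg Subtype.val h), ?_⟩
    apply Subtype.ext
    have h1 : ((g.restrictNormal L y : L) : E₁) = g (y : E₁) := AlgEquiv.restrictNormal_commutes g L y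
    rw [h1]
    push_cast
    exact hz
  -- the complex conjugations act by `-1`
  have hodd : ∀ c ∈ cs, ∃ z : L, z ≠ 0 ∧ c y = y⁻¹ * z ^ (p ^ n) := by
    intro c hc
    obtain ⟨g, hg, rfl⟩ := (hcs' c).1 hc
    have hg1 : g ζ₁ = ζ₁ ^ (-1 : ℤ) := by
      rw [zpow_neg_one]
      exact hg.2 _ hNpos _ hζ₁.pow_eq_one
    have hαinv : ∀ x, α g (α g x) = x := by
      intro x
      have h1 : g * g = 1 := AlgEquiv.ext fun x => hg.1 x
      rw [← AlgEquiv.mul_apply, ← map_mul, h1, map_one, AlgEquiv.one_apply]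
    by_cases hαg : ∃ x, α g x ≠ x
    · have h1 : α g w = 1 - w := hPX.swap_of_inv hp.ne_zero (hE₂.exists_root 2 (by norm_num))
        ((α g : E₂ ≃ₐ[F₂] E₂) : E₂ ≃+* E₂) hαinv hαg
      have h2 : α g x = x⁻¹ :=
        hPX.map_of_swap (g := ((α g : E₂ ≃ₐ[F₂] E₂) : E₂ ≃+* E₂)) h1
      have hodd' : Odd (p ^ n) := (hp.odd_of_ne_two hp2).pow
      have h3 : α g ζ₂ = ζ₂⁻¹ := (H903.inv_roots (hE₂.exists_root 2 (by norm_num))
        ((α g : E₂ ≃ₐ[F₂] E₂) : E₂ ≃+* E₂) hαinv hαg).1 (p ^ n) hodd' ζ₂ hζ₂.pow_eq_one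
      obtain ⟨z, hz0, hz⟩ := hrel g (-1) (by norm_num) (by rw [h2, zpow_neg_one]) (-1) (-1) (-1)
        hg1 (by rw [h3, zpow_neg_one]) (by norm_num)
      exact ⟨z, hz0, by rw [hz, zpow_neg_one]⟩
    · push Not at hαg
      obtain ⟨z, hz0, hz⟩ := hrel g 1 (by norm_num) (by rw [hαg, zpow_one]) (-1) 1 (-1)
        hg1 (by rw [hαg, zpow_one]) (by norm_num)
      exact ⟨z, hz0, by rw [hz, zpow_neg_one]⟩
  by_cases hall : ∀ v : HeightOneSpectrum (𝓞 L), ∃ k : ℤ,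
      v.valuation L y = WithZero.exp (((p ^ n : ℕ) : ℤ) * k)
  · exfalso
    obtain ⟨z, hz0, hz⟩ := hpowM (p ^ n) y hy0 hodd hall
    obtain ⟨X', hX', hX'N⟩ := hb.back hNpos hζ₁ hζ₂ hcyc hX0 hHX M (z := (z : E₁))
      (fun h => hz0 (Subtype.ext h)) (fun h hh => hHL h hh _ z.2) (by
        have := congrArg Subtype.val hz
        push_cast at this
        exact this)
    have hX'M := hmemM X' hX'
    rw [hX] at hX'N
    have h1 : (⟨X', hX'M⟩ : M₂) ^ (p ^ n) = (⟨x, hxM⟩ : M₂) ^ M := Subtype.ext (by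
      push_cast
      exact hX'N)
    have hX'0 : (⟨X', hX'M⟩ : M₂) ≠ 0 := by
      intro h
      rw [h, zero_pow hNpos.ne'] at h1
      exact hx0 (congrArg Subtype.val (pow_eq_zero_iff hM.ne' |>.1 h1.symm))
    obtain ⟨c, hc⟩ : ∃ c : ℤ, P₂.valuation M₂ ⟨X', hX'M⟩ = WithZero.exp c :=
      ⟨WithZero.log (P₂.valuation M₂ ⟨X', hX'M⟩), (WithZero.exp_log
        ((P₂.valuation M₂).ne_zero_iff.2 hX'0)).symm⟩
    have h2 := congrArg (P₂.valuation M₂) h1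
    rw [map_pow, map_pow, hc, ha₂, ← WithZero.exp_nsmul, ← WithZero.exp_nsmul,
      WithZero.exp_inj, nsmul_eq_mul, nsmul_eq_mul] at h2
    have h3 : ((p ^ n : ℕ) : ℤ) ∣ M * a₂ := ⟨c, h2.symm⟩
    have h4 : p ^ n ∣ M * a₂.natAbs := by
      have := Int.natAbs_dvd_natAbs.2 h3
      rwa [Int.natAbs_natCast, Int.natAbs_mul, Int.natAbs_natCast] at this
    have h5 : 0 < M * a₂.natAbs := Nat.mul_pos hM (Int.natAbs_pos.2 ha₂0)
    have h6 := Nat.le_of_dvd h5 h4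
    have h7 : n < p ^ n := Nat.lt_pow_self hp.one_lt
    omega
  · push Not at hall
    obtain ⟨V, hV⟩ := hall
    have hpV : (p : 𝓞 L) ∈ V.asIdeal := by
      by_contra hcon
      obtain ⟨k, hk⟩ := dvd_outside hE₁ hE₂ α hα hp hp2 n H L hLH hζ hζL X hXu hHX b hb y hyE V hcon
      exact hV k hk
    obtain ⟨O, hO, hOV⟩ := exists_valuationSubring_over (E := E₁) V
    refine ⟨O, hO, ?_, ?_⟩
    · have := (hOV _).1 hpV
      simpa using this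
    intro g hg a c hga hgc
    obtain ⟨m₁, hm₁⟩ := exists_exp_root g hNpos hζ₁
    obtain ⟨m₂, hm₂⟩ := exists_exp_root (α g) hNpos hζ₂
    -- the sign
    obtain ⟨δ, hδ, hgx⟩ : ∃ δ : ℤ, δ * δ = 1 ∧ α g x = x ^ δ := by
      rcases hPX.cases ((α g : E₂ ≃ₐ[F₂] E₂) : E₂ ≃+* E₂) with h | h
      · exact ⟨1, by norm_num, by
          rw [zpow_one]
          exact hPX.map_of_fix (g := ((α g : E₂ ≃ₐ[F₂] E₂) : E₂ ≃+* E₂)) h⟩
      · exact ⟨-1, by norm_num, by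
          rw [zpow_neg_one]
          exact hPX.map_of_swap (g := ((α g : E₂ ≃ₐ[F₂] E₂) : E₂ ≃+* E₂)) h⟩
    -- the exponent
    have hm₂c : IsCoprime (m₂ : ℤ) ((p ^ n : ℕ) : ℤ) := by
      have h1 : IsPrimitiveRoot (ζ₂ ^ m₂) (p ^ n) := by
        rw [← hm₂]
        exact hζ₂.map_of_injective (α g).injective
      exact Nat.isCoprime_iff_coprime.2 ((hζ₂.pow_iff_coprime hNpos m₂).1 h1)
    obtain ⟨u, v, huv⟩ := hm₂c
    have ht : ((p ^ n : ℕ) : ℤ) ∣ (m₁ * δ * u) * m₂ - m₁ * δ := ⟨-(m₁ * δ * v), by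
      linear_combination (m₁ * δ) * huv⟩
    obtain ⟨z, hz0, hz⟩ := hrel g δ hδ hgx m₁ m₂ (m₁ * δ * u) (by rw [hm₁, zpow_natCast])
      (by rw [hm₂, zpow_natCast]) ht
    set t : ℤ := m₁ * δ * u with htdef
    -- valuations
    obtain ⟨k, hk⟩ : ∃ k : ℤ, V.valuation L y = WithZero.exp k :=
      ⟨WithZero.log (V.valuation L y), (WithZero.exp_log ((V.valuation L).ne_zero_iff.2 hy0)).symm⟩
    obtain ⟨j, hj⟩ : ∃ j : ℤ, V.valuation L z = WithZero.exp j :=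
      ⟨WithZero.log (V.valuation L z), (WithZero.exp_log ((V.valuation L).ne_zero_iff.2 hz0)).symm⟩
    have hgy : V.valuation L (g.restrictNormal L y) = V.valuation L y := by
      have hgy0 : g.restrictNormal L y ≠ 0 := (map_ne_zero _).2 hy0
      have h1 : V.valuation L (g.restrictNormal L y / y) = 1 := by
        have h2 : O.valuation (algebraMap L E₁ (g.restrictNormal L y / y)) = 1 := by
          have h3 : algebraMap L E₁ (g.restrictNormal L y) = g (y : E₁) :=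
            AlgEquiv.restrictNormal_commutes g L y
          rw [map_div₀, h3, map_div₀, valuation_map_eq O g hg]
          exact div_self ((O.valuation.ne_zero_iff).2 (fun h => hy0 (Subtype.ext h)))
        have h4 := mem_iff_of_center O hO V hOV (g.restrictNormal L y / y)
        refine le_antisymm (h4.1.1 (mem_of_val_eq_one O h2)) (not_lt.1 fun hcon => ?_)
        have h5 := h4.2.2 hcon
        rw [ValuationSubring.mem_nonunits_iff, h2] at h5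
        exact lt_irrefl _ h5
      rw [map_div₀] at h1
      exact (div_eq_one_iff_eq ((V.valuation L).ne_zero_iff.2 hy0)).1 h1
    have hval : k = t * k + ((p ^ n : ℕ) : ℤ) * j := by
      have h1 := hgy
      rw [hz, map_mul, map_zpow₀, map_pow, hk, hj, ← WithZero.exp_zsmul, ← WithZero.exp_nsmul,
        ← WithZero.exp_add, WithZero.exp_inj] at h1
      simp only [smul_eq_mul, nsmul_eq_mul] at h1
      exact h1.symm
    have htp : (p : ℤ) ∣ t - 1 := by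
      by_contra hcon
      have h1 : IsCoprime (((p ^ n : ℕ) : ℤ)) (t - 1) := by
        rw [Nat.cast_pow]
        exact IsCoprime.pow_left ((Prime.coprime_iff_not_dvd (Nat.prime_iff_prime_int.1 hp)).2 hcon)
      have h2 : ((p ^ n : ℕ) : ℤ) ∣ (t - 1) * k := ⟨-j, by linear_combination -hval⟩
      obtain ⟨k', hk'⟩ := h1.dvd_of_dvd_mul_left h2
      exact hV k' (by rw [hk, hk'])
    have hpn : (p : ℤ) ∣ ((p ^ n : ℕ) : ℤ) := by
      rw [hn]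
      push_cast
      exact dvd_pow_self _ (Nat.succ_ne_zero _)
    have h1 : (p : ℤ) ∣ m₂ - m₁ * δ := by
      have h2 := hpn.trans ht
      have h3 : (p : ℤ) ∣ (t - 1) * m₂ := Dvd.dvd.mul_right htp _
      have h4 : (m₂ : ℤ) - m₁ * δ = (t * m₂ - m₁ * δ) - (t - 1) * m₂ := by ring
      rw [h4]
      exact dvd_sub h2 h3
    have h2 : (p : ℤ) ∣ (m₂ : ℤ) ^ 2 - (m₁ : ℤ) ^ 2 := by
      have h3 : (m₂ : ℤ) ^ 2 - (m₁ : ℤ) ^ 2 = (m₂ - m₁ * δ) * (m₂ + m₁ * δ) := by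
        linear_combination (m₁ : ℤ) ^ 2 * hδ
      rw [h3]
      exact Dvd.dvd.mul_right h1 _
    -- back to the `p`-th roots of unity
    have hn1 : p ^ n = p ^ (n - 1) * p := by rw [← pow_succ, hn]; rfl
    have hξ₁ : IsPrimitiveRoot (ζ₁ ^ (p ^ (n - 1))) p := hζ₁.pow hNpos hn1
    have hξ₂ : IsPrimitiveRoot (ζ₂ ^ (p ^ (n - 1))) p := hζ₂.pow hNpos hn1
    have h3 : a ≡ m₁ [MOD p] := by
      rw [← rootPow_eq_iff_modEq hξ₁ _ _ hp.pos, ← hga _ hξ₁.pow_eq_one, map_pow, hm₁, pow_right_comm]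
    have h4 : c ≡ m₂ [MOD p] := by
      rw [← rootPow_eq_iff_modEq hξ₂ _ _ hp.pos, ← hgc _ hξ₂.pow_eq_one, map_pow, hm₂, pow_right_comm]
    have h5 : m₂ ^ 2 ≡ m₁ ^ 2 [MOD p] := by
      rw [Nat.modEq_iff_dvd]
      push_cast
      have h6 := (dvd_neg).2 h2
      rwa [neg_sub] at h6
    exact ((h4.pow 2).trans h5).trans (h3.pow 2).symm

end

end Vale.Agent.P024.TR
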