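import Vale.Agent.P024.H644.K8

/-!
The main theorem, for characters of finite order.
-/

namespace Vale.Agent.P024.TR

open scoped NumberField ENNReal Topology
open IsDedekindDomain NumberField Filter

section

variable {F₁ E₁ F₂ E₂ : Type*} [Field F₁] [NumberField F₁] [Field E₁] [Algebra F₁ E₁]
    [IsGalois F₁ E₁] [Field F₂] [NumberField F₂] [Field E₂] [Algebra F₂ E₂] [IsGalois F₂ E₂]

theorem alive_of_local (hE₁ : SolvablyClosed E₁)
    (α : (E₁ ≃ₐ[F₁] E₁) →* (E₂ ≃ₐ[F₂] E₂)) {l : ℕ} (hl : l.Prime) (hl2 : l ≠ 2) :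
    ∃ S : Set (HeightOneSpectrum (𝓞 F₁)), S.Finite ∧ ∀ v ∉ S, ∀ p : ℕ, p.Prime →
      (p : 𝓞 F₁) ∈ v.asIdeal → l ∣ p - 1 → ∀ O : ValuationSubring E₁, O ≠ ⊤ → IsCenter O v →
      (∀ g : E₁ ≃ₐ[F₁] E₁, Stab O g → ∀ a b : ℕ, (∀ z : E₁, z ^ p = 1 → g z = z ^ a) →
        (∀ z : E₂, z ^ p = 1 → α g z = z ^ b) → b ^ 2 ≡ a ^ 2 [MOD p]) → v ∈ Alive α l := by
  classical
  have : CharZero E₁ := charZero_of_injective_algebraMap (algebraMap F₁ E₁).injective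
  have : Algebra.IsAlgebraic ℚ E₁ := Algebra.IsAlgebraic.trans ℚ F₁ E₁
  obtain ⟨ζ, hζ⟩ := hE₁.exists_primitiveRoot l hl.pos
  let H : Subgroup (E₁ ≃ₐ[F₁] E₁) := MulAction.stabilizer (E₁ ≃ₐ[F₁] E₁) ζ
  have hH : IsOpen (H : Set (E₁ ≃ₐ[F₁] E₁)) :=
    stabilizer_isOpen_of_isIntegral (K := F₁) (L := E₁) ζ
  obtain ⟨hfd, hfix⟩ := finiteDimensional_fixedField H hH
  set K := IntermediateField.fixedField H with hK
  have hNF : NumberField K := NumberField.of_module_finite F₁ K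
  have hζK : ζ ∈ K := by
    rw [hK, IntermediateField.mem_fixedField_iff]
    intro g hg
    exact hg
  refine ⟨(pullPrime (algebraMap F₁ K)) '' {w : HeightOneSpectrum (𝓞 K) | ∃ p : ℕ, p.Prime ∧
    (p : 𝓞 K) ∈ w.asIdeal ∧ w.valuation K (p : K) ≠ WithZero.exp (-1 : ℤ)},
    (finite_ramified K).image _, ?_⟩
  intro v hvS p hp hpv hlp O hO hOv hloc
  have hvl : (l : 𝓞 F₁) ∉ v.asIdeal := by
    intro h
    have h1 := prime_mem_unique v hl hp h hpv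
    rw [h1] at hlp
    have h2 := Nat.le_of_dvd (by have := hp.two_le; omega) hlp
    have := hp.two_le
    omega
  obtain ⟨w, hw⟩ := exists_center (K := K) O hO
  have hpull : pullPrime (algebraMap F₁ K) w = v := pullPrime_center hOv hw
  have hpw : (p : 𝓞 K) ∈ w.asIdeal := by
    have h1 : (p : 𝓞 F₁) ∈ (pullPrime (algebraMap F₁ K) w).asIdeal := by
      rw [hpull]; exact hpv
    rwa [mem_pullPrime, map_natCast] at h1
  have hwp : w.valuation K (p : K) = WithZero.exp (-1 : ℤ) := by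
    by_contra hne
    exact hvS ⟨w, ⟨p, hp, hpw, hne⟩, hpull⟩
  obtain ⟨ξ, hξ⟩ := hE₁.exists_primitiveRoot p hp.pos
  obtain ⟨θ, x, hθ0, hθ, hx, hfixθ⟩ := exists_cyclotomic_kummer K hl hp hlp hζ hζK hξ w hwp
  have hwl : (l : 𝓞 K) ∉ w.asIdeal := by
    intro h
    apply hvl
    rw [hOv]
    have h1 := (hw _).1 h
    simpa using h1
  have hx0 : x ≠ 0 := by
    rintro rfl
    have : θ ^ l = 0 := by rw [hθ]; rfl
    exact hθ0 (pow_eq_zero_iff hl.ne_zero |>.1 this)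
  obtain ⟨t, htK, ht, ht1, htp, htθ⟩ := exists_tame_proP K hl hζ hζK w hwl x hx0 hx θ hθ O hO hw
  refine ⟨hvl, O, hO, hOv, t, ht, ht1, htp, ?_⟩
  intro hαt
  apply htθ
  refine hfixθ t htK ?_
  -- `t` fixes `ξ`
  obtain ⟨a, ha⟩ := exists_exp_root t hp.pos hξ
  have : NeZero p := ⟨hp.ne_zero⟩
  have ha' : ∀ z : E₁, z ^ p = 1 → t z = z ^ a := by
    intro z hz
    obtain ⟨i, -, rfl⟩ := hξ.eq_pow_of_pow_eq_one hz
    rw [map_pow, ha, pow_right_comm]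
  have h1 := hloc t ht a 1 ha' (fun z _ => by rw [hαt, AlgEquiv.one_apply, pow_one])
  rw [one_pow] at h1
  have h2 : (t ^ 2) ξ = ξ := by
    rw [pow_two, AlgEquiv.mul_apply, ha, map_pow, ha, ← pow_mul, ← pow_two]
    conv_rhs => rw [← pow_one ξ]
    exact (rootPow_eq_iff_modEq hξ _ _ hp.pos).2 h1.symm
  obtain ⟨k, hk⟩ := htp ξ
  let S := MulAction.stabilizer (E₁ ≃ₐ[F₁] E₁) ξ
  have h3 : t ^ 2 ∈ S := h2
  have h4 : t ^ (l ^ k) ∈ S := hk
  have h5 : Nat.gcd 2 (l ^ k) = 1 :=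
    Nat.Coprime.pow_right k ((Nat.coprime_primes Nat.prime_two hl).2 hl2.symm)
  have h6 : t ^ (Nat.gcd 2 (l ^ k)) ∈ S := by
    rw [← zpow_natCast, Nat.gcd_eq_gcd_ab, zpow_add, zpow_mul, zpow_mul, zpow_natCast,
      zpow_natCast]
    exact S.mul_mem (S.zpow_mem h3 _) (S.zpow_mem h4 _)
  rw [h5, pow_one] at h6
  exact h6

/-- If `F₁` is totally real and the quotient of the cyclotomic characters has finite order for
almost all primes, then `α` is induced. -/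
theorem induced_of_eta [IsTotallyReal F₁] (hE₁ : SolvablyClosed E₁) (hE₂ : SolvablyClosed E₂)
    (α : (E₁ ≃ₐ[F₁] E₁) →* (E₂ ≃ₐ[F₂] E₂)) (hα : Continuous α) (hopen : IsOpen (Set.range α))
    (B : Set ℕ)
    (hB : Tendsto (fun s : ℝ => (∑' p : {p : ℕ | p.Prime ∧ p ∈ B}, ((p : ℕ) : ℝ) ^ (-s)) /
      Real.log (1 / (s - 1))) (𝓝[>] 1) (𝓝 0))
    (hfin : ∀ (p : ℕ) [Fact p.Prime], p ≠ 2 → p ∉ B →
      ∃ m : ℕ, 0 < m ∧ ∀ g, eta α p g ^ m = 1) :
    ∃ j : E₂ →+* E₁, ∀ (g : E₁ ≃ₐ[F₁] E₁) (x : E₂), g (j x) = j ((α g) x) := by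
  classical
  have : CharZero E₁ := charZero_of_injective_algebraMap (algebraMap F₁ E₁).injective
  have : Algebra.IsAlgebraic ℚ E₁ := Algebra.IsAlgebraic.trans ℚ F₁ E₁
  have : Algebra.IsAlgebraic ℚ (AlgebraicClosure F₁) := Algebra.IsAlgebraic.trans ℚ F₁ _
  have : Normal ℚ (AlgebraicClosure F₁) := normal_iff.2 fun x =>
    ⟨(Algebra.IsAlgebraic.isAlgebraic x).isIntegral, IsAlgClosed.splits _⟩
  let Z := IntermediateField.normalClosure ℚ F₁ (AlgebraicClosure F₁)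
  have hfd : FiniteDimensional ℚ Z := inferInstance
  have hZ : NumberField Z := ⟨⟩
  have hN : Normal ℚ Z := normalClosure.normal ℚ F₁ (AlgebraicClosure F₁)
  have hZ' : IsGalois ℚ Z := ⟨⟩
  have hZ0 : (0 : ℝ) < Module.finrank ℚ Z := by
    rw [Nat.cast_pos]
    exact Module.finrank_pos
  have hB' := tendsto_insert B 2 hB
  refine induced_of_aliveOne hE₁ hE₂ α hα hopen _ (meetsSplit_compl hB')
    (δ := 1 / (2 * Module.finrank ℚ Z) / Module.finrank ℚ Z) (by positivity) ?_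
  intro l hl hlQ
  have hl2 : l ≠ 2 := fun h => hlQ (Or.inl h)
  obtain ⟨S, hS, hS'⟩ := alive_of_local hE₁ α hl hl2
  have hR : {r : ℕ | ∃ v ∈ S, r.Prime ∧ (r : 𝓞 F₁) ∈ v.asIdeal}.Finite := by
    refine (hS.image resChar).subset ?_
    rintro r ⟨v, hv, hr, hrv⟩
    exact ⟨v, hv, prime_mem_unique v (resChar_spec v).1 hr (resChar_spec v).2.1 hrv⟩
  refine aliveOne_dens_of_above α B hB _ hR hl ?_ Z (algebraMap F₁ Z)
  intro r hr hrR hrB hlr
  have hr2 : r ≠ 2 := by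
    rintro rfl
    have := Nat.le_of_dvd (by norm_num) hlr
    have := hl.two_le
    omega
  have hrf : Fact r.Prime := ⟨hr⟩
  obtain ⟨m, hm, hm'⟩ := hfin r hr2 hrB
  obtain ⟨O, hO, hrO, hloc⟩ := exists_local hE₁ hE₂ α hα hopen hr2 m hm hm'
  obtain ⟨v, hv⟩ := exists_center (K := F₁) O hO
  have hrv : (r : 𝓞 F₁) ∈ v.asIdeal := by
    rw [hv]
    simpa using hrO
  exact ⟨v, hS' v (fun hvS => hrR ⟨v, hvS, hr, hrv⟩) r hr hrv hlr O hO hv hloc, hrv⟩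

end

end Vale.Agent.P024.TR
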