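import Vale.Agent.P024.H644.K4

/-!
The commutator character.
-/

namespace Vale.Agent.P024.T3

open scoped NumberField
open IsDedekindDomain NumberField
open Vale.Agent.P024.TR

section

variable {F Ω : Type*} [Field F] [Field Ω] [Algebra F Ω]

/-- The data of a commutator character: `ζ` is a primitive `N`-th root of unity, `y` is an `N`-th
root of `u`, the groups `W ≤ H` and the element `S`. -/
structure Dat (H W : Subgroup (Ω ≃ₐ[F] Ω)) (S : Ω ≃ₐ[F] Ω) (N : ℕ) (ζ u y : Ω) : Prop where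
  hN : 0 < N
  hζ : IsPrimitiveRoot ζ N
  hWH : W ≤ H
  hHW : ∀ h ∈ H, ∀ w ∈ W, h * w * h⁻¹ ∈ W
  hSW : ∀ w ∈ W, S * w * S⁻¹ ∈ W
  hSW' : ∀ w ∈ W, S⁻¹ * w * S ∈ W
  hcomm : ∀ h ∈ H, h * S * h⁻¹ * S⁻¹ ∈ W
  hSζ : S ζ = ζ
  hWζ : ∀ w ∈ W, w ζ = ζ
  hu : u ≠ 0
  huW : ∀ w ∈ W, w u = u
  hy : y ^ N = u
  tw : ∀ h ∈ H, ∀ k : ℕ, h ζ = ζ ^ k → ∃ z : Ω, z ≠ 0 ∧ (∀ w ∈ W, w z = z) ∧ h u = u ^ k * z ^ N
  anti : ∃ z : Ω, z ≠ 0 ∧ (∀ w ∈ W, w z = z) ∧ S u = u⁻¹ * z ^ N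

variable {H W : Subgroup (Ω ≃ₐ[F] Ω)} {S : Ω ≃ₐ[F] Ω} {N : ℕ} {ζ u y : Ω}

theorem Dat.y_ne (D : Dat H W S N ζ u y) : y ≠ 0 := by
  rintro rfl
  exact D.hu (by rw [← D.hy, zero_pow D.hN.ne'])

theorem Dat.kum_root (D : Dat H W S N ζ u y) {w : Ω ≃ₐ[F] Ω} (hw : w ∈ W) :
    ∃ e : ℕ, w y = ζ ^ e * y := by
  obtain ⟨a, ha⟩ := exists_exp D.hN D.hζ D.y_ne (b := w y) (by
    rw [← map_pow, D.hy, D.huW w hw])
  exact ⟨a, ha⟩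

theorem Dat.kum_pow (D : Dat H W S N ζ u y) {w : Ω ≃ₐ[F] Ω} (hw : w ∈ W) :
    (w y / y) ^ N = 1 := by
  obtain ⟨e, he⟩ := D.kum_root hw
  rw [he, mul_div_assoc, div_self D.y_ne, mul_one, ← pow_mul, mul_comm, pow_mul,
    D.hζ.pow_eq_one, one_pow]

theorem Dat.kum_mul (D : Dat H W S N ζ u y) {w w' : Ω ≃ₐ[F] Ω} (hw : w ∈ W) (hw' : w' ∈ W) :
    (w * w') y / y = (w y / y) * (w' y / y) := by
  obtain ⟨e, he⟩ := D.kum_root hw'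
  have hy := D.y_ne
  rw [AlgEquiv.mul_apply, he, map_mul, map_pow, D.hWζ w hw]
  field_simp

theorem Dat.kum_inv (D : Dat H W S N ζ u y) {w : Ω ≃ₐ[F] Ω} (hw : w ∈ W) :
    w⁻¹ y / y = (w y / y)⁻¹ := by
  have h1 := D.kum_mul hw (W.inv_mem hw)
  rw [mul_inv_cancel, AlgEquiv.one_apply, div_self D.y_ne] at h1
  exact (eq_inv_of_mul_eq_one_right h1.symm)

theorem exists_root_exp (hN : 0 < N) (hζ : IsPrimitiveRoot ζ N) (g : Ω ≃ₐ[F] Ω) :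
    ∃ k : ℕ, g ζ = ζ ^ k := exists_exp_root g hN hζ

theorem Dat.kum_conj (D : Dat H W S N ζ u y) {h : Ω ≃ₐ[F] Ω} (hh : h ∈ H) {w : Ω ≃ₐ[F] Ω}
    (hw : w ∈ W) : (h * w * h⁻¹) y / y = w y / y := by
  have hy := D.y_ne
  obtain ⟨k, hk⟩ := exists_root_exp D.hN D.hζ h⁻¹
  obtain ⟨z, hz, hzW, hzu⟩ := D.tw h⁻¹ (H.inv_mem hh) k hk
  obtain ⟨j, hj⟩ := exists_exp D.hN D.hζ (b := h⁻¹ y) (c := y ^ k * z)
    (mul_ne_zero (pow_ne_zero _ hy) hz) (by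
      rw [← map_pow, D.hy, hzu, mul_pow, ← pow_mul, mul_comm k, pow_mul, D.hy])
  obtain ⟨e, he⟩ := D.kum_root hw
  have hkz : h (ζ ^ k) = ζ := by rw [← hk, ← AlgEquiv.mul_apply, mul_inv_cancel, AlgEquiv.one_apply]
  have h1 : w (h⁻¹ y) = (ζ ^ k) ^ e * (h⁻¹ y) := by
    rw [hj, map_mul, map_mul, map_pow, map_pow, D.hWζ w hw, hzW w hw, he]
    ring
  rw [AlgEquiv.mul_apply, AlgEquiv.mul_apply, h1, map_mul, map_pow, hkz, ← AlgEquiv.mul_apply,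
    mul_inv_cancel, AlgEquiv.one_apply, he]

theorem Dat.kum_conjS (D : Dat H W S N ζ u y) {w : Ω ≃ₐ[F] Ω}
    (hw : w ∈ W) : (S * w * S⁻¹) y / y = (w y / y)⁻¹ := by
  have hy := D.y_ne
  obtain ⟨z, hz, hzW, hzu⟩ := D.anti
  set z' := S⁻¹ z with hz'
  have hz'0 : z' ≠ 0 := by rw [hz', map_ne_zero]; exact hz
  have hz'W : ∀ w ∈ W, w z' = z' := by
    intro w hw
    have h1 := hzW _ (D.hSW w hw)
    rw [AlgEquiv.mul_apply, AlgEquiv.mul_apply] at h1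
    apply S.injective
    rw [← hz'] at h1
    rw [h1, hz', ← AlgEquiv.mul_apply, mul_inv_cancel, AlgEquiv.one_apply]
  have hu' : S⁻¹ u = u⁻¹ * z' ^ N := by
    have h1 := congrArg (S⁻¹ : Ω ≃ₐ[F] Ω) hzu
    rw [← AlgEquiv.mul_apply, inv_mul_cancel, AlgEquiv.one_apply, map_mul, map_inv₀, map_pow,
      ← hz'] at h1
    have h2 : S⁻¹ u ≠ 0 := by rw [map_ne_zero]; exact D.hu
    have h3 := D.hu
    field_simp
    field_simp at h1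
    rw [mul_comm]
    exact h1
  obtain ⟨j, hj⟩ := exists_exp D.hN D.hζ (b := S⁻¹ y) (c := y⁻¹ * z')
    (mul_ne_zero (inv_ne_zero hy) hz'0) (by
      rw [← map_pow, D.hy, hu', mul_pow, inv_pow, D.hy])
  obtain ⟨e, he⟩ := D.kum_root hw
  have hζ0 := D.hζ.ne_zero D.hN.ne'
  have h1 : w (S⁻¹ y) = (ζ ^ e)⁻¹ * (S⁻¹ y) := by
    rw [hj, map_mul, map_mul, map_inv₀, map_pow, D.hWζ w hw, hz'W w hw, he, mul_inv]
    ring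
  rw [AlgEquiv.mul_apply, AlgEquiv.mul_apply, h1, map_mul, map_inv₀, map_pow, D.hSζ,
    ← AlgEquiv.mul_apply, mul_inv_cancel, AlgEquiv.one_apply, he]
  field_simp

/-- The commutator character. -/
noncomputable def Dat.ch (D : Dat H W S N ζ u y) : H →* Ωˣ where
  toFun h := Units.mk0 (((h : Ω ≃ₐ[F] Ω) * S * (h : Ω ≃ₐ[F] Ω)⁻¹ * S⁻¹) y / y)
    (div_ne_zero (by rw [map_ne_zero]; exact D.y_ne) D.y_ne)
  map_one' := by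
    ext
    simp only [Units.val_mk0, OneMemClass.coe_one, one_mul, inv_one, mul_one, mul_inv_cancel,
      AlgEquiv.one_apply, Units.val_one]
    exact div_self D.y_ne
  map_mul' a b := by
    ext
    simp only [Units.val_mk0, Units.val_mul, Subgroup.coe_mul]
    have h1 : (a : Ω ≃ₐ[F] Ω) * b * S * ((a : Ω ≃ₐ[F] Ω) * b)⁻¹ * S⁻¹ =
        ((a : Ω ≃ₐ[F] Ω) * ((b : Ω ≃ₐ[F] Ω) * S * (b : Ω ≃ₐ[F] Ω)⁻¹ * S⁻¹) *
          (a : Ω ≃ₐ[F] Ω)⁻¹) * ((a : Ω ≃ₐ[F] Ω) * S * (a : Ω ≃ₐ[F] Ω)⁻¹ * S⁻¹) := by group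
    rw [h1, D.kum_mul (D.hHW a a.2 _ (D.hcomm b b.2)) (D.hcomm a a.2),
      D.kum_conj a.2 (D.hcomm b b.2), mul_comm]

theorem Dat.ch_apply (D : Dat H W S N ζ u y) (h : H) :
    ((D.ch h : Ωˣ) : Ω) = ((h : Ω ≃ₐ[F] Ω) * S * (h : Ω ≃ₐ[F] Ω)⁻¹ * S⁻¹) y / y := rfl

theorem Dat.ch_pow (D : Dat H W S N ζ u y) (h : H) : D.ch h ^ N = 1 := by
  ext
  rw [Units.val_pow_eq_pow_val, D.ch_apply, D.kum_pow (D.hcomm h h.2), Units.val_one]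

theorem Dat.ch_res (D : Dat H W S N ζ u y) (w : Ω ≃ₐ[F] Ω) (hw : w ∈ W) :
    ((D.ch ⟨w, D.hWH hw⟩ : Ωˣ) : Ω) = (w y / y) ^ 2 := by
  rw [D.ch_apply]
  have h1 : w * S * w⁻¹ * S⁻¹ = w * (S * w⁻¹ * S⁻¹) := by group
  show (w * S * w⁻¹ * S⁻¹) y / y = _
  rw [h1, D.kum_mul hw (D.hSW _ (W.inv_mem hw)), D.kum_conjS (W.inv_mem hw), D.kum_inv hw,
    inv_inv, sq]

theorem Dat.ch_open (D : Dat H W S N ζ u y) [Algebra.IsAlgebraic F Ω] :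
    ∃ U : Subgroup (Ω ≃ₐ[F] Ω), IsOpen (U : Set (Ω ≃ₐ[F] Ω)) ∧
      ∀ h : H, (h : Ω ≃ₐ[F] Ω) ∈ U → D.ch h = 1 := by
  refine ⟨MulAction.stabilizer (Ω ≃ₐ[F] Ω) y ⊓ MulAction.stabilizer (Ω ≃ₐ[F] Ω) (S⁻¹ y), ?_, ?_⟩
  · exact (stabilizer_isOpen_of_isIntegral (K := F) (L := Ω) y).inter
      (stabilizer_isOpen_of_isIntegral (K := F) (L := Ω) (S⁻¹ y))
  · rintro h ⟨h1, h2⟩
    have h1' : (h : Ω ≃ₐ[F] Ω) y = y := h1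
    have h2' : (h : Ω ≃ₐ[F] Ω) (S⁻¹ y) = S⁻¹ y := h2
    have h3 : (h : Ω ≃ₐ[F] Ω)⁻¹ (S⁻¹ y) = S⁻¹ y := by
      conv_lhs => rw [← h2']
      rw [← AlgEquiv.mul_apply, inv_mul_cancel, AlgEquiv.one_apply]
    ext
    rw [D.ch_apply, AlgEquiv.mul_apply, AlgEquiv.mul_apply, h3, AlgEquiv.mul_apply,
      ← AlgEquiv.mul_apply S, mul_inv_cancel, AlgEquiv.one_apply, h1', div_self D.y_ne,
      Units.val_one]

end

end Vale.Agent.P024.T3
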