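import Mathlib

/-!
Limits of characters of `p`-power order.
-/

namespace Vale.Agent.P024.T3

open Filter Topology

/-- A `p`-primary group with finite `p`-torsion and an endomorphism with unbounded image: there is
a compatible sequence. -/
theorem exists_seq {A : Type*} [CommGroup A] {p : ℕ} (hprim : ∀ a : A, ∃ k : ℕ, a ^ p ^ k = 1)
    (hfin : {a : A | a ^ p = 1}.Finite) (f : A →* A)
    (hf : ∀ B : ℕ, ∃ a : A, f a ^ p ^ B ≠ 1) :
    ∃ Φ : ℕ → A, Φ 0 = 1 ∧ (∀ n, Φ (n + 1) ^ p = Φ n) ∧ ∃ n, f (Φ n) ≠ 1 := by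
  classical
  -- the decreasing sequence of finite sets
  let T : ℕ → Set A := fun j => {a | a ^ p = 1 ∧ ∃ b, b ^ p ^ j = a}
  have hTfin : ∀ j, (T j).Finite := fun j => hfin.subset fun a ha => ha.1
  have hTanti : Antitone T := by
    apply antitone_nat_of_succ_le
    rintro j a ⟨ha, b, hb⟩
    exact ⟨ha, b ^ p, by rw [← pow_mul, ← pow_succ', hb]⟩
  obtain ⟨C, hC⟩ : ∃ C, ∀ j, C ≤ j → T j = T C := by
    have h1 : ∃ C, ∀ j, (T C).ncard ≤ (T j).ncard := by
      have hne : (Set.range fun j => (T j).ncard).Nonempty := ⟨_, 0, rfl⟩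
      obtain ⟨C, hC⟩ := Nat.sInf_mem hne
      exact ⟨C, fun j => by
        show (fun j => (T j).ncard) C ≤ _
        rw [hC]
        exact Nat.sInf_le ⟨j, rfl⟩⟩
    obtain ⟨C, hC⟩ := h1
    exact ⟨C, fun j hj => Set.eq_of_subset_of_ncard_le (hTanti hj) (hC j) (hTfin C)⟩
  have key : ∀ s : ℕ, ∀ a : A, a ^ p ^ s = 1 → (∃ b, b ^ p ^ C = a) →
      ∃ b, b ^ p ^ (C + 1) = a := by
    intro s
    induction s with
    | zero =>
      intro a ha _
      exact ⟨1, by rw [one_pow]; simpa using ha.symm⟩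
    | succ s ih =>
      rintro a ha ⟨b, hb⟩
      have h1 : a ^ p ^ s ∈ T (C + s) := by
        refine ⟨by rw [← pow_mul, ← pow_succ, ha], b, ?_⟩
        rw [pow_add, pow_mul, hb]
      rw [hC _ (Nat.le_add_right C s), ← hC (C + (s + 1)) (Nat.le_add_right _ _)] at h1
      obtain ⟨-, d, hd⟩ := h1
      have h2 : (d ^ p ^ (C + 1)) ^ p ^ s = a ^ p ^ s := by
        rw [← hd, ← pow_mul, ← pow_add]
        congr 2
        ring
      obtain ⟨e, he⟩ := ih (a * (d ^ p ^ (C + 1))⁻¹) (by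
        rw [mul_pow, inv_pow, h2, mul_inv_cancel]) ⟨b * (d ^ p)⁻¹, by
          rw [mul_pow, hb, inv_pow, ← pow_mul, ← pow_succ']⟩
      exact ⟨e * d, by rw [mul_pow, he, inv_mul_cancel_right]⟩
  have hdiv : ∀ a : {a : A // ∃ b, b ^ p ^ C = a}, ∃ b : {a : A // ∃ b, b ^ p ^ C = a},
      b.1 ^ p = a.1 := by
    rintro ⟨a, ha⟩
    obtain ⟨s, hs⟩ := hprim a
    obtain ⟨b, hb⟩ := key s a hs ha
    exact ⟨⟨b ^ p ^ C, b, rfl⟩, by rw [← pow_mul, ← pow_succ, hb]⟩
  choose g hg using hdiv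
  obtain ⟨a, ha⟩ := hf C
  obtain ⟨s, hs⟩ := hprim (a ^ p ^ C)
  let φ : ℕ → {a : A // ∃ b, b ^ p ^ C = a} := fun n => Nat.rec ⟨a ^ p ^ C, a, rfl⟩ (fun _ => g) n
  have hφ : ∀ n, (φ (n + 1)).1 ^ p = (φ n).1 := fun n => hg (φ n)
  refine ⟨fun n => if n ≤ s then (a ^ p ^ C) ^ p ^ (s - n) else (φ (n - s)).1, ?_, ?_, s, ?_⟩
  · simp only [Nat.zero_le, if_true, Nat.sub_zero]
    exact hs
  · intro n
    by_cases h1 : n + 1 ≤ s
    · have h2 : n ≤ s := by omega
      simp only [if_pos h1, if_pos h2]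
      rw [← pow_mul, ← pow_succ]
      congr 2
      omega
    · by_cases h2 : n ≤ s
      · have h3 : n = s := by omega
        subst h3
        simp only [if_neg h1, le_refl, if_true, Nat.sub_self, pow_zero, pow_one]
        rw [show n + 1 - n = 0 + 1 by omega, hφ]
        rfl
      · simp only [if_neg h1, if_neg h2]
        rw [show n + 1 - s = (n - s) + 1 by omega, hφ]
  · simp only [le_refl, if_true, Nat.sub_self, pow_zero, pow_one]
    rw [map_pow]
    exact ha

section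

variable {p : ℕ} [hp : Fact p.Prime]

theorem exists_padic (a : ∀ n, ZMod (p ^ n))
    (h : ∀ n, ZMod.castHom (pow_dvd_pow p n.le_succ) (ZMod (p ^ n)) (a (n + 1)) = a n) :
    ∃ θ : ℤ_[p], ∀ n, PadicInt.toZModPow n θ = a n := by
  have hnz : ∀ n, NeZero (p ^ n) := fun n => ⟨pow_ne_zero _ hp.out.ne_zero⟩
  let s : ℕ → ℤ_[p] := fun n => ((a n).val : ℤ_[p])
  have hs : ∀ n, PadicInt.toZModPow n (s n) = a n := by
    intro n
    simp only [s, map_natCast]
    exact ZMod.natCast_zmod_val (a n)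
  have hs' : ∀ n m, n ≤ m → PadicInt.toZModPow n (s m) = a n := by
    intro n m hnm
    induction m, hnm using Nat.le_induction with
    | base => exact hs n
    | succ m hnm ih =>
      rw [← ih]
      have h1 := PadicInt.zmod_cast_comp_toZModPow (p := p) n m hnm
      have h2 := fun x => (RingHom.congr_fun h1 x).symm
      rw [h2, h2]
      simp only [RingHom.comp_apply]
      congr 1
      rw [hs m, ← h m, ← hs (m + 1)]
      have h3 := PadicInt.zmod_cast_comp_toZModPow (p := p) m (m + 1) m.le_succ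
      exact (RingHom.congr_fun h3 (s (m + 1))).symm
  have hd : ∀ n m, n ≤ m → ‖s m - s n‖ ≤ (p : ℝ) ^ (-(n : ℤ)) := by
    intro n m hnm
    rw [PadicInt.norm_le_pow_iff_mem_span_pow, ← PadicInt.ker_toZModPow, RingHom.mem_ker, map_sub,
      hs' n m hnm, hs' n n le_rfl, sub_self]
  have hc : CauchySeq s := by
    have hp1 : (1 : ℝ) < p := by exact_mod_cast hp.out.one_lt
    refine cauchySeq_of_le_tendsto_0 (fun n => 2 * (p : ℝ) ^ (-(n : ℤ))) ?_ ?_
    · intro n m N hn hm
      rw [dist_eq_norm]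
      have h1 : s n - s m = (s n - s N) - (s m - s N) := by ring
      rw [h1]
      refine (norm_sub_le _ _).trans ?_
      have := hd N n hn
      have := hd N m hm
      linarith
    · have h1 : Tendsto (fun n : ℕ => 2 * ((p : ℝ)⁻¹) ^ n) atTop (𝓝 (2 * 0)) :=
        (tendsto_pow_atTop_nhds_zero_of_lt_one (by positivity) (inv_lt_one_of_one_lt₀ hp1)).const_mul 2
      rw [mul_zero] at h1
      refine h1.congr fun n => ?_
      rw [inv_pow, zpow_neg, zpow_natCast]
  obtain ⟨θ, hθ⟩ := cauchySeq_tendsto_of_complete hc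
  refine ⟨θ, fun n => ?_⟩
  have h1 : ‖θ - s n‖ ≤ (p : ℝ) ^ (-(n : ℤ)) := by
    have h2 : Tendsto (fun m => ‖s m - s n‖) atTop (𝓝 ‖θ - s n‖) :=
      (hθ.sub_const (s n)).norm
    exact le_of_tendsto h2 (eventually_atTop.2 ⟨n, fun m hm => hd n m hm⟩)
  rw [PadicInt.norm_le_pow_iff_mem_span_pow, ← PadicInt.ker_toZModPow, RingHom.mem_ker, map_sub,
    sub_eq_zero] at h1
  rw [h1, hs]

/-- The exponential `x ↦ (1 + p) ^ x`. -/
theorem exists_exp_padic : ∃ e : Multiplicative ℤ_[p] →* ℤ_[p]ˣ,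
    Continuous e ∧ Function.Injective e := by
  have hr : Tendsto (fun n : ℕ => (p : ℤ_[p]) ^ n) atTop (𝓝 0) :=
    tendsto_pow_atTop_nhds_zero_of_norm_lt_one (by
      rw [PadicInt.norm_p]
      exact inv_lt_one_of_one_lt₀ (by exact_mod_cast hp.out.one_lt))
  let κ : AddChar ℤ_[p] ℤ_[p] := PadicInt.addChar_of_value_at_one (p : ℤ_[p]) hr
  have hκc : Continuous κ := PadicInt.continuous_addChar_of_value_at_one hr
  have hκ1 : κ 1 = 1 + p := PadicInt.addChar_of_value_at_one_def hr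
  have hκn : ∀ n : ℕ, κ (n : ℤ_[p]) = (1 + p) ^ n := by
    intro n
    have h1 : ((n : ℕ) : ℤ_[p]) = n • (1 : ℤ_[p]) := by simp
    rw [h1, AddChar.map_nsmul_eq_pow, hκ1]
  let e : Multiplicative ℤ_[p] →* ℤ_[p]ˣ :=
    { toFun := fun x => ⟨κ (Multiplicative.toAdd x), κ (-Multiplicative.toAdd x),
        by rw [← AddChar.map_add_eq_mul, add_neg_cancel, AddChar.map_zero_eq_one],
        by rw [← AddChar.map_add_eq_mul, neg_add_cancel, AddChar.map_zero_eq_one]⟩
      map_one' := Units.ext (by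
        show κ (Multiplicative.toAdd 1) = 1
        rw [toAdd_one, AddChar.map_zero_eq_one])
      map_mul' := fun x y => Units.ext (by
        show κ (Multiplicative.toAdd (x * y)) = κ (Multiplicative.toAdd x) *
          κ (Multiplicative.toAdd y)
        rw [toAdd_mul, AddChar.map_add_eq_mul]) }
  refine ⟨e, ?_, ?_⟩
  · rw [Units.continuous_iff]
    constructor
    · exact hκc.comp continuous_toAdd
    · exact hκc.comp (continuous_toAdd.neg)
  · rw [injective_iff_map_eq_one]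
    intro x hx
    set t := Multiplicative.toAdd x with ht
    have h1 : κ t = 1 := congrArg Units.val hx
    by_contra hne
    have ht0 : t ≠ 0 := fun h => hne (by
      rw [← ofAdd_toAdd x, ← ht, h, ofAdd_zero])
    -- `κ` is trivial on all multiples of `t`
    have h2 : ∀ z : ℤ_[p], κ (z * t) = 1 := by
      intro z
      have hcl : IsClosed {z : ℤ_[p] | κ (z * t) = 1} :=
        isClosed_eq (hκc.comp (continuous_id.mul continuous_const)) continuous_const
      have hd : Dense (Set.range ((↑) : ℕ → ℤ_[p])) := PadicInt.denseRange_natCast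
      have h3 : closure (Set.range ((↑) : ℕ → ℤ_[p])) ⊆ {z : ℤ_[p] | κ (z * t) = 1} := by
        refine hcl.closure_subset_iff.2 ?_
        rintro _ ⟨n, rfl⟩
        show κ ((n : ℤ_[p]) * t) = 1
        rw [← nsmul_eq_mul, AddChar.map_nsmul_eq_pow, h1, one_pow]
      rw [hd.closure_eq] at h3
      exact h3 (Set.mem_univ z)
    -- a power of `p` is a multiple of `t`
    have h3 := PadicInt.unitCoeff_spec ht0
    have h4 : ((PadicInt.unitCoeff ht0)⁻¹ : ℤ_[p]ˣ) * t = (p : ℤ_[p]) ^ t.valuation := by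
      rw [Units.inv_mul_eq_iff_eq_mul]
      exact h3
    have h5 := h2 ((PadicInt.unitCoeff ht0)⁻¹ : ℤ_[p]ˣ)
    rw [h4, ← Nat.cast_pow, hκn] at h5
    have h6 : ((1 + p) ^ (p ^ t.valuation) : ℕ) = 1 := by
      have h7 : (((1 + p) ^ (p ^ t.valuation) : ℕ) : ℤ_[p]) = ((1 : ℕ) : ℤ_[p]) := by
        push_cast
        exact h5
      exact Nat.cast_injective h7
    have h8 : 1 < (1 + p) ^ (p ^ t.valuation) :=
      Nat.one_lt_pow (pow_ne_zero _ hp.out.ne_zero) (by have := hp.out.pos; omega)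
    omega

end

end Vale.Agent.P024.T3
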