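import Vale.Agent.P024.H644.T2

/-!
From compatible sequences of characters to `p`-adic characters.
-/

namespace Vale.Agent.P024.T3

open Filter Topology

variable {p : ℕ} [hp : Fact p.Prime]

theorem exists_roots {Ω : Type*} [Field Ω] (hroot : ∃ ζ : Ω, IsPrimitiveRoot ζ p)
    (hpow : ∀ x : Ω, ∃ y : Ω, y ^ p = x) :
    ∃ ξ : ℕ → Ω, (∀ n, IsPrimitiveRoot (ξ n) (p ^ n)) ∧ ∀ n, ξ (n + 1) ^ p = ξ n := by
  classical
  obtain ⟨ζ, hζ⟩ := hroot
  choose r hr using hpow
  let ξ : ℕ → Ω := fun n => Nat.rec 1 (fun n x => if n = 0 then ζ else r x) n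
  have h0 : ξ 0 = 1 := rfl
  have h1 : ξ 1 = ζ := rfl
  have h2 : ∀ n, ξ (n + 2) ^ p = ξ (n + 1) := fun n => hr _
  refine ⟨ξ, ?_, ?_⟩
  · intro n
    rcases n with _ | n
    · rw [h0, pow_zero]
      exact IsPrimitiveRoot.one
    · induction n with
      | zero =>
        rw [zero_add, h1, pow_one]
        exact hζ
      | succ n ih =>
        have h3 : orderOf (ξ (n + 2)) = p ^ (n + 1 + 1) := by
          apply orderOf_eq_prime_pow
          · intro h4
            have h5 : ξ (n + 1) ^ p ^ n = 1 := by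
              rw [← h2, ← pow_mul, ← pow_succ']
              exact h4
            rw [ih.pow_eq_one_iff_dvd] at h5
            have h6 := Nat.pow_dvd_pow_iff_le_right hp.out.one_lt |>.1 h5
            omega
          · rw [pow_succ' p (n + 1), pow_mul, h2, ih.pow_eq_one]
        rw [show n + 1 + 1 = n + 2 from rfl] at h3 ⊢
        rw [← h3]
        exact IsPrimitiveRoot.orderOf _
  · intro n
    rcases n with _ | n
    · rw [zero_add, h1, h0, hζ.pow_eq_one]
    · exact h2 n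

/-- A compatible sequence of characters gives a `p`-adic character. -/
theorem exists_char {H Ω : Type*} [Group H] [TopologicalSpace H] [IsTopologicalGroup H] [Field Ω]
    (hroot : ∃ ζ : Ω, IsPrimitiveRoot ζ p) (hpow : ∀ x : Ω, ∃ y : Ω, y ^ p = x)
    (Φ : ℕ → H →* Ωˣ) (h0 : Φ 0 = 1) (hs : ∀ n, Φ (n + 1) ^ p = Φ n)
    (hopen : ∀ n, ∃ U : Set H, IsOpen U ∧ 1 ∈ U ∧ ∀ h ∈ U, Φ n h = 1) :
    ∃ ψ : H →* ℤ_[p]ˣ, Continuous ψ ∧ ∀ h, ψ h = 1 ↔ ∀ n, Φ n h = 1 := by
  classical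
  have hnz : ∀ n, NeZero (p ^ n) := fun n => ⟨pow_ne_zero _ hp.out.ne_zero⟩
  obtain ⟨ξ, hξ, hξs⟩ := exists_roots hroot hpow
  have hΦ : ∀ n h, Φ n h ^ p ^ n = 1 := by
    intro n h
    induction n with
    | zero => rw [pow_zero, pow_one, h0, MonoidHom.one_apply]
    | succ n ih =>
      rw [pow_succ', pow_mul]
      have h1 : Φ (n + 1) h ^ p = Φ n h := by
        rw [← hs n, MonoidHom.pow_apply]
      rw [h1, ih]
  have hex : ∀ h n, ∃ k : ℕ, ξ n ^ k = (Φ n h : Ω) := by
    intro h n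
    obtain ⟨k, -, hk⟩ := (hξ n).eq_pow_of_pow_eq_one (ξ := (Φ n h : Ω)) (by
      rw [← Units.val_pow_eq_pow_val, hΦ, Units.val_one])
    exact ⟨k, hk⟩
  choose k hk using hex
  have hmod : ∀ (n a b : ℕ), ξ n ^ a = ξ n ^ b ↔ ((a : ℕ) : ZMod (p ^ n)) = (b : ZMod (p ^ n)) := by
    intro n a b
    rw [ZMod.natCast_eq_natCast_iff]
    have h1 := (hξ n).eq_orderOf
    have h2 : ξ n ≠ 0 := (hξ n).ne_zero (pow_ne_zero _ hp.out.ne_zero)
    have h3 : orderOf (Units.mk0 (ξ n) h2) = p ^ n := by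
      rw [h1, ← orderOf_units, Units.val_mk0]
    rw [← h3, ← pow_eq_pow_iff_modEq, ← Units.val_inj]
    simp only [Units.val_pow_eq_pow_val, Units.val_mk0]
  have hcompat : ∀ h n, ZMod.castHom (pow_dvd_pow p n.le_succ) (ZMod (p ^ n))
      ((k h (n + 1) : ℕ) : ZMod (p ^ (n + 1))) = ((k h n : ℕ) : ZMod (p ^ n)) := by
    intro h n
    rw [map_natCast, ← hmod, hk, ← hξs, ← pow_mul, mul_comm, pow_mul, hk,
      ← Units.val_pow_eq_pow_val, ← MonoidHom.pow_apply, hs]
  choose θ hθ using fun h => exists_padic (fun n => ((k h n : ℕ) : ZMod (p ^ n))) (hcompat h)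
  have hθmul : ∀ a b, θ (a * b) = θ a + θ b := by
    intro a b
    apply PadicInt.ext_of_toZModPow.1
    intro n
    rw [map_add, hθ, hθ, hθ, ← Nat.cast_add, ← hmod, hk, pow_add, hk, hk, map_mul, Units.val_mul]
  have hθ0 : ∀ h, θ h = 0 ↔ ∀ n, Φ n h = 1 := by
    intro h
    rw [← PadicInt.ext_of_toZModPow]
    refine forall_congr' fun n => ?_
    rw [hθ, map_zero, ← Nat.cast_zero, ← hmod, hk, pow_zero, Units.val_eq_one]
  let Θ : H →* Multiplicative ℤ_[p] :=
    { toFun := fun h => Multiplicative.ofAdd (θ h)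
      map_one' := by
        have h1 := hθmul 1 1
        rw [mul_one] at h1
        have h2 : θ 1 = 0 := by simpa using h1
        rw [h2, ofAdd_zero]
      map_mul' := fun a b => by rw [hθmul, ofAdd_add] }
  have hΘc : Continuous Θ := by
    apply continuous_of_continuousAt_one Θ
    have h1 : ContinuousAt θ 1 := by
      rw [Metric.continuousAt_iff']
      intro ε hε
      obtain ⟨n, hn⟩ := PadicInt.exists_pow_neg_lt p hε
      obtain ⟨U, hU, hU1, hUΦ⟩ := hopen n
      filter_upwards [hU.mem_nhds hU1] with h hh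
      refine lt_of_le_of_lt ?_ hn
      rw [dist_eq_norm, PadicInt.norm_le_pow_iff_mem_span_pow, ← PadicInt.ker_toZModPow,
        RingHom.mem_ker, map_sub, hθ, hθ, sub_eq_zero, ← hmod, hk, hk, hUΦ h hh, map_one]
    exact h1
  obtain ⟨e, hec, hei⟩ := exists_exp_padic (p := p)
  refine ⟨e.comp Θ, hec.comp hΘc, fun h => ?_⟩
  rw [← hθ0, MonoidHom.comp_apply]
  constructor
  · intro h1
    have h2 : Θ h = 1 := hei (by rw [h1, map_one])
    exact Multiplicative.ofAdd.injective h2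
  · intro h1
    have h2 : Θ h = 1 := by
      show Multiplicative.ofAdd (θ h) = 1
      rw [h1, ofAdd_zero]
    rw [h2, map_one]

end Vale.Agent.P024.T3
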