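import Mathlib
import Vale.Agent.P024.H539.Cls

/-!
Finiteness of the classes modulo `p`-th powers of the elements with divisible valuations.
-/

namespace Vale.Agent.P024.T3

open IsDedekindDomain NumberField

variable (L : Type*) [Field L] [NumberField L]

/-- The valuation of a unit of the field, modulo `p`. -/
noncomputable def vmod (p : ℕ) (v : HeightOneSpectrum (𝓞 L)) : Lˣ →* Multiplicative (ZMod p) where
  toFun x := Multiplicative.ofAdd ((WithZero.log (v.valuation L (x : L)) : ℤ) : ZMod p)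
  map_one' := by simp
  map_mul' x y := by
    have hx : v.valuation L (x : L) ≠ 0 := by simp
    have hy : v.valuation L (y : L) ≠ 0 := by simp
    rw [Units.val_mul, map_mul, WithZero.log_mul hx hy, Int.cast_add, ofAdd_add]

theorem vmod_eq_one_iff {p : ℕ} {v : HeightOneSpectrum (𝓞 L)} {x : Lˣ} :
    vmod L p v x = 1 ↔ ∃ k : ℤ, v.valuation L (x : L) = WithZero.exp ((p : ℤ) * k) := by
  have hx : v.valuation L (x : L) ≠ 0 := by simp
  have h1 : vmod L p v x = 1 ↔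
      ((WithZero.log (v.valuation L (x : L)) : ℤ) : ZMod p) = 0 := by
    show Multiplicative.ofAdd _ = 1 ↔ _
    rw [← ofAdd_zero]
    exact Multiplicative.ofAdd.injective.eq_iff
  rw [h1, ZMod.intCast_zmod_eq_zero_iff_dvd]
  constructor
  · rintro ⟨k, hk⟩
    exact ⟨k, by rw [← hk, WithZero.exp_log hx]⟩
  · rintro ⟨k, hk⟩
    exact ⟨k, by rw [hk, WithZero.log_exp]⟩

theorem relIndex_units (p : ℕ) (hp : 0 < p) :
    (powMonoidHom p : Lˣ →* Lˣ).range.relIndex
      ((Units.map (algebraMap (𝓞 L) L : 𝓞 L →* L)).range) ≠ 0 := by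
  set f : (𝓞 L)ˣ →* Lˣ := Units.map (algebraMap (𝓞 L) L : 𝓞 L →* L) with hf
  have hinj : Function.Injective f := Units.map_injective (FaithfulSMul.algebraMap_injective _ _)
  have h1 : ((powMonoidHom p : (𝓞 L)ˣ →* (𝓞 L)ˣ).range.map f) ≤
      (powMonoidHom p : Lˣ →* Lˣ).range := by
    rintro _ ⟨_, ⟨x, rfl⟩, rfl⟩
    exact ⟨f x, by simp [powMonoidHom_apply]⟩
  have h2 := Subgroup.relIndex_dvd_of_le_left (f.range) h1
  intro h0
  rw [h0] at h2
  have h3 : ((powMonoidHom p : (𝓞 L)ˣ →* (𝓞 L)ˣ).range.map f).relIndex f.range =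
      (powMonoidHom p : (𝓞 L)ˣ →* (𝓞 L)ˣ).range.index := by
    rw [MonoidHom.range_eq_map f, Subgroup.relIndex_map_map_of_injective _ _ hinj,
      Subgroup.relIndex_top_right]
  rw [h3, zero_dvd_iff] at h2
  have hfg : Group.FG (𝓞 L)ˣ := Group.fg_iff_monoid_fg.2 inferInstance
  have hfin : Finite ((𝓞 L)ˣ ⧸ (powMonoidHom p : (𝓞 L)ˣ →* (𝓞 L)ˣ).range) := by
    apply CommGroup.finite_of_fg_isMulTorsion
    intro q
    obtain ⟨x, rfl⟩ := QuotientGroup.mk_surjective q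
    rw [isOfFinOrder_iff_pow_eq_one]
    refine ⟨p, hp, ?_⟩
    rw [← QuotientGroup.mk_pow, QuotientGroup.eq_one_iff]
    exact ⟨x, rfl⟩
  exact Subgroup.index_ne_zero_of_finite h2

/-- The units all of whose valuations are divisible by `p`. -/
noncomputable def W1 (p : ℕ) : Subgroup Lˣ where
  carrier := {x | ∀ v : HeightOneSpectrum (𝓞 L), vmod L p v x = 1}
  one_mem' := fun v => map_one _
  mul_mem' := fun hx hy v => by rw [map_mul, hx v, hy v, one_mul]
  inv_mem' := fun hx v => by rw [map_inv, hx v, inv_one]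

/-- The units all of whose valuations outside `p` are divisible by `p`. -/
noncomputable def W0 (p : ℕ) : Subgroup Lˣ where
  carrier := {x | ∀ v : HeightOneSpectrum (𝓞 L), (p : 𝓞 L) ∉ v.asIdeal → vmod L p v x = 1}
  one_mem' := fun v _ => map_one _
  mul_mem' := fun hx hy v hv => by rw [map_mul, hx v hv, hy v hv, one_mul]
  inv_mem' := fun hx v hv => by rw [map_inv, hx v hv, inv_one]

theorem exists_ideal {p : ℕ} (hp : 0 < p) (x : Lˣ) (hx : x ∈ W1 L p) :
    ∃ (c b : 𝓞 L) (J : Ideal (𝓞 L)), c ≠ 0 ∧ b ≠ 0 ∧ J ^ p = Ideal.span {c} ∧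
      (c : L) = x * (b : L) ^ p := by
  obtain ⟨a, b, hb, hab⟩ := IsFractionRing.div_surjective (A := 𝓞 L) (x : L)
  have hb0 : b ≠ 0 := nonZeroDivisors.ne_zero hb
  have hbL : algebraMap (𝓞 L) L b ≠ 0 := by simpa using hb0
  have ha0 : a ≠ 0 := by
    rintro rfl
    rw [map_zero, zero_div] at hab
    exact x.ne_zero hab.symm
  have hc : a * b ^ (p - 1) ≠ 0 := mul_ne_zero ha0 (pow_ne_zero _ hb0)
  have hcy : algebraMap (𝓞 L) L (a * b ^ (p - 1)) = x * (algebraMap (𝓞 L) L b) ^ p := by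
    rw [map_mul, map_pow, ← hab]
    obtain ⟨m, rfl⟩ : ∃ m, p = m + 1 := ⟨p - 1, by omega⟩
    rw [Nat.add_sub_cancel, pow_succ]
    field_simp
  have hI : Ideal.span {a * b ^ (p - 1)} ≠ (⊥ : Ideal (𝓞 L)) := by simpa using hc
  obtain ⟨J, hJ⟩ := H539.exists_root_ideal hI hp (fun v => by
    obtain ⟨k, hk⟩ := (vmod_eq_one_iff L).1 (hx v)
    have hvb : v.valuation L (algebraMap (𝓞 L) L b) ≠ 0 := by
      rw [Ne, map_eq_zero]; exact hbL
    have e3 : v.intValuation (a * b ^ (p - 1)) =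
        v.valuation L (algebraMap (𝓞 L) L (a * b ^ (p - 1))) :=
      (v.valuation_of_algebraMap (K := L) _).symm
    have e4 : v.intValuation (a * b ^ (p - 1)) =
        WithZero.exp ((p : ℤ) * (k + WithZero.log (v.valuation L (algebraMap (𝓞 L) L b)))) := by
      rw [e3, hcy, map_mul, map_pow, hk, mul_add, WithZero.exp_add]
      congr 1
      rw [← nsmul_eq_mul, WithZero.exp_nsmul, WithZero.exp_log hvb]
    rw [v.intValuation_eq_exp_neg_multiplicity hc] at e4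
    have h1 := WithZero.exp_injective e4
    have h2 : (p : ℤ) ∣ (multiplicity v.asIdeal (Ideal.span {a * b ^ (p - 1)}) : ℤ) :=
      ⟨-(k + WithZero.log (v.valuation L (algebraMap (𝓞 L) L b))), by linarith⟩
    exact_mod_cast h2)
  exact ⟨_, b, J, hc, hb0, hJ, hcy⟩

theorem relIndex_W1 (p : ℕ) (hp : 0 < p) :
    ((Units.map (algebraMap (𝓞 L) L : 𝓞 L →* L)).range ⊔
      (powMonoidHom p : Lˣ →* Lˣ).range).relIndex (W1 L p) ≠ 0 := by
  classical
  set U := (Units.map (algebraMap (𝓞 L) L : 𝓞 L →* L)).range with hU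
  set P := (powMonoidHom p : Lˣ →* Lˣ).range with hP
  choose c b J hc hb hJ hcb using fun x : W1 L p => exists_ideal L hp x x.2
  have hJ0 : ∀ x, J x ∈ nonZeroDivisors (Ideal (𝓞 L)) := by
    intro x
    refine mem_nonZeroDivisors_of_ne_zero ?_
    intro h0
    have h1 := hJ x
    rw [h0, Ideal.zero_eq_bot, Ideal.bot_pow hp.ne'] at h1
    exact hc x (by simpa using h1.symm)
  have key : ∀ x y : W1 L p, ClassGroup.mk0 ⟨J x, hJ0 x⟩ = ClassGroup.mk0 ⟨J y, hJ0 y⟩ →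
      (x : Lˣ)⁻¹ * y ∈ U ⊔ P := by
    intro x y hxy
    obtain ⟨r, s, hr, hs, h1⟩ := ClassGroup.mk0_eq_mk0_iff.1 hxy
    have h2 : Ideal.span {r ^ p * c x} = Ideal.span {s ^ p * c y} := by
      rw [← Ideal.span_singleton_mul_span_singleton, ← Ideal.span_singleton_mul_span_singleton,
        ← Ideal.span_singleton_pow, ← Ideal.span_singleton_pow, ← hJ x, ← hJ y, ← mul_pow,
        ← mul_pow]
      exact congrArg (· ^ p) h1
    rw [Ideal.span_singleton_eq_span_singleton] at h2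
    obtain ⟨ε, hε⟩ := h2
    have hrL : (r : L) ≠ 0 := by simpa using hr
    have hsL : (s : L) ≠ 0 := by simpa using hs
    have hbx : ((b x : 𝓞 L) : L) ≠ 0 := by simpa using hb x
    have hby : ((b y : 𝓞 L) : L) ≠ 0 := by simpa using hb y
    have h3 := congrArg (algebraMap (𝓞 L) L) hε
    rw [map_mul, map_mul, map_mul, map_pow, map_pow] at h3
    have h4 : (r : L) ^ p * (((x : Lˣ) : L) * (b x : L) ^ p) * ((ε : 𝓞 L) : L) =
        (s : L) ^ p * (((y : Lˣ) : L) * (b y : L) ^ p) := by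
      rw [← hcb x, ← hcb y]
      exact h3
    have h5 : (x : Lˣ)⁻¹ * y = (Units.map (algebraMap (𝓞 L) L : 𝓞 L →* L)) ε *
        (Units.mk0 ((r : L) * (b x : L) / ((s : L) * (b y : L)))
          (div_ne_zero (mul_ne_zero hrL hbx) (mul_ne_zero hsL hby))) ^ p := by
      ext
      push_cast
      simp only [Units.val_mk0, Units.coe_map, MonoidHom.coe_coe]
      rw [div_pow, mul_pow, mul_pow, inv_mul_eq_iff_eq_mul₀ (x : Lˣ).ne_zero, mul_div_assoc',
        mul_div_assoc', eq_div_iff (mul_ne_zero (pow_ne_zero _ hsL) (pow_ne_zero _ hby))]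
      linear_combination -h4
    rw [h5]
    exact Subgroup.mul_mem_sup ⟨ε, rfl⟩ ⟨_, rfl⟩
  have hfin : Finite (W1 L p ⧸ (U ⊔ P).subgroupOf (W1 L p)) := by
    refine Finite.of_injective (fun q => ClassGroup.mk0 ⟨J q.out, hJ0 q.out⟩) ?_
    intro q q' hqq
    have h1 := key _ _ hqq
    rw [← QuotientGroup.out_eq' q, ← QuotientGroup.out_eq' q', QuotientGroup.eq]
    exact Subgroup.mem_subgroupOf.2 (by simpa using h1)
  exact Subgroup.index_ne_zero_of_finite

theorem relIndex_W0 (p : ℕ) (hp : p.Prime) (hS : {v : HeightOneSpectrum (𝓞 L) |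
    (p : 𝓞 L) ∈ v.asIdeal}.Finite) : (W1 L p).relIndex (W0 L p) ≠ 0 := by
  classical
  have : Finite {v : HeightOneSpectrum (𝓞 L) | (p : 𝓞 L) ∈ v.asIdeal} := hS
  have hnz : NeZero p := ⟨hp.ne_zero⟩
  let f : Lˣ →* ({v : HeightOneSpectrum (𝓞 L) | (p : 𝓞 L) ∈ v.asIdeal} →
      Multiplicative (ZMod p)) := MonoidHom.pi fun v => vmod L p v.1
  have h1 : W1 L p = f.ker ⊓ W0 L p := by
    ext x
    constructor
    · intro hx
      refine ⟨?_, fun v _ => hx v⟩
      show f x = 1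
      funext v
      exact hx v.1
    · rintro ⟨hx, hx'⟩ v
      by_cases hv : (p : 𝓞 L) ∈ v.asIdeal
      · have hx1 : f x = 1 := hx
        exact congrFun hx1 ⟨v, hv⟩
      · exact hx' v hv
  rw [h1, Subgroup.inf_relIndex_right]
  have hfin : Finite (Multiplicative (ZMod p)) := inferInstanceAs (Finite (ZMod p))
  rw [Subgroup.relIndex_ker]
  exact Nat.card_pos.ne'

theorem finite_sel (p : ℕ) (hp : p.Prime) (hS : {v : HeightOneSpectrum (𝓞 L) |
    (p : 𝓞 L) ∈ v.asIdeal}.Finite) : ∃ Φ : Set Lˣ, Φ.Finite ∧ ∀ x : L, x ≠ 0 →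
      (∀ v : HeightOneSpectrum (𝓞 L), (p : 𝓞 L) ∉ v.asIdeal →
        ∃ k : ℤ, v.valuation L x = WithZero.exp ((p : ℤ) * k)) →
      ∃ φ ∈ Φ, ∃ z : L, z ≠ 0 ∧ x = φ * z ^ p := by
  classical
  set P := (powMonoidHom p : Lˣ →* Lˣ).range with hP
  set U := (Units.map (algebraMap (𝓞 L) L : 𝓞 L →* L)).range with hU
  have h1 : P.relIndex (U ⊔ P) ≠ 0 := by
    rw [Subgroup.relIndex_sup_right]
    exact relIndex_units L p hp.pos
  have h2 : P.relIndex (W0 L p) ≠ 0 :=
    Subgroup.relIndex_ne_zero_trans (Subgroup.relIndex_ne_zero_trans h1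
      (relIndex_W1 L p hp.pos)) (relIndex_W0 L p hp hS)
  have hfi : (P.subgroupOf (W0 L p)).FiniteIndex := ⟨h2⟩
  have hfin : Finite (W0 L p ⧸ P.subgroupOf (W0 L p)) := inferInstance
  refine ⟨Set.range fun q : W0 L p ⧸ P.subgroupOf (W0 L p) => (q.out : Lˣ),
    Set.finite_range _, ?_⟩
  intro x hx hv
  let X : W0 L p := ⟨Units.mk0 x hx, fun v hvp => (vmod_eq_one_iff L).2 (hv v hvp)⟩
  refine ⟨_, ⟨QuotientGroup.mk X, rfl⟩, ?_⟩
  obtain ⟨w, hw⟩ := QuotientGroup.mk_out_eq_mul (P.subgroupOf (W0 L p)) X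
  obtain ⟨t, ht⟩ := Subgroup.mem_subgroupOf.1 w.2
  refine ⟨((t⁻¹ : Lˣ) : L), (t⁻¹ : Lˣ).ne_zero, ?_⟩
  have h3 : ((QuotientGroup.mk X : W0 L p ⧸ P.subgroupOf (W0 L p)).out : Lˣ) =
      Units.mk0 x hx * t ^ p := by
    rw [hw]
    push_cast
    congr 1
    rw [← ht]
    rfl
  show x = (((QuotientGroup.mk X : W0 L p ⧸ P.subgroupOf (W0 L p)).out : Lˣ) : L) *
    ((t⁻¹ : Lˣ) : L) ^ p
  rw [h3]
  push_cast
  simp only [Units.val_mk0]
  rw [inv_pow, mul_assoc, mul_inv_cancel₀ (pow_ne_zero _ t.ne_zero), mul_one]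

end Vale.Agent.P024.T3
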