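import Vale.Agent.P024.H644.T1
import Vale.Agent.P024.H644.T4

/-!
There are only finitely many characters of order `p` unramified outside `p`.
-/

namespace Vale.Agent.P024.T3

open scoped NumberField
open IsDedekindDomain NumberField
open Vale.Agent.P024.TR

section

variable {Ω : Type*} [Field Ω] [CharZero Ω]

/-- The characters which are trivial on an open subgroup and unramified outside `p`. -/
structure Adm (p : ℕ) (H : Subgroup (Ω ≃ₐ[ℚ] Ω)) (th : H →* Ωˣ) : Prop where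
  opn : ∃ U : Subgroup (Ω ≃ₐ[ℚ] Ω), IsOpen (U : Set (Ω ≃ₐ[ℚ] Ω)) ∧
    ∀ h : H, (h : Ω ≃ₐ[ℚ] Ω) ∈ U → th h = 1
  inert : ∀ V : ValuationSubring Ω, V ≠ ⊤ → (p : Ω) ∉ V.nonunits → ∀ t : H,
    Stab V (t : Ω ≃ₐ[ℚ] Ω) → ActsPow V (t : Ω ≃ₐ[ℚ] Ω) 1 → th t = 1

theorem Adm.one (p : ℕ) (H : Subgroup (Ω ≃ₐ[ℚ] Ω)) : Adm p H (1 : H →* Ωˣ) :=
  ⟨⟨⊤, isOpen_univ, fun _ _ => rfl⟩, fun _ _ _ _ _ _ => rfl⟩

theorem Adm.mul {p : ℕ} {H : Subgroup (Ω ≃ₐ[ℚ] Ω)} {a b : H →* Ωˣ} (ha : Adm p H a)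
    (hb : Adm p H b) : Adm p H (a * b) := by
  obtain ⟨U, hU, hU'⟩ := ha.opn
  obtain ⟨W, hW, hW'⟩ := hb.opn
  refine ⟨⟨U ⊓ W, hU.inter hW, fun h hh => ?_⟩, fun V hV hp t ht ht1 => ?_⟩
  · rw [MonoidHom.mul_apply, hU' h hh.1, hW' h hh.2, one_mul]
  · rw [MonoidHom.mul_apply, ha.inert V hV hp t ht ht1, hb.inert V hV hp t ht ht1, one_mul]

theorem Adm.inv {p : ℕ} {H : Subgroup (Ω ≃ₐ[ℚ] Ω)} {a : H →* Ωˣ} (ha : Adm p H a) :
    Adm p H a⁻¹ := by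
  obtain ⟨U, hU, hU'⟩ := ha.opn
  refine ⟨⟨U, hU, fun h hh => ?_⟩, fun V hV hp t ht ht1 => ?_⟩
  · rw [MonoidHom.inv_apply, hU' h hh, inv_one]
  · rw [MonoidHom.inv_apply, ha.inert V hV hp t ht ht1, inv_one]

/-- There are only finitely many admissible characters of order `p`. -/
theorem adm_finite [IsGalois ℚ Ω] (hroot : ∀ m : ℕ, 0 < m → ∃ z : Ω, IsPrimitiveRoot z m)
    (hpow : ∀ m : ℕ, 0 < m → ∀ x : Ω, ∃ y : Ω, y ^ m = x) {p : ℕ} (hp : p.Prime)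
    (H : Subgroup (Ω ≃ₐ[ℚ] Ω)) (hH : IsOpen (H : Set (Ω ≃ₐ[ℚ] Ω))) :
    {th : H →* Ωˣ | Adm p H th ∧ th ^ p = 1}.Finite := by
  classical
  have halg : Algebra.IsAlgebraic ℚ Ω := Normal.toIsAlgebraic
  obtain ⟨ζ, hζ⟩ := hroot p hp.pos
  have hζ0 := hζ.ne_zero hp.ne_zero
  let W : Subgroup (Ω ≃ₐ[ℚ] Ω) := H ⊓ MulAction.stabilizer (Ω ≃ₐ[ℚ] Ω) ζ
  have hW : IsOpen (W : Set (Ω ≃ₐ[ℚ] Ω)) :=
    hH.inter (stabilizer_isOpen_of_isIntegral (K := ℚ) (L := Ω) ζ)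
  have hWH : W ≤ H := inf_le_left
  obtain ⟨hfd, hfix⟩ := finiteDimensional_fixedField W hW
  set L := IntermediateField.fixedField W with hL
  have hNF : NumberField L := NumberField.of_module_finite ℚ L
  have hLW : ∀ g : Ω ≃ₐ[ℚ] Ω, (∀ x ∈ L, g x = x) → g ∈ W := by
    intro g hg
    rw [← hfix, IntermediateField.mem_fixingSubgroup_iff]
    exact hg
  have hWL : ∀ g ∈ W, ∀ x ∈ L, g x = x := fun g hg x hx =>
    (IntermediateField.mem_fixedField_iff W x).1 hx g hg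
  have hζL : ζ ∈ L := by
    rw [hL, IntermediateField.mem_fixedField_iff]
    intro g hg
    exact hg.2
  obtain ⟨Φ, hΦ, hΦ'⟩ := finite_sel L p hp (finite_above L hp.ne_zero)
  choose r hr using fun φ : Lˣ => hpow p hp.pos ((φ : L) : Ω)
  have hroots : ∀ (th : H →* Ωˣ), th ^ p = 1 → ∀ h : H, (th h : Ω) ^ p = 1 := by
    intro th h1 h
    rw [← Units.val_pow_eq_pow_val, ← MonoidHom.pow_apply, h1, MonoidHom.one_apply, Units.val_one]
  have hmu : ∀ x : Ω, x ^ p = 1 → ∃ e : ℕ, x = ζ ^ e := by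
    intro x hx
    have : NeZero p := ⟨hp.ne_zero⟩
    obtain ⟨i, -, hi⟩ := hζ.eq_pow_of_pow_eq_one hx
    exact ⟨i, hi.symm⟩
  have key : ∀ th : H →* Ωˣ, Adm p H th → th ^ p = 1 → ∃ φ ∈ Φ, ∀ g (hg : g ∈ W),
      (th ⟨g, hWH hg⟩ : Ω) = g (r φ) / r φ := by
    intro th hth h1
    obtain ⟨U, hU, hU'⟩ := hth.opn
    let f : (Ω ≃ₐ[ℚ] Ω) → Ω := fun g => if hg : g ∈ H then (th ⟨g, hg⟩ : Ω) else 1
    have hf : ∀ g (hg : g ∈ H), f g = (th ⟨g, hg⟩ : Ω) := fun g hg => dif_pos hg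
    obtain ⟨b, hb0, hb⟩ := hilbert90 W (U ⊓ W) (hU.inter hW) inf_le_right f
      (fun g hg => by rw [hf g (hWH hg)]; exact (th ⟨g, hWH hg⟩).ne_zero)
      (fun g hg h hh => by
        rw [hf g (hWH hg), hf h (hWH hh), hf _ (H.mul_mem (hWH hg) (hWH hh))]
        obtain ⟨e, he⟩ := hmu _ (hroots th h1 ⟨h, hWH hh⟩)
        have h2 : g ζ = ζ := hg.2
        rw [he, map_pow, h2, ← he, mul_comm, ← Units.val_mul, ← map_mul]
        rfl)
      (fun w hw => by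
        rw [hf w (hWH hw.2), hU' _ hw.1, Units.val_one])
    have hb' : ∀ g (hg : g ∈ W), g b = (th ⟨g, hWH hg⟩ : Ω) * b := by
      intro g hg
      rw [hb g hg, hf g (hWH hg)]
    have hyL : b ^ p ∈ L := by
      rw [hL, IntermediateField.mem_fixedField_iff]
      intro g hg
      rw [map_pow, hb' g hg, mul_pow, hroots th h1, one_mul]
    have hy0 : (⟨b ^ p, hyL⟩ : L) ≠ 0 := by
      intro h0
      exact pow_ne_zero p hb0 (congrArg Subtype.val h0)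
    obtain ⟨φ, hφ, z, hz, hyz⟩ := hΦ' ⟨b ^ p, hyL⟩ hy0 (by
      intro v hv
      have h2 := dvd_of_inertia_fix hroot hpow L hp hζ hζL v hv 1 ⟨b ^ p, hyL⟩ hy0 b
        (by rw [pow_one]) (by
          intro O hO hOv t htL ht ht1 _
          have htW := hLW t htL
          have hpO : (p : Ω) ∉ O.nonunits := by
            intro h3
            apply hv
            rw [hOv]
            simpa using h3
          rw [hb' t htW, hth.inert O hO hpO ⟨t, hWH htW⟩ ht ht1, Units.val_one, one_mul])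
      simpa using h2)
    refine ⟨φ, hφ, fun g hg => ?_⟩
    have hyz' : b ^ p = ((φ : L) : Ω) * (z : Ω) ^ p := congrArg Subtype.val hyz
    have hr0 : r φ ≠ 0 := by
      intro h0
      have h2 := hr φ
      rw [h0, zero_pow hp.ne_zero] at h2
      have h3 : ((φ : L) : Ω) ≠ 0 := by simp
      exact h3 h2.symm
    have hzΩ : (z : Ω) ≠ 0 := by simpa using hz
    obtain ⟨e, he⟩ := exists_exp hp.pos hζ (b := b) (c := r φ * z) (mul_ne_zero hr0 hzΩ)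
      (by rw [mul_pow, hr, hyz'])
    have h2 := hb' g hg
    rw [he, map_mul, map_mul, map_pow, hWL g hg z z.2] at h2
    have h3 : g ζ = ζ := hg.2
    rw [h3] at h2
    have h4 : ζ ^ e ≠ 0 := pow_ne_zero _ hζ0
    rw [eq_div_iff hr0]
    have h5 : (ζ ^ e * (z : Ω)) * ((th ⟨g, hWH hg⟩ : Ω) * r φ) = (ζ ^ e * (z : Ω)) * g (r φ) := by
      linear_combination -h2
    exact mul_left_cancel₀ (mul_ne_zero h4 hzΩ) h5
  choose! F hF using key
  refine Set.Finite.of_finite_image (f := F) (hΦ.subset ?_) ?_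
  · rintro _ ⟨th, ⟨h1, h2⟩, rfl⟩
    exact (hF th h1 h2).1
  · rintro a ⟨ha, ha'⟩ b ⟨hb, hb'⟩ hab
    ext h
    obtain ⟨k, hk⟩ := exists_exp_root (h : Ω ≃ₐ[ℚ] Ω) hp.pos hζ
    have hkp : k.Coprime p := by
      rw [← hζ.pow_iff_coprime hp.pos, ← hk]
      exact hζ.map_of_injective (h : Ω ≃ₐ[ℚ] Ω).injective
    have hpowk : ∀ n : ℕ, ((h : Ω ≃ₐ[ℚ] Ω) ^ n) ζ = ζ ^ (k ^ n) := by
      intro n
      induction n with
      | zero => simp
      | succ n ih =>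
        rw [pow_succ', AlgEquiv.mul_apply, ih, map_pow, hk, ← pow_mul, pow_succ']
    have hhW : (h : Ω ≃ₐ[ℚ] Ω) ^ (p - 1) ∈ W := by
      refine ⟨H.pow_mem h.2 _, ?_⟩
      show ((h : Ω ≃ₐ[ℚ] Ω) ^ (p - 1)) ζ = ζ
      rw [hpowk]
      have h1 : k ^ (p - 1) ≡ 1 [MOD p] := by
        have := Nat.ModEq.pow_totient hkp
        rwa [Nat.totient_prime hp] at this
      conv_rhs => rw [← pow_one ζ]
      exact (rootPow_eq_iff_modEq hζ _ _ hp.pos).2 h1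
    have h1 := (hF a ha ha').2 _ hhW
    have h2 := (hF b hb hb').2 _ hhW
    rw [hab, ← h2] at h1
    have h3 : a h ^ (p - 1) = b h ^ (p - 1) := by
      rw [← map_pow, ← map_pow]
      exact Units.ext h1
    have h4 : ∀ c : H →* Ωˣ, c ^ p = 1 → c h = (c h ^ (p - 1))⁻¹ := by
      intro c hc
      rw [eq_inv_iff_mul_eq_one, ← pow_succ', Nat.sub_add_cancel hp.one_lt.le,
        ← MonoidHom.pow_apply, hc, MonoidHom.one_apply]
    rw [h4 a ha', h4 b hb', h3]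

end

end Vale.Agent.P024.T3
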