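import Mathlib

/-!
Von Neumann regularity of rational group rings, and the primes at which an open subgroup has a
small cyclotomic image.
-/

namespace Vale.Agent.P024.T3

open MonoidAlgebra

theorem reg {G : Type*} [Group G] [Finite G] (y : MonoidAlgebra ℤ G) :
    ∃ (y' : MonoidAlgebra ℤ G) (m : ℤ), 0 < m ∧ y * y' * y = m • y := by
  classical
  set f := MonoidAlgebra.mapRingHom G (Int.castRingHom ℚ) with hf
  have hfi : Function.Injective f := by
    intro a b hab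
    apply MonoidAlgebra.ext
    ext g
    have h1 := congrArg (fun t : MonoidAlgebra ℚ G => t.coeff g) hab
    simp only [hf, MonoidAlgebra.coeff_mapRingHom, eq_intCast] at h1
    exact_mod_cast h1
  have : NeZero (Nat.card G : ℚ) := ⟨by exact_mod_cast Nat.card_pos.ne'⟩
  obtain ⟨e, he, hI⟩ := IsSemisimpleRing.ideal_eq_span_idempotent
    (Ideal.span {f y} : Ideal (MonoidAlgebra ℚ G))
  have h1 : f y ∈ (Ideal.span {e} : Ideal (MonoidAlgebra ℚ G)) := by
    rw [← hI]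
    exact Ideal.subset_span rfl
  have h2 : e ∈ (Ideal.span {f y} : Ideal (MonoidAlgebra ℚ G)) := by
    rw [hI]
    exact Ideal.subset_span rfl
  obtain ⟨r, hr⟩ := Ideal.mem_span_singleton'.1 h1
  obtain ⟨s, hs⟩ := Ideal.mem_span_singleton'.1 h2
  have h3 : f y * s * f y = f y := by
    rw [mul_assoc, hs, ← hr, mul_assoc, he]
  -- denominators
  set m : ℕ := ∏ g ∈ s.coeff.support, (s.coeff g).den with hm
  have hm0 : 0 < m := Finset.prod_pos fun g _ => (s.coeff g).den_pos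
  have hint : ∀ g, ((((m : ℚ) * s.coeff g).num : ℤ) : ℚ) = (m : ℚ) * s.coeff g := by
    intro g
    by_cases hg : g ∈ s.coeff.support
    · obtain ⟨d, hd⟩ := Finset.dvd_prod_of_mem (fun g => (s.coeff g).den) hg
      have h4 : (m : ℚ) * s.coeff g = ((d * (s.coeff g).num : ℤ) : ℚ) := by
        rw [hm, hd]
        push_cast
        conv_lhs => rw [mul_right_comm, Rat.den_mul_eq_num]
        ring
      rw [h4, Rat.num_intCast]
    · rw [Finsupp.notMem_support_iff.1 hg]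
      simp
  let y' : MonoidAlgebra ℤ G := MonoidAlgebra.ofCoeff
    (Finsupp.mapRange (fun q : ℚ => ((m : ℚ) * q).num) (by simp) s.coeff)
  have h5 : f y' = (m : ℤ) • s := by
    apply MonoidAlgebra.ext
    ext g
    have h6 : (f y').coeff g = ((y'.coeff g : ℤ) : ℚ) := by
      rw [hf, MonoidAlgebra.coeff_mapRingHom]
      rfl
    rw [h6]
    show (((Finsupp.mapRange (fun q : ℚ => ((m : ℚ) * q).num) (by simp) s.coeff g : ℤ)) : ℚ) = _
    rw [Finsupp.mapRange_apply, hint, MonoidAlgebra.coeff_smul, Finsupp.smul_apply, zsmul_eq_mul,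
      Int.cast_natCast]
  refine ⟨y', m, by exact_mod_cast hm0, hfi ?_⟩
  rw [map_mul, map_mul, h5, map_zsmul, mul_smul_comm, smul_mul_assoc, h3]

theorem pow_eq_of_modEq {E : Type*} [Field E] {N : ℕ} {ζ : E} (hζ : IsPrimitiveRoot ζ N)
    {a b : ℕ} (h : a ≡ b [MOD N]) : ζ ^ a = ζ ^ b := by
  rw [← Nat.mod_add_div a N, ← Nat.mod_add_div b N, pow_add, pow_add, pow_mul ζ N, pow_mul ζ N,
    hζ.pow_eq_one, one_pow, one_pow, mul_one, mul_one]
  rw [show a % N = b % N from h]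

section

variable {E : Type*} [Field E] [CharZero E] [IsGalois ℚ E]

theorem exists_aut {N : ℕ} (hN : 0 < N) {ζ : E} (hζ : IsPrimitiveRoot ζ N) {a : ℕ}
    (ha : a.Coprime N) : ∃ σ : E ≃ₐ[ℚ] E, σ ζ = ζ ^ a := by
  have h1 : IsConjRoot ℚ (ζ ^ a) ζ := by
    have h2 := Polynomial.cyclotomic_eq_minpoly_rat hζ hN
    have h3 := Polynomial.cyclotomic_eq_minpoly_rat (hζ.pow_of_coprime a ha) hN
    rw [IsConjRoot, ← h2, ← h3]
  obtain ⟨σ, hσ⟩ := isConjRoot_iff_exists_algEquiv.1 h1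
  exact ⟨σ, hσ⟩

/-- For almost all `p` an open subgroup has full cyclotomic image at `p`. -/
theorem bad_finite (hroot : ∀ m : ℕ, 0 < m → ∃ z : E, IsPrimitiveRoot z m)
    (V : Subgroup (E ≃ₐ[ℚ] E)) [hV : V.Normal] (hVf : V.FiniteIndex) :
    {p : ℕ | p.Prime ∧ ∃ (n : ℕ) (ζ : E), IsPrimitiveRoot ζ (p ^ n) ∧ ∃ a : ℕ, a.Coprime p ∧
      ∀ σ ∈ V, σ ζ ≠ ζ ^ a}.Finite := by
  classical
  set S := {p : ℕ | p.Prime ∧ ∃ (n : ℕ) (ζ : E), IsPrimitiveRoot ζ (p ^ n) ∧ ∃ a : ℕ,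
    a.Coprime p ∧ ∀ σ ∈ V, σ ζ ≠ ζ ^ a} with hS
  choose hp n ζ hζ a ha hσ using fun p : S => p.2
  let st : S → Subgroup (E ≃ₐ[ℚ] E) := fun p => MulAction.stabilizer (E ≃ₐ[ℚ] E) (ζ p)
  have hfinQ : Finite ((E ≃ₐ[ℚ] E) ⧸ V) := inferInstance
  let f : S → Subgroup ((E ≃ₐ[ℚ] E) ⧸ V) := fun p => (st p).map (QuotientGroup.mk' V)
  have hne : ∀ p, f p ≠ ⊤ := by
    intro p htop
    obtain ⟨τ, hτ⟩ := exists_aut (pow_pos (hp p).pos (n p)) (hζ p)
      (a := a p) (Nat.Coprime.pow_right _ (ha p))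
    have h1 : (QuotientGroup.mk' V) τ ∈ f p := by rw [htop]; exact Subgroup.mem_top _
    obtain ⟨s, hs, hs'⟩ := h1
    have h2 : τ * s⁻¹ ∈ V := by
      have h3 : s⁻¹ * τ ∈ V := QuotientGroup.eq.1 hs'
      have h4 := hV.conj_mem _ h3 s
      simpa [mul_assoc] using h4
    refine hσ p _ h2 ?_
    have h5 : s⁻¹ (ζ p) = ζ p := (MulAction.stabilizer (E ≃ₐ[ℚ] E) (ζ p)).inv_mem hs
    rw [AlgEquiv.mul_apply, h5, hτ]
  have hinj : Function.Injective f := by
    intro p q hpq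
    by_contra hne'
    have hpq' : (p : ℕ) ≠ q := fun h => hne' (Subtype.ext h)
    have hco : ((p : ℕ) ^ n p).Coprime ((q : ℕ) ^ n q) :=
      Nat.Coprime.pow _ _ ((Nat.coprime_primes (hp p) (hp q)).2 hpq')
    apply hne p
    rw [eq_top_iff]
    rintro x -
    obtain ⟨τ, rfl⟩ := QuotientGroup.mk'_surjective V x
    -- the exponent of `τ` at `q`
    have hNq := pow_pos (hp q).pos (n q)
    have hNp := pow_pos (hp p).pos (n p)
    have hnz : NeZero ((q : ℕ) ^ n q) := ⟨hNq.ne'⟩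
    obtain ⟨b, -, hb⟩ := (hζ q).eq_pow_of_pow_eq_one (ξ := τ (ζ q)) (by
      rw [← map_pow, (hζ q).pow_eq_one, map_one])
    have hbc : b.Coprime ((q : ℕ) ^ n q) := by
      rw [← (hζ q).pow_iff_coprime hNq, hb]
      exact (hζ q).map_of_injective τ.injective
    obtain ⟨k, hk1, hk2⟩ := Nat.chineseRemainder hco 1 b
    have hkc : k.Coprime ((p : ℕ) ^ n p * (q : ℕ) ^ n q) := by
      refine Nat.Coprime.mul_right ?_ ?_
      · rw [Nat.Coprime, hk1.gcd_eq]
        simp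
      · rw [Nat.Coprime, hk2.gcd_eq]
        exact hbc
    obtain ⟨ξ, hξ⟩ := hroot ((p : ℕ) ^ n p * (q : ℕ) ^ n q) (Nat.mul_pos hNp hNq)
    obtain ⟨s, hs⟩ := exists_aut (Nat.mul_pos hNp hNq) hξ hkc
    have hact : ∀ z : E, z ^ ((p : ℕ) ^ n p * (q : ℕ) ^ n q) = 1 → s z = z ^ k := by
      intro z hz
      have : NeZero ((p : ℕ) ^ n p * (q : ℕ) ^ n q) := ⟨(Nat.mul_pos hNp hNq).ne'⟩
      obtain ⟨i, -, rfl⟩ := hξ.eq_pow_of_pow_eq_one hz
      rw [map_pow, hs, ← pow_mul, ← pow_mul, mul_comm]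
    have hs1 : s (ζ p) = ζ p := by
      rw [hact _ (by rw [pow_mul, (hζ p).pow_eq_one, one_pow])]
      conv_rhs => rw [← pow_one (ζ p)]
      exact pow_eq_of_modEq (hζ p) hk1
    have hs2 : s (ζ q) = τ (ζ q) := by
      rw [hact _ (by rw [mul_comm, pow_mul, (hζ q).pow_eq_one, one_pow]), ← hb]
      exact pow_eq_of_modEq (hζ q) hk2
    have h1 : (QuotientGroup.mk' V) s ∈ f p := ⟨s, hs1, rfl⟩
    have h2 : (QuotientGroup.mk' V) (s⁻¹ * τ) ∈ f p := by
      rw [hpq]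
      refine ⟨s⁻¹ * τ, ?_, rfl⟩
      show (s⁻¹ * τ) (ζ q) = ζ q
      rw [AlgEquiv.mul_apply, ← hs2, ← AlgEquiv.mul_apply, inv_mul_cancel, AlgEquiv.one_apply]
    have h3 := (f p).mul_mem h1 h2
    rwa [← map_mul, mul_inv_cancel_left] at h3
  have hfin : Finite S := Finite.of_injective f hinj
  exact hfin

end

end Vale.Agent.P024.T3
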