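import Vale.Agent.P024.H644.T5
import Vale.Agent.P024.H644.T6

/-!
The commutator characters of units.
-/

namespace Vale.Agent.P024.T3

open scoped NumberField
open IsDedekindDomain NumberField
open Vale.Agent.P024.TR

variable {E : Type*} [Field E] [CharZero E]

/-- The level `n`. -/
structure Lvl (V : Subgroup (E ≃ₐ[ℚ] E)) (p n : ℕ) (ζ : E) (a : ℕ) (S G₀ : E ≃ₐ[ℚ] E) : Prop where
  hp : p.Prime
  hζ : IsPrimitiveRoot ζ (p ^ n)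
  hSζ : S ζ = ζ
  hG : G₀ ∈ V
  hGζ : G₀ ζ = ζ ^ a
  gen : ∀ h ∈ V, ∃ i : ℕ, h ζ = ζ ^ (a ^ i)

/-- The elements of `V` which fix `ζ`. -/
def WW (V : Subgroup (E ≃ₐ[ℚ] E)) (ζ : E) : Subgroup (E ≃ₐ[ℚ] E) :=
  V ⊓ MulAction.stabilizer (E ≃ₐ[ℚ] E) ζ

theorem mem_WW {V : Subgroup (E ≃ₐ[ℚ] E)} {ζ : E} {w : E ≃ₐ[ℚ] E} :
    w ∈ WW V ζ ↔ w ∈ V ∧ w ζ = ζ := Iff.rfl

theorem fix_conj {N : ℕ} (hN : 0 < N) {ζ : E} (hζ : IsPrimitiveRoot ζ N) {w : E ≃ₐ[ℚ] E}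
    (hw : w ζ = ζ) (g : E ≃ₐ[ℚ] E) : (g * w * g⁻¹) ζ = ζ := by
  obtain ⟨k, hk⟩ := exists_exp_root g⁻¹ hN hζ
  have h1 : g (ζ ^ k) = ζ := by
    rw [← hk, ← AlgEquiv.mul_apply, mul_inv_cancel, AlgEquiv.one_apply]
  rw [AlgEquiv.mul_apply, AlgEquiv.mul_apply, hk, map_pow w, hw, h1]

theorem conj_WW {V : Subgroup (E ≃ₐ[ℚ] E)} [hV : V.Normal] {N : ℕ} (hN : 0 < N) {ζ : E}
    (hζ : IsPrimitiveRoot ζ N) {w : E ≃ₐ[ℚ] E} (hw : w ∈ WW V ζ) (g : E ≃ₐ[ℚ] E) :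
    g * w * g⁻¹ ∈ WW V ζ :=
  ⟨hV.conj_mem w hw.1 g, fix_conj hN hζ hw.2 g⟩

theorem inv_fix {ζ : E} {S : E ≃ₐ[ℚ] E} (hS : S ζ = ζ) : S⁻¹ ζ = ζ := by
  conv_lhs => rw [← hS]
  rw [← AlgEquiv.mul_apply, inv_mul_cancel, AlgEquiv.one_apply]

variable {V : Subgroup (E ≃ₐ[ℚ] E)} [hV : V.Normal] {p n : ℕ} {ζ : E} {a : ℕ}
  {S G₀ : E ≃ₐ[ℚ] E}

omit hV in
theorem gen_pow (L : Lvl V p n ζ a S G₀) (i : ℕ) : (G₀ ^ i) ζ = ζ ^ (a ^ i) := by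
  induction i with
  | zero => simp
  | succ i ih => rw [pow_succ', AlgEquiv.mul_apply, ih, map_pow, L.hGζ, ← pow_mul, pow_succ']

theorem gen_act (L : Lvl V p n ζ a S G₀) {N : ℕ} {u z : E}
    (hz : z ≠ 0) (hzW : ∀ w ∈ WW V ζ, w z = z) (hGu : G₀ u = u ^ a * z ^ N) (i : ℕ) :
    ∃ z : E, z ≠ 0 ∧ (∀ w ∈ WW V ζ, w z = z) ∧ (G₀ ^ i) u = u ^ (a ^ i) * z ^ N := by
  have hN := pow_pos L.hp.pos n
  induction i with
  | zero => exact ⟨1, one_ne_zero, fun w _ => map_one w, by simp⟩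
  | succ i ih =>
    obtain ⟨t, ht, htW, hti⟩ := ih
    refine ⟨z ^ (a ^ i) * G₀ t, mul_ne_zero (pow_ne_zero _ hz) (by rwa [map_ne_zero]), ?_, ?_⟩
    · intro w hw
      rw [map_mul, map_pow, hzW w hw]
      congr 1
      have h1 := htW _ (conj_WW hN L.hζ hw G₀⁻¹)
      rw [inv_inv, AlgEquiv.mul_apply, AlgEquiv.mul_apply] at h1
      have h2 := congrArg G₀ h1
      rwa [← AlgEquiv.mul_apply, mul_inv_cancel, AlgEquiv.one_apply] at h2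
    · rw [pow_succ' G₀, AlgEquiv.mul_apply, hti, map_mul, map_pow, map_pow, hGu, mul_pow, mul_pow,
        ← pow_mul, ← pow_mul, ← pow_mul, pow_succ' a]
      ring

theorem mk_dat (L : Lvl V p n ζ a S G₀) {m : ℕ} (hmn : m ≤ n) {u y : E} (hu : u ≠ 0)
    (huW : ∀ w ∈ WW V ζ, w u = u) (hy : y ^ (p ^ m) = u)
    (htw : ∃ z : E, z ≠ 0 ∧ (∀ w ∈ WW V ζ, w z = z) ∧ G₀ u = u ^ a * z ^ (p ^ m))
    (hanti : ∃ z : E, z ≠ 0 ∧ (∀ w ∈ WW V ζ, w z = z) ∧ S u = u⁻¹ * z ^ (p ^ m)) :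
    Dat V (WW V ζ) S (p ^ m) (ζ ^ p ^ (n - m)) u y := by
  have hN := pow_pos L.hp.pos n
  refine ⟨pow_pos L.hp.pos m, ?_, inf_le_left, ?_, ?_, ?_, ?_, ?_, ?_, hu, huW, hy, ?_, hanti⟩
  · exact L.hζ.pow hN (by rw [← pow_add, Nat.sub_add_cancel hmn])
  · intro h _ w hw
    exact conj_WW hN L.hζ hw h
  · intro w hw
    exact conj_WW hN L.hζ hw S
  · intro w hw
    have := conj_WW hN L.hζ hw S⁻¹
    rwa [inv_inv] at this
  · intro h hh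
    refine ⟨?_, ?_⟩
    · have h1 := V.mul_mem hh (hV.conj_mem _ (V.inv_mem hh) S)
      have h2 : h * S * h⁻¹ * S⁻¹ = h * (S * h⁻¹ * S⁻¹) := by group
      rw [h2]
      exact h1
    · show (h * S * h⁻¹ * S⁻¹) ζ = ζ
      rw [AlgEquiv.mul_apply, inv_fix L.hSζ]
      exact fix_conj hN L.hζ L.hSζ h
  · rw [map_pow, L.hSζ]
  · intro w hw
    rw [map_pow, (mem_WW.1 hw).2]
  · intro h hh k hk
    obtain ⟨i, hi⟩ := L.gen h hh
    obtain ⟨z, hz, hzW, hGu⟩ := htw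
    obtain ⟨t, ht, htW, hti⟩ := gen_act L hz hzW hGu i
    have hw : (G₀ ^ i)⁻¹ * h ∈ WW V ζ := by
      refine ⟨V.mul_mem (V.inv_mem (V.pow_mem L.hG i)) hh, ?_⟩
      show ((G₀ ^ i)⁻¹ * h) ζ = ζ
      rw [AlgEquiv.mul_apply, hi, ← gen_pow L i, ← AlgEquiv.mul_apply, inv_mul_cancel,
        AlgEquiv.one_apply]
    have h1 : h u = (G₀ ^ i) u := by
      have h2 := congrArg (G₀ ^ i) (huW _ hw)
      rwa [← AlgEquiv.mul_apply, mul_inv_cancel_left] at h2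
    have hζm : IsPrimitiveRoot (ζ ^ p ^ (n - m)) (p ^ m) :=
      L.hζ.pow hN (by rw [← pow_add, Nat.sub_add_cancel hmn])
    have h2 : (ζ ^ p ^ (n - m)) ^ (a ^ i) = (ζ ^ p ^ (n - m)) ^ k := by
      rw [← hk, map_pow, hi, ← pow_mul, ← pow_mul, mul_comm]
    have h3 : ((a ^ i : ℕ) : ℤ) ≡ k [ZMOD ((p ^ m : ℕ) : ℤ)] := by
      have h4 := (hζm.zpow_eq_one_iff_dvd (((a ^ i : ℕ) : ℤ) - k)).1 (by
        rw [zpow_sub₀ (hζm.ne_zero (pow_pos L.hp.pos m).ne'), zpow_natCast, zpow_natCast, h2,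
          div_self (pow_ne_zero _ (hζm.ne_zero (pow_pos L.hp.pos m).ne'))])
      exact (Int.modEq_iff_dvd.2 h4).symm
    obtain ⟨e, he⟩ := (Int.modEq_iff_dvd.1 h3.symm)
    refine ⟨u ^ e * t, mul_ne_zero (zpow_ne_zero _ hu) ht, fun w hw => ?_, ?_⟩
    · rw [map_mul, map_zpow₀, huW w hw, htW w hw]
    · rw [h1, hti, mul_pow, ← mul_assoc]
      congr 1
      rw [← zpow_natCast, ← zpow_natCast u k, ← zpow_natCast (u ^ e), ← zpow_mul, ← zpow_add₀ hu]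
      congr 1
      push_cast at he ⊢
      linarith

omit hV in
/-- the character of a unit is unramified outside `p` -/
theorem adm_ch [IsGalois ℚ E] (hroot : ∀ m : ℕ, 0 < m → ∃ z : E, IsPrimitiveRoot z m)
    (L : Lvl V p n ζ a S G₀) {m : ℕ} {ζ' u y : E}
    (D : Dat V (WW V ζ) S (p ^ m) ζ' u y)
    (hval : ∀ O : ValuationSubring E, O.valuation u = 1) : Adm p V D.ch := by
  have halg : Algebra.IsAlgebraic ℚ E := Normal.toIsAlgebraic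
  refine ⟨D.ch_open, ?_⟩
  intro O hO hpO t ht ht1
  have hpk : ∀ k : ℕ, ((p ^ k : ℕ) : E) ∉ O.nonunits := by
    intro k h
    rw [ValuationSubring.mem_nonunits_iff, Nat.cast_pow, map_pow] at h
    rw [ValuationSubring.mem_nonunits_iff, not_lt] at hpO
    exact absurd h (not_lt.2 (one_le_pow₀ hpO))
  have hfix : ∀ (k : ℕ) (z : E), z ^ (p ^ k) = 1 → (t : E ≃ₐ[ℚ] E) z = z := by
    intro k z hz
    have := acts_on_root O (t : E ≃ₐ[ℚ] E) 1 ht1 (p ^ k) (hpk k) z hz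
    rwa [pow_one] at this
  have htW : (t : E ≃ₐ[ℚ] E) ∈ WW V ζ := ⟨t.2, hfix n ζ L.hζ.pow_eq_one⟩
  have hyv : O.valuation y = 1 := by
    have h1 : O.valuation y ^ (p ^ m) = 1 := by rw [← map_pow, D.hy, hval]
    exact (pow_eq_one_iff_of_nonneg zero_le (pow_pos L.hp.pos m).ne').1 h1
  have hty : (t : E ≃ₐ[ℚ] E) y = y :=
    fix_root_of_unit O hO L.hp hpO (fun k => hroot _ (pow_pos L.hp.pos k)) (t : E ≃ₐ[ℚ] E) ht hfix
      m y hyv (by rw [D.hy, D.huW _ htW])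
  have h1 := D.ch_res _ htW
  rw [hty, div_self D.y_ne, one_pow] at h1
  exact Units.ext (by rw [Units.val_one, ← h1])

end Vale.Agent.P024.T3
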