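import Vale.Agent.P024.H644.T7
import Vale.Agent.P024.H644.T3
import Vale.Agent.P024.M4.Spec

/-!
The action of the group ring on characters.
-/

namespace Vale.Agent.P024.T3

open scoped NumberField
open IsDedekindDomain NumberField
open Vale.Agent.P024.TR

section

variable {Γ A : Type*} [Group Γ] [CommGroup A] {V : Subgroup Γ} [hV : V.Normal]

/-- `(s θ)(y) = θ(s⁻¹ y s)`. -/
def cj (s : Γ) : (V →* A) →* (V →* A) where
  toFun θ := θ.comp (MulAut.conjNormal s⁻¹ : V ≃* V).toMonoidHom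
  map_one' := by ext; rfl
  map_mul' a b := by ext; rfl

theorem cj_apply (s : Γ) (θ : V →* A) (y : V) (h : s⁻¹ * y * s ∈ V) :
    cj s θ y = θ ⟨s⁻¹ * y * s, h⟩ := by
  show θ (MulAut.conjNormal s⁻¹ y) = _
  congr 1
  apply Subtype.ext
  rw [MulAut.conjNormal_apply, inv_inv]

theorem mem_cj (s : Γ) (y : V) : s⁻¹ * y * s ∈ V := by
  have := hV.conj_mem y y.2 s⁻¹
  rwa [inv_inv] at this

theorem cj_eq (s t : Γ) (hst : s⁻¹ * t ∈ V) (θ : V →* A) : cj s θ = cj t θ := by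
  ext y
  rw [cj_apply s θ y (mem_cj s y), cj_apply t θ y (mem_cj t y)]
  have h1 : (⟨t⁻¹ * y * t, mem_cj t y⟩ : V) =
      (⟨s⁻¹ * t, hst⟩ : V)⁻¹ * ⟨s⁻¹ * y * s, mem_cj s y⟩ * ⟨s⁻¹ * t, hst⟩ := by
    apply Subtype.ext
    show t⁻¹ * (y : Γ) * t = (s⁻¹ * t)⁻¹ * (s⁻¹ * y * s) * (s⁻¹ * t)
    group
  rw [h1, map_mul, map_mul, map_inv, mul_right_comm, inv_mul_cancel, one_mul]

/-- The action of the group ring. -/
noncomputable def actH [Fintype (Γ ⧸ V)] (Y : MonoidAlgebra ℤ (Γ ⧸ V)) : (V →* A) →* (V →* A) where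
  toFun θ := ∏ q : Γ ⧸ V, (cj q.out θ) ^ (Y.coeff q)
  map_one' := by simp
  map_mul' a b := by
    simp only [map_mul, mul_zpow, Finset.prod_mul_distrib]

theorem actH_apply [Fintype (Γ ⧸ V)] (Y : MonoidAlgebra ℤ (Γ ⧸ V)) (θ : V →* A) (y : V) :
    actH Y θ y = ∏ q : Γ ⧸ V, θ ⟨q.out⁻¹ * y * q.out, mem_cj q.out y⟩ ^ (Y.coeff q) := by
  show (∏ q : Γ ⧸ V, (cj q.out θ) ^ (Y.coeff q)) y = _
  rw [MonoidHom.finsetProd_apply]
  refine Finset.prod_congr rfl fun q _ => ?_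
  rw [← cj_apply q.out θ y (mem_cj q.out y)]
  rfl

theorem act_eq [Fintype (Γ ⧸ V)] (Y : MonoidAlgebra ℤ (Γ ⧸ V)) (θ : V →* A) (y : V) :
    M4.act Y θ y = actH Y θ y := by
  rw [actH_apply]
  exact finprod_eq_prod_of_fintype _

/-- one element for all characters -/
theorem exists_elt [Fintype (Γ ⧸ V)] (Y : MonoidAlgebra ℤ (Γ ⧸ V)) (y : V) :
    ∃ P : V, Abelianization.of P = ∏ q : Γ ⧸ V,
      (Abelianization.of (⟨q.out⁻¹ * y * q.out, mem_cj q.out y⟩ : V)) ^ (Y.coeff q) :=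
  QuotientGroup.mk_surjective _

theorem elt_spec [Fintype (Γ ⧸ V)] (Y : MonoidAlgebra ℤ (Γ ⧸ V)) (y : V) {P : V}
    (hP : Abelianization.of P = ∏ q : Γ ⧸ V,
      (Abelianization.of (⟨q.out⁻¹ * y * q.out, mem_cj q.out y⟩ : V)) ^ (Y.coeff q))
    (θ : V →* A) : actH Y θ y = θ P := by
  have h1 : θ P = Abelianization.lift θ (Abelianization.of P) :=
    (Abelianization.lift_apply_of θ P).symm
  rw [h1, hP, map_prod, actH_apply]
  refine Finset.prod_congr rfl fun q _ => ?_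
  rw [map_zpow, Abelianization.lift_apply_of]

end

variable {E : Type*} [Field E] [CharZero E]

section generic

variable {A : Type*} [CommGroup A]

/-- The characters which are trivial on an open subgroup and unramified outside `p`. -/
structure Ad (p : ℕ) (V : Subgroup (E ≃ₐ[ℚ] E)) (th : V →* A) : Prop where
  opn : ∃ U : Subgroup (E ≃ₐ[ℚ] E), IsOpen (U : Set (E ≃ₐ[ℚ] E)) ∧
    ∀ h : V, (h : E ≃ₐ[ℚ] E) ∈ U → th h = 1
  inert : M4.UnrOut p th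

theorem Ad.one (p : ℕ) (V : Subgroup (E ≃ₐ[ℚ] E)) : Ad p V (1 : V →* A) :=
  ⟨⟨⊤, isOpen_univ, fun _ _ => rfl⟩, fun _ _ _ _ _ _ => rfl⟩

theorem Ad.mul {p : ℕ} {V : Subgroup (E ≃ₐ[ℚ] E)} {a b : V →* A} (ha : Ad p V a)
    (hb : Ad p V b) : Ad p V (a * b) := by
  obtain ⟨U, hU, hU'⟩ := ha.opn
  obtain ⟨W, hW, hW'⟩ := hb.opn
  refine ⟨⟨U ⊓ W, hU.inter hW, fun h hh => ?_⟩, fun O hO hp t ht ht1 => ?_⟩
  · rw [MonoidHom.mul_apply, hU' h hh.1, hW' h hh.2, one_mul]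
  · rw [MonoidHom.mul_apply, ha.inert O hO hp t ht ht1, hb.inert O hO hp t ht ht1, one_mul]

theorem Ad.inv {p : ℕ} {V : Subgroup (E ≃ₐ[ℚ] E)} {a : V →* A} (ha : Ad p V a) :
    Ad p V a⁻¹ := by
  obtain ⟨U, hU, hU'⟩ := ha.opn
  refine ⟨⟨U, hU, fun h hh => ?_⟩, fun O hO hp t ht ht1 => ?_⟩
  · rw [MonoidHom.inv_apply, hU' h hh, inv_one]
  · rw [MonoidHom.inv_apply, ha.inert O hO hp t ht ht1, inv_one]

theorem Ad.pow {p : ℕ} {V : Subgroup (E ≃ₐ[ℚ] E)} {a : V →* A} (ha : Ad p V a) (k : ℕ) :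
    Ad p V (a ^ k) := by
  induction k with
  | zero => rw [pow_zero]; exact Ad.one p V
  | succ k ih => rw [pow_succ]; exact ih.mul ha

theorem Ad.zpow {p : ℕ} {V : Subgroup (E ≃ₐ[ℚ] E)} {a : V →* A} (ha : Ad p V a) (k : ℤ) :
    Ad p V (a ^ k) := by
  cases k with
  | ofNat k =>
    rw [Int.ofNat_eq_natCast, zpow_natCast]
    exact ha.pow k
  | negSucc k => rw [zpow_negSucc]; exact (ha.pow _).inv

theorem Ad.prod {ι : Type*} {p : ℕ} {V : Subgroup (E ≃ₐ[ℚ] E)} (s : Finset ι)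
    (f : ι → V →* A) (h : ∀ i ∈ s, Ad p V (f i)) : Ad p V (∏ i ∈ s, f i) := by
  classical
  induction s using Finset.induction_on with
  | empty => rw [Finset.prod_empty]; exact Ad.one p V
  | insert i s hi ih =>
    rw [Finset.prod_insert hi]
    exact (h i (Finset.mem_insert_self i s)).mul (ih fun j hj => h j (Finset.mem_insert_of_mem hj))

theorem Ad.cj {p : ℕ} {V : Subgroup (E ≃ₐ[ℚ] E)} [V.Normal] {a : V →* A} (ha : Ad p V a)
    (s : E ≃ₐ[ℚ] E) : Ad p V (cj s a) := by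
  obtain ⟨U, hU, hU'⟩ := ha.opn
  refine ⟨⟨U.comap (MulAut.conj s⁻¹).toMonoidHom, ?_, ?_⟩, ?_⟩
  · have hc : Continuous (fun x : E ≃ₐ[ℚ] E => s⁻¹ * x * s) := by fun_prop
    have h1 := hU.preimage hc
    convert h1 using 1
    ext x
    simp
  · intro h hh
    rw [cj_apply s a h (mem_cj s h)]
    apply hU'
    have h1 : s⁻¹ * (h : E ≃ₐ[ℚ] E) * s⁻¹⁻¹ ∈ U := hh
    rwa [inv_inv] at h1
  · intro O hO hpO t ht ht1
    rw [cj_apply s a t (mem_cj s t)]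
    refine ha.inert (conjO O s⁻¹) (conjO_ne_top hO s⁻¹) ?_ _ ?_ ?_
    · rw [nonunits_conjO, inv_inv, map_natCast]
      exact hpO
    · intro x
      rw [mem_conjO, mem_conjO, inv_inv, AlgEquiv.mul_apply, AlgEquiv.mul_apply,
        ← AlgEquiv.mul_apply s, mul_inv_cancel, AlgEquiv.one_apply]
      exact ht (s x)
    · intro x hx
      rw [mem_conjO, inv_inv] at hx
      rw [nonunits_conjO, inv_inv, pow_one, map_sub, AlgEquiv.mul_apply, AlgEquiv.mul_apply,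
        ← AlgEquiv.mul_apply s, mul_inv_cancel, AlgEquiv.one_apply]
      have h1 := ht1 (s x) hx
      rwa [pow_one] at h1

/-- The group of characters of `p`-power order unramified outside `p`. -/
def AG (A : Type*) [CommGroup A] (p : ℕ) (V : Subgroup (E ≃ₐ[ℚ] E)) : Subgroup (V →* A) where
  carrier := {θ | Ad p V θ ∧ ∃ k : ℕ, θ ^ p ^ k = 1}
  one_mem' := ⟨Ad.one p V, 0, one_pow _⟩
  mul_mem' := by
    rintro a b ⟨ha, k, hk⟩ ⟨hb, l, hl⟩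
    refine ⟨ha.mul hb, k + l, ?_⟩
    rw [mul_pow, pow_add, pow_mul, hk, one_pow, one_mul, mul_comm, pow_mul, hl, one_pow]
  inv_mem' := by
    rintro a ⟨ha, k, hk⟩
    exact ⟨ha.inv, k, by rw [inv_pow, hk, inv_one]⟩

theorem actH_mem {p : ℕ} {V : Subgroup (E ≃ₐ[ℚ] E)} [V.Normal] [Fintype ((E ≃ₐ[ℚ] E) ⧸ V)]
    (Y : MonoidAlgebra ℤ ((E ≃ₐ[ℚ] E) ⧸ V)) {θ : V →* A} (hθ : θ ∈ AG A p V) :
    actH Y θ ∈ AG A p V := by
  obtain ⟨h1, k, hk⟩ := hθ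
  refine ⟨Ad.prod _ _ fun q _ => (h1.cj q.out).zpow _, k, ?_⟩
  rw [← map_pow, hk, map_one]

/-- The endomorphism of the group of characters. -/
noncomputable def actA (A : Type*) [CommGroup A] (p : ℕ) {V : Subgroup (E ≃ₐ[ℚ] E)} [V.Normal]
    [Fintype ((E ≃ₐ[ℚ] E) ⧸ V)] (Y : MonoidAlgebra ℤ ((E ≃ₐ[ℚ] E) ⧸ V)) :
    AG A p V →* AG A p V where
  toFun θ := ⟨actH Y θ.1, actH_mem Y θ.2⟩
  map_one' := Subtype.ext (map_one _)
  map_mul' _ _ := Subtype.ext (map_mul _ _ _)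

/-- The limit step. -/
theorem exists_theta_aux (V : Subgroup (E ≃ₐ[ℚ] E)) [V.Normal]
    (Y : MonoidAlgebra ℤ ((E ≃ₐ[ℚ] E) ⧸ V)) (p : ℕ)
    [hp : Fact p.Prime] [Fintype ((E ≃ₐ[ℚ] E) ⧸ V)]
    (hfin : {a : V →* A | Ad p V a ∧ a ^ p = 1}.Finite)
    (hunb : ∀ B : ℕ, ∃ θ : V →* A, θ ∈ AG A p V ∧ actH Y θ ^ p ^ B ≠ 1) :
    ∃ Φ : ℕ → V →* A, Φ 0 = 1 ∧ (∀ n, Φ (n + 1) ^ p = Φ n) ∧ (∀ n, Ad p V (Φ n)) ∧
      ¬ ∃ m : ℕ, 0 < m ∧ ∀ n, actH Y (Φ n) ^ m = 1 := by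
  obtain ⟨Φ, h0, hs, n₀, hn₀⟩ := exists_seq (A := AG A p V) (p := p)
    (fun a => by
      obtain ⟨k, hk⟩ := a.2.2
      exact ⟨k, Subtype.ext hk⟩)
    (by
      refine Set.Finite.of_finite_image (f := Subtype.val) (hfin.subset ?_)
        Subtype.val_injective.injOn
      rintro _ ⟨a, ha, rfl⟩
      exact ⟨a.2.1, congrArg Subtype.val (show a ^ p = 1 from ha)⟩)
    (actA A p Y) (fun B => by
      obtain ⟨θ, hθ, hB⟩ := hunb B
      exact ⟨⟨θ, hθ⟩, fun h => hB (congrArg Subtype.val h)⟩)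
  refine ⟨fun n => (Φ n).1, congrArg Subtype.val h0, fun n => congrArg Subtype.val (hs n),
    fun n => (Φ n).2.1, ?_⟩
  rintro ⟨m, hm, key⟩
  obtain ⟨e, m', hm'', rfl⟩ := Nat.exists_eq_pow_mul_and_not_dvd hm.ne' p hp.out.ne_one
  apply hn₀
  have hstep : ∀ j, actA A p Y (Φ (n₀ + j)) ^ p ^ j = actA A p Y (Φ n₀) := by
    intro j
    induction j with
    | zero => simp
    | succ j ih =>
      rw [← ih, pow_succ' p j, pow_mul, ← map_pow (actA A p Y) (Φ (n₀ + (j + 1))) p,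
        ← add_assoc, hs]
  rw [← hstep e]
  set b := actA A p Y (Φ (n₀ + e)) ^ p ^ e with hb
  have h1 : b ^ m' = 1 := by
    rw [hb, ← pow_mul]
    exact Subtype.ext (key (n₀ + e))
  obtain ⟨k, hk⟩ := b.2.2
  have h2 : b ^ p ^ k = 1 := Subtype.ext hk
  have h3 : orderOf b ∣ m' := orderOf_dvd_of_pow_eq_one h1
  have h4 : orderOf b ∣ p ^ k := orderOf_dvd_of_pow_eq_one h2
  have h5 : m'.Coprime (p ^ k) :=
    Nat.Coprime.pow_right k ((Nat.Prime.coprime_iff_not_dvd hp.out).2 hm'').symm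
  exact orderOf_eq_one_iff.1 (Nat.eq_one_of_dvd_coprimes h5 h3 h4)

end generic

/-- The limit step. -/
theorem exists_theta [IsGalois ℚ E] (hroot : ∀ m : ℕ, 0 < m → ∃ z : E, IsPrimitiveRoot z m)
    (hpow : ∀ m : ℕ, 0 < m → ∀ x : E, ∃ y : E, y ^ m = x) (V : Subgroup (E ≃ₐ[ℚ] E)) [V.Normal]
    (hVo : IsOpen (V : Set (E ≃ₐ[ℚ] E))) (Y : MonoidAlgebra ℤ ((E ≃ₐ[ℚ] E) ⧸ V)) (p : ℕ)
    [hp : Fact p.Prime] [Fintype ((E ≃ₐ[ℚ] E) ⧸ V)]
    (hunb : ∀ B : ℕ, ∃ θ : V →* Eˣ, Adm p V θ ∧ (∃ k : ℕ, ∀ y, θ y ^ p ^ k = 1) ∧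
      ∃ y : V, actH Y θ y ^ p ^ B ≠ 1) :
    ∃ θ : V →* ℤ_[p]ˣ, Continuous θ ∧ M4.UnrOut p θ ∧
      ¬ ∃ m : ℕ, 0 < m ∧ ∀ y : V, M4.act Y θ y ^ m = 1 := by
  obtain ⟨Φ, h0, hs, hΦ, hinf⟩ := exists_theta_aux (A := Eˣ) V Y p
    ((adm_finite hroot hpow hp.out V hVo).subset (by
      rintro a ⟨ha, ha'⟩
      refine ⟨⟨ha.opn, ha.inert⟩, ?_⟩
      ext y
      have h1 := DFunLike.congr_fun ha' y
      exact congrArg Units.val h1))
    (fun B => by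
      obtain ⟨θ, h1, ⟨k, hk⟩, y, hy⟩ := hunb B
      refine ⟨θ, ⟨⟨h1.opn, h1.inert⟩, k, MonoidHom.ext hk⟩, fun h => hy ?_⟩
      exact DFunLike.congr_fun h y)
  obtain ⟨ψ, hψc, hψ⟩ := exists_char (p := p) (H := V) (hroot p hp.out.pos) (hpow p hp.out.pos)
    Φ h0 (fun n => MonoidHom.ext fun y => DFunLike.congr_fun (hs n) y)
    (fun n => by
      obtain ⟨U, hU, hU'⟩ := (hΦ n).opn
      exact ⟨Subtype.val ⁻¹' (U : Set (E ≃ₐ[ℚ] E)), hU.preimage continuous_subtype_val,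
        U.one_mem, fun h hh => hU' h hh⟩)
  refine ⟨ψ, hψc, ?_, ?_⟩
  · intro O hO hpO t ht ht1
    rw [hψ]
    intro n
    exact (hΦ n).inert O hO hpO t ht ht1
  · rintro ⟨m, hm, hm'⟩
    refine hinf ⟨m, hm, fun n => MonoidHom.ext fun y => ?_⟩
    obtain ⟨P, hP⟩ := exists_elt Y y
    have h1 := hm' y
    rw [act_eq, elt_spec Y y hP ψ, ← map_pow, hψ] at h1
    have h2 : actH Y (Φ n) y ^ m = 1 := by
      rw [elt_spec Y y hP (Φ n), ← map_pow, h1 n]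
    exact h2

end Vale.Agent.P024.T3
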