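import Vale.Agent.P024.H644.T8
import Vale.Agent.P024.H903.Mink

/-!
Characters from units.
-/

namespace Vale.Agent.P024.T3

open scoped NumberField
open IsDedekindDomain NumberField
open Vale.Agent.P024.TR Vale.Agent.P024.H903

variable {E : Type*} [Field E] [CharZero E]

section ev

variable (K : IntermediateField ℚ E)

/-- A unit as an element of the big field. -/
def ev : (𝓞 K)ˣ →* E :=
  (((algebraMap K E).comp (algebraMap (𝓞 K) K) : 𝓞 K →+* E) : 𝓞 K →* E).comp (Units.coeHom (𝓞 K))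

variable {K}

theorem ev_apply (u : (𝓞 K)ˣ) : ev K u = (((u : 𝓞 K) : K) : E) := rfl

theorem ev_ne (u : (𝓞 K)ˣ) : ev K u ≠ 0 := by
  intro h
  have h1 : ev K u * ev K u⁻¹ = 1 := by rw [← map_mul, mul_inv_cancel, map_one]
  rw [h, zero_mul] at h1
  exact zero_ne_one h1

theorem ev_inv (u : (𝓞 K)ˣ) : ev K u⁻¹ = (ev K u)⁻¹ := by
  have h1 : ev K u * ev K u⁻¹ = 1 := by rw [← map_mul, mul_inv_cancel, map_one]
  exact eq_inv_of_mul_eq_one_right h1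

theorem ev_zpow (u : (𝓞 K)ˣ) (k : ℤ) : ev K (u ^ k) = ev K u ^ k := by
  cases k with
  | ofNat k => simp
  | negSucc k => rw [zpow_negSucc, zpow_negSucc, ev_inv, map_pow]

theorem ev_inj : Function.Injective (ev K) := by
  intro u v h
  apply Units.ext
  apply RingOfIntegers.ext
  exact Subtype.ext h

theorem ev_mem (u : (𝓞 K)ˣ) : ev K u ∈ K := Subtype.property _

theorem ev_int (u : (𝓞 K)ˣ) : IsIntegral ℤ (ev K u) := by
  have h1 : IsIntegral ℤ (((u : 𝓞 K) : K)) := RingOfIntegers.isIntegral_coe _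
  exact h1.map (algebraMap K E).toIntAlgHom

theorem ev_val (u : (𝓞 K)ˣ) (O : ValuationSubring E) : O.valuation (ev K u) = 1 := by
  have key : ∀ v : (𝓞 K)ˣ, O.valuation (ev K v) ≤ 1 := by
    intro v
    rw [ValuationSubring.valuation_le_one_iff]
    have h1 : IsIntegral O (ev K v) := (ev_int v).tower_top
    obtain ⟨y, hy⟩ := IsIntegrallyClosed.isIntegral_iff.1 h1
    rw [← hy]
    exact y.2
  refine le_antisymm (key u) ?_
  have h1 := key u⁻¹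
  rw [ev_inv, map_inv₀] at h1
  have h2 : O.valuation (ev K u) ≠ 0 := by
    rw [Ne, map_eq_zero]
    exact ev_ne u
  exact (inv_le_one₀ (zero_lt_iff.2 h2)).1 h1

/-- A root of a unit is a unit. -/
theorem unit_of_pow {N : ℕ} (hN : 0 < N) {x : E} (hx : x ∈ K) {w : (𝓞 K)ˣ}
    (h : x ^ N = ev K w) : ∃ z : (𝓞 K)ˣ, ev K z = x ∧ z ^ N = w := by
  have hx0 : x ≠ 0 := by
    rintro rfl
    rw [zero_pow hN.ne'] at h
    exact ev_ne w h.symm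
  have hint : ∀ (y : K) (v : (𝓞 K)ˣ), y ^ N = ((v : 𝓞 K) : K) → IsIntegral ℤ y := by
    intro y v hy
    refine IsIntegral.of_pow hN ?_
    rw [hy]
    exact RingOfIntegers.isIntegral_coe _
  have h1 : (⟨x, hx⟩ : K) ^ N = ((w : 𝓞 K) : K) := Subtype.ext h
  have h2 : ((⟨x, hx⟩ : K)⁻¹) ^ N = (((w⁻¹ : (𝓞 K)ˣ) : 𝓞 K) : K) := by
    rw [inv_pow, h1]
    have h3 : (((w : 𝓞 K) : K)) * (((w⁻¹ : (𝓞 K)ˣ) : 𝓞 K) : K) = 1 := by
      rw [← map_mul, Units.mul_inv, map_one]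
    exact inv_eq_of_mul_eq_one_right h3
  obtain ⟨y, hy⟩ : ∃ y : 𝓞 K, (y : K) = ⟨x, hx⟩ := ⟨⟨_, hint _ _ h1⟩, rfl⟩
  obtain ⟨y', hy'⟩ : ∃ y : 𝓞 K, (y : K) = (⟨x, hx⟩ : K)⁻¹ := ⟨⟨_, hint _ _ h2⟩, rfl⟩
  have hyy : y * y' = 1 := by
    apply FaithfulSMul.algebraMap_injective (𝓞 K) K
    rw [map_mul, map_one]
    exact (congrArg₂ (· * ·) hy hy').trans
      (mul_inv_cancel₀ fun h => hx0 (congrArg Subtype.val h))
  let z : (𝓞 K)ˣ := Units.mkOfMulEqOne y y' hyy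
  have hz : ev K z = x := by
    rw [ev_apply]
    show (((y : 𝓞 K) : K) : E) = x
    rw [hy]
  exact ⟨z, hz, ev_inj (by rw [map_pow, hz, h])⟩

end ev

variable {V : Subgroup (E ≃ₐ[ℚ] E)} [hV : V.Normal] {p n : ℕ} {ζ : E} {a : ℕ}
  {S G₀ : E ≃ₐ[ℚ] E}

/-- The Galois data at level `n`. -/
structure GalD (V : Subgroup (E ≃ₐ[ℚ] E)) [V.Normal] (p n : ℕ) (ζ : E) (a : ℕ)
    (S G₀ : E ≃ₐ[ℚ] E) (K : IntermediateField ℚ E) (ι : ((E ≃ₐ[ℚ] E) ⧸ V) →* (K ≃ₐ[ℚ] K))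
    (g : K ≃ₐ[ℚ] K) : Prop where
  L : Lvl V p n ζ a S G₀
  hK : ∀ x : E, x ∈ K ↔ ∀ w ∈ WW V ζ, w x = x
  hι : ∀ s : E ≃ₐ[ℚ] E, s ζ = ζ → ∀ x : K, ((ι (QuotientGroup.mk s) x : K) : E) = s x
  hg : ∀ x : K, ((g x : K) : E) = G₀ x
  lift : ∀ q : (E ≃ₐ[ℚ] E) ⧸ V, ∃ s : E ≃ₐ[ℚ] E, s ζ = ζ ∧ QuotientGroup.mk s = q

variable {K : IntermediateField ℚ E} {ι : ((E ≃ₐ[ℚ] E) ⧸ V) →* (K ≃ₐ[ℚ] K)} {g : K ≃ₐ[ℚ] K}

theorem char_of_unit [IsGalois ℚ E] (hroot : ∀ m : ℕ, 0 < m → ∃ z : E, IsPrimitiveRoot z m)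
    (hpow : ∀ m : ℕ, 0 < m → ∀ x : E, ∃ y : E, y ^ m = x)
    (G : GalD V p n ζ a S G₀ K ι g) {m : ℕ} (hmn : m ≤ n) (u : (𝓞 K)ˣ)
    (htw : ∃ z : (𝓞 K)ˣ, uact g u = u ^ (a : ℤ) * z ^ (p ^ m))
    (hanti : ∃ z : (𝓞 K)ˣ, uact (ι (QuotientGroup.mk S)) u = u⁻¹ * z ^ (p ^ m)) :
    ∃ (y : E) (θ : V →* Eˣ), y ^ (p ^ m) = ev K u ∧ y ≠ 0 ∧ Adm p V θ ∧
      (∀ h, θ h ^ (p ^ m) = 1) ∧
      ∀ w (hw : w ∈ WW V ζ), (θ ⟨w, hw.1⟩ : E) = (w y / y) ^ 2 := by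
  have hfix : ∀ v : (𝓞 K)ˣ, ∀ w ∈ WW V ζ, w (ev K v) = ev K v := fun v =>
    (G.hK _).1 (ev_mem v)
  obtain ⟨y, hy⟩ := hpow (p ^ m) (pow_pos G.L.hp.pos m) (ev K u)
  obtain ⟨z, hz⟩ := htw
  obtain ⟨z', hz'⟩ := hanti
  have h1 : G₀ (ev K u) = ev K u ^ a * ev K z ^ (p ^ m) := by
    have h2 := congrArg (ev K) hz
    rw [map_mul, map_pow, zpow_natCast, map_pow] at h2
    rw [← h2]
    exact (G.hg _).symm
  have h2 : S (ev K u) = (ev K u)⁻¹ * ev K z' ^ (p ^ m) := by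
    have h3 := congrArg (ev K) hz'
    rw [map_mul, map_pow, ev_inv] at h3
    rw [← h3]
    exact (G.hι S G.L.hSζ _).symm
  have D := mk_dat G.L hmn (ev_ne u) (hfix u) hy ⟨_, ev_ne z, hfix z, h1⟩
    ⟨_, ev_ne z', hfix z', h2⟩
  exact ⟨y, D.ch, hy, D.y_ne, adm_ch hroot G.L D (ev_val u), D.ch_pow, fun w hw => D.ch_res w hw⟩

/-- the bound for the number of classes -/
theorem bound_units [IsGalois ℚ E] (hroot : ∀ m : ℕ, 0 < m → ∃ z : E, IsPrimitiveRoot z m)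
    (hpow : ∀ m : ℕ, 0 < m → ∀ x : E, ∃ y : E, y ^ m = x) (hp2 : p ≠ 2)
    (hVo : IsOpen (V : Set (E ≃ₐ[ℚ] E))) (hp : p.Prime)
    (G : GalD V p n ζ a S G₀ K ι g) (hn : 0 < n) (T : Finset (𝓞 K)ˣ)
    (hT : ∀ u ∈ T, (∃ z : (𝓞 K)ˣ, uact g u = u ^ (a : ℤ) * z ^ p) ∧
      ∃ z : (𝓞 K)ˣ, uact (ι (QuotientGroup.mk S)) u = u⁻¹ * z ^ p)
    (hT' : ∀ u ∈ T, ∀ v ∈ T, (∃ z : (𝓞 K)ˣ, u = v * z ^ p) → u = v) :
    T.card ≤ (adm_finite hroot hpow hp V hVo).toFinset.card := by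
  classical
  have key : ∀ u : (𝓞 K)ˣ, ∃ (y : E) (θ : V →* Eˣ), u ∈ T → y ^ p = ev K u ∧ y ≠ 0 ∧
      Adm p V θ ∧ (∀ h, θ h ^ p = 1) ∧
      ∀ w (hw : w ∈ WW V ζ), (θ ⟨w, hw.1⟩ : E) = (w y / y) ^ 2 := by
    intro u
    by_cases hu : u ∈ T
    · obtain ⟨y, θ, h1, h2, h3, h4, h5⟩ := char_of_unit hroot hpow G (m := 1) hn u
        (by simpa using (hT u hu).1) (by simpa using (hT u hu).2)
      rw [pow_one] at h1 h4
      exact ⟨y, θ, fun _ => ⟨h1, h2, h3, h4, h5⟩⟩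
    · exact ⟨1, 1, fun h => absurd h hu⟩
  choose y θ hyθ using key
  refine Finset.card_le_card_of_injOn θ ?_ ?_
  · intro u hu
    obtain ⟨-, -, h3, h4, -⟩ := hyθ u hu
    rw [Set.Finite.coe_toFinset]
    exact ⟨h3, MonoidHom.ext h4⟩
  · intro u hu v hv huv
    obtain ⟨h1, h2, -, -, h5⟩ := hyθ u hu
    obtain ⟨k1, k2, -, -, k5⟩ := hyθ v hv
    have hfix : ∀ w ∈ WW V ζ, w (y u / y v) = y u / y v := by
      intro w hw
      have e1 := h5 w hw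
      rw [huv, k5 w hw] at e1
      have hwu : w (y u) ≠ 0 := by rw [map_ne_zero]; exact h2
      have hwv : w (y v) ≠ 0 := by rw [map_ne_zero]; exact k2
      set r := w (y u / y v) / (y u / y v) with hr
      have hr2 : r ^ 2 = 1 := by
        rw [hr, map_div₀]
        have e2 : (w (y u) / w (y v) / (y u / y v)) ^ 2 =
            (w (y u) / y u) ^ 2 / (w (y v) / y v) ^ 2 := by
          field_simp
        rw [e2, e1, div_self]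
        exact pow_ne_zero _ (div_ne_zero hwu h2)
      have hrp : r ^ p = 1 := by
        rw [hr, div_pow, ← map_pow, div_pow, h1, k1, map_div₀, (G.hK _).1 (ev_mem u) w hw,
          (G.hK _).1 (ev_mem v) w hw, div_self (div_ne_zero (ev_ne u) (ev_ne v))]
      have hodd : Odd p := hp.odd_of_ne_two hp2
      obtain ⟨k, hk⟩ := hodd
      rw [hk, pow_succ, pow_mul, hr2, one_pow, one_mul] at hrp
      rw [hr] at hrp
      exact (div_eq_one_iff_eq (div_ne_zero h2 k2)).1 hrp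
    have hmem : y u / y v ∈ K := (G.hK _).2 hfix
    obtain ⟨z, -, hz⟩ := unit_of_pow hp.pos hmem (w := u * v⁻¹) (by
      rw [div_pow, h1, k1, map_mul, ev_inv, div_eq_mul_inv])
    exact hT' u hu v hv ⟨z, by rw [hz, mul_comm u, mul_inv_cancel_left]⟩

/-- a character of large order -/
theorem unb_unit [IsGalois ℚ E] (hroot : ∀ m : ℕ, 0 < m → ∃ z : E, IsPrimitiveRoot z m)
    (hpow : ∀ m : ℕ, 0 < m → ∀ x : E, ∃ y : E, y ^ m = x) (hp2 : p ≠ 2)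
    [Fintype ((E ≃ₐ[ℚ] E) ⧸ V)] (Y : MonoidAlgebra ℤ ((E ≃ₐ[ℚ] E) ⧸ V))
    (G : GalD V p n ζ a S G₀ K ι g) (u : (𝓞 K)ˣ)
    (htw : ∃ z : (𝓞 K)ˣ, uact g u = u ^ (a : ℤ) * z ^ (p ^ n))
    (hanti : uact (ι (QuotientGroup.mk S)) u = u⁻¹) (B : ℕ)
    (hB : ¬ ∃ z : (𝓞 K)ˣ, (∏ t, (uact (ι t) u) ^ Y.coeff t) ^ (p ^ B) = z ^ (p ^ n)) :
    ∃ θ : V →* Eˣ, Adm p V θ ∧ (∃ k : ℕ, ∀ y, θ y ^ p ^ k = 1) ∧
      ∃ y : V, actH Y θ y ^ p ^ B ≠ 1 := by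
  classical
  have hp := G.L.hp
  have hN := pow_pos hp.pos n
  obtain ⟨y, θ, hy, hy0, hadm, hpk, hres⟩ := char_of_unit hroot hpow G le_rfl u htw
    ⟨1, by rw [one_pow, mul_one]; exact hanti⟩
  refine ⟨θ, hadm, ⟨n, hpk⟩, ?_⟩
  by_contra hcon
  push Not at hcon
  apply hB
  choose s hsζ hsq using G.lift
  set P : E := ∏ q, (s q y) ^ Y.coeff q with hP
  have hsy0 : ∀ q, s q y ≠ 0 := fun q => by rw [map_ne_zero]; exact hy0
  have hP0 : P ≠ 0 := Finset.prod_ne_zero_iff.2 fun q _ => zpow_ne_zero _ (hsy0 q)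
  have hsu : ∀ q, s q (ev K u) = ev K (uact (ι q) u) := by
    intro q
    have h1 := G.hι (s q) (hsζ q) ((u : 𝓞 K) : K)
    rw [hsq q] at h1
    exact h1.symm
  have hPN : P ^ (p ^ n) = ev K (∏ t, (uact (ι t) u) ^ Y.coeff t) := by
    rw [hP, ← Finset.prod_pow, map_prod]
    refine Finset.prod_congr rfl fun q _ => ?_
    rw [ev_zpow, ← hsu, ← hy, map_pow, ← zpow_natCast, ← zpow_natCast, ← zpow_mul, ← zpow_mul,
      mul_comm]
  have hcj : ∀ q (w : E ≃ₐ[ℚ] E) (hw : w ∈ WW V ζ),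
      ((cj (Quotient.out q) θ ⟨w, hw.1⟩ : Eˣ) : E) = (w (s q y) / s q y) ^ 2 := by
    intro q w hw
    have h1 : (Quotient.out q : E ≃ₐ[ℚ] E)⁻¹ * s q ∈ V := by
      rw [← QuotientGroup.eq, QuotientGroup.out_eq', hsq]
    rw [cj_eq _ _ h1 θ, cj_apply (s q) θ ⟨w, hw.1⟩ (mem_cj (s q) ⟨w, hw.1⟩)]
    have hw' : (s q)⁻¹ * w * s q ∈ WW V ζ := by
      have := conj_WW hN G.L.hζ hw (s q)⁻¹
      rwa [inv_inv] at this
    have h2 := hres _ hw'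
    have h3 : (θ ⟨(s q)⁻¹ * w * s q, hw'.1⟩ : E) = (((s q)⁻¹ * w * s q) y / y) ^ 2 := h2
    have h4 : ((s q)⁻¹ * w * s q) y / y = w (s q y) / s q y := by
      have hpow1 : (w (s q y) / s q y) ^ (p ^ n) = 1 := by
        rw [div_pow, ← map_pow w, ← map_pow (s q), hy, hsu, (G.hK _).1 (ev_mem _) w hw,
          div_self (ev_ne _)]
      have hnz : NeZero (p ^ n) := ⟨hN.ne'⟩
      obtain ⟨i, -, hi⟩ := G.L.hζ.eq_pow_of_pow_eq_one hpow1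
      have h5 : (s q)⁻¹ (w (s q y) / s q y) = w (s q y) / s q y := by
        rw [← hi, map_pow, inv_fix (hsζ q)]
      rw [← h5, map_div₀, AlgEquiv.mul_apply, AlgEquiv.mul_apply, ← AlgEquiv.mul_apply (s q)⁻¹ (s q),
        inv_mul_cancel, AlgEquiv.one_apply]
    rw [← h4, ← h3]
  have hfix : ∀ w ∈ WW V ζ, w (P ^ p ^ B) = P ^ p ^ B := by
    intro w hw
    have h1 : (actH Y θ ⟨w, hw.1⟩ : E) = (w P / P) ^ 2 := by
      have h2 : actH Y θ ⟨w, hw.1⟩ = ∏ q, (cj (Quotient.out q) θ ⟨w, hw.1⟩) ^ Y.coeff q := by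
        rw [actH_apply]
        refine Finset.prod_congr rfl fun q _ => ?_
        rw [← cj_apply]
      rw [h2, Units.coe_prod, hP, map_prod, ← Finset.prod_div_distrib, ← Finset.prod_pow]
      refine Finset.prod_congr rfl fun q _ => ?_
      rw [Units.val_zpow_eq_zpow_val, hcj q w hw, map_zpow₀, ← div_zpow, ← zpow_natCast,
        ← zpow_natCast, ← zpow_mul, ← zpow_mul, mul_comm]
    have h2 := congrArg Units.val (hcon ⟨w, hw.1⟩)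
    rw [Units.val_pow_eq_pow_val, h1, Units.val_one] at h2
    set r := (w P / P) ^ p ^ B with hr
    have hr2 : r ^ 2 = 1 := by
      rw [hr, ← pow_mul, mul_comm, pow_mul]
      exact h2
    have hrN : r ^ (p ^ n) = 1 := by
      rw [hr, ← pow_mul, mul_comm, pow_mul, div_pow, ← map_pow, hPN, (G.hK _).1 (ev_mem _) w hw,
        div_self (ev_ne _), one_pow]
    obtain ⟨k, hk⟩ := (hp.odd_of_ne_two hp2).pow (n := n)
    rw [hk, pow_succ, pow_mul, hr2, one_pow, one_mul] at hrN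
    rw [hr, div_pow, div_eq_one_iff_eq (pow_ne_zero _ hP0)] at hrN
    rw [map_pow]
    exact hrN
  obtain ⟨z, -, hz⟩ := unit_of_pow hN ((G.hK _).2 hfix)
    (w := (∏ t, (uact (ι t) u) ^ Y.coeff t) ^ (p ^ B)) (by
      rw [← pow_mul, mul_comm, pow_mul, hPN, map_pow])
  exact ⟨z, hz.symm⟩

end Vale.Agent.P024.T3
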